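import Crest.Agent.R300.U.Defs
/-!
Row 300, upper bound: frozen statements of the pieces (each is proved in its own file as
`theorem xxx : XxxStatement`), see notes(rid=300) kind=blueprint by helper300.
-/
set_option autoImplicit false

namespace Crest.Agent.R300U

/-- Level step (chain in L², Claim B, averaging inequality, Jensen): from products to deep values.
`C0` is the frequency ratio, `C1` the additive loss. -/
def LevelStepStatement : Prop :=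
  ∃ C0 C1 : ℝ, 1 ≤ C0 ∧ 0 ≤ C1 ∧
    ∀ (n D : ℕ) (E : PE n D) (x : Fin n → Bool) (t : ℕ) (c : Code) (τ r A σ₁ σ₂ : ℝ),
      (∀ nd ∈ c, 0 < nd.τ ∧ 1 ≤ nd.k) → 6 * leaves c ≤ D → Prefix E x t → 0 < τ → 0 < r →
      r ≤ Real.pi →
      ProdKnown E x t c τ r (Real.sqrt τ) A →
      C0 * Real.sqrt τ ≤ σ₁ → σ₂ ≤ r / C0 →
      DeepKnown E x t c τ σ₁ σ₂ ((3 / 20) * A - C1 - 4 * Real.log (1 + r / Real.sqrt τ))

/-- Last step: full circle of frequencies, conclusion at the letter `t` itself. -/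
def FinalStepStatement : Prop :=
  ∃ C1 : ℝ, 0 ≤ C1 ∧
    ∀ (n D : ℕ) (E : PE n D) (x : Fin n → Bool) (t : ℕ) (τ A : ℝ),
      6 ≤ D → t < n → Prefix E x t → 0 < τ →
      ProdKnown E x t [] τ Real.pi (Real.sqrt τ) A →
      E.N (dev x (xv t)) ≤
        Wt τ * Real.exp (-((3 / 20) * A - C1 - 4 * Real.log (1 + Real.pi / Real.sqrt τ)))

/-- Superposition (kinked contour in the location variable, Gaussian decoupling of the children):
from deep values of the composites `nd :: c` in the wide window `τ'` to products of `c` in the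
narrow window `τ`. -/
def SuperpositionStatement : Prop :=
  ∃ C2 : ℝ, 0 ≤ C2 ∧
    ∀ (n D : ℕ) (E : PE n D) (x : Fin n → Bool) (t : ℕ) (c : Code) (τ' τ r A B : ℝ),
      (∀ nd ∈ c, 0 < nd.τ ∧ 1 ≤ nd.k) → 4 * leaves c ≤ D → Prefix E x t →
      0 < τ' → 1000 * τ' ≤ τ → 1 ≤ A → A ≤ B → 32 * Real.sqrt (B * τ) ≤ r →
      (∀ nd : Node, 2 ≤ nd.k → nd.k ≤ 4 → nd.τ = τ → nd.ρ ≤ 12 * Real.sqrt (B * τ) →
        (∀ a, |nd.f a| ≤ 2 * r) →
        DeepKnown E x t (nd :: c) τ' (Real.sqrt τ) (32 * Real.sqrt (B * τ)) A) →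
      ProdKnown E x t c τ r (Real.sqrt τ) (A - C2 - (1 / 2) * Real.log (τ / τ'))

/-- Parameter schedule: levels `0..h`, window parameters `τ`, accuracies `A`, frequency ranges `r`,
dampings `β`; `B j = 2 * A j` is the range parameter used in the node class. -/
structure Sched where
  h : ℕ
  τ : ℕ → ℝ
  A : ℕ → ℝ
  r : ℕ → ℝ
  β : ℕ → ℝ

/-- Admissible codes with head at level `j` (the letter sits at level `h+1`). -/
def Adm (s : Sched) : ℕ → Code → Prop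
  | j, [] => j = s.h + 1
  | j, nd :: c => 2 ≤ nd.k ∧ nd.k ≤ 4 ∧ nd.τ = s.τ j ∧ nd.ρ ≤ 12 * Real.sqrt (2 * s.A j * s.τ j) ∧
      (∀ a, |nd.f a| ≤ 2 * s.r j) ∧ Adm s (j + 1) c

/-- Total cost exponent of the conversion at the top level. -/
noncomputable def Sched.cost (s : Sched) (n : ℕ) : ℝ :=
  s.A 0 + 4 * (s.β 0 * n + n ^ 2 * s.τ 0) +
    ∑ j ∈ Finset.range (s.h + 1), (4 : ℝ) ^ (j + 1) *
      (10 + 2 * s.β j ^ 2 / s.τ j + 600 * s.A j + 10 * |Real.log (s.τ j)|) +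
    100 * (s.h + 1) * (4 : ℝ) ^ (s.h + 1)

/-- Access: pure statistics (retention `1-q`) determine the top-level products. -/
def AccessStatement : Prop :=
  ∀ (n D : ℕ) (E : PE n D) (x : Fin n → Bool) (t : ℕ) (q : ℝ) (s : Sched) (c : Code) (b : ℝ),
    0 < q → q ≤ 1 / 24 → t ≤ n → 2 * 4 ^ (s.h + 1) ≤ D →
    (∀ j ≤ s.h, 0 < s.τ j ∧ 1 ≤ s.A j ∧ 0 ≤ s.β j ∧ 0 ≤ s.r j ∧
      min (12 * q * s.r j) (16 * q * ((s.h + 1) * 4 ^ (j + 1)) * s.r j ^ 2) ≤ s.β j) →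
    Adm s 1 c →
    PureKnown E x (1 - q) (4 ^ (s.h + 1)) (Real.exp (-b)) →
    s.cost n ≤ b →
    ProdKnown E x t c (s.τ 0) (s.r 0) (Real.sqrt (s.τ 0)) (s.A 0)

/-- Closed form of the trace moments. -/
def TFormStatement : Prop :=
  ∀ (n l : ℕ) (p : ℝ) (a : Fin l → ℕ), StrictMono a →
    (Tc p (Finset.univ.image a) : R n) = Tmom p a

/-- From trace moments to pure statistics (binomial identity; three lines for small retention). -/
def PureOfDataStatement : Prop :=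
  ∀ (n D : ℕ) (E : PE n D) (x : Fin n → Bool) (p p' : ℝ) (K : ℕ) (β b : ℝ),
    1 ≤ n → K ≤ D → 0 < p → p < 1 → 0 < p' → p' < 1 → 0 ≤ β →
    Data E x p K β →
    (p' ≤ p → (K : ℝ) * Real.log (1 / p) + K * Real.log (n + 1) + b ≤ -Real.log β ∨ β = 0 →
      PureKnown E x p' K (Real.exp (-b))) ∧
    (p < p' → ((K : ℝ) * Real.log (1 / p) + K * Real.log (n + 1) +
        (b + K * Real.log (2 * n + 2)) / ((1 - p') * p) ≤ -Real.log β ∨ β = 0) →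
      PureKnown E x p' K (Real.exp (-b)))

/-- The schedule exists with total cost `O(log n · X²)`. -/
def SchedStatement : Prop :=
  ∀ C0 C1 C2 : ℝ, 1 ≤ C0 → 0 ≤ C1 → 0 ≤ C2 → ∃ q0 C : ℝ, 0 < q0 ∧ q0 ≤ 1 / 24 ∧ 1 ≤ C ∧
    ∀ (n : ℕ) (q : ℝ), 2 ≤ n → 0 < q → q ≤ q0 → min (1 / (n : ℝ)) q0 ≤ q → ∃ s : Sched,
      (∀ j ≤ s.h, 0 < s.τ j ∧ 1 ≤ s.A j ∧ 0 ≤ s.β j ∧ 0 < s.r j ∧ s.r j ≤ Real.pi ∧
        min (12 * q * s.r j) (16 * q * ((s.h + 1) * 4 ^ (j + 1)) * s.r j ^ 2) ≤ s.β j) ∧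
      s.r s.h = Real.pi ∧
      (∀ j < s.h, 1000 * s.τ j ≤ s.τ (j + 1) ∧ C0 * Real.sqrt (s.τ j) ≤ Real.sqrt (s.τ (j + 1)) ∧
        32 * Real.sqrt (2 * s.A (j + 1) * s.τ (j + 1)) ≤ s.r j / C0 ∧
        32 * Real.sqrt (2 * s.A (j + 1) * s.τ (j + 1)) ≤ s.r (j + 1) ∧
        C2 + (1 / 2) * Real.log (s.τ (j + 1) / s.τ j) ≤ s.A (j + 1) ∧
        s.A (j + 1) + C2 + (1 / 2) * Real.log (s.τ (j + 1) / s.τ j) ≤
          (3 / 20) * s.A j - C1 - 4 * Real.log (1 + s.r j / Real.sqrt (s.τ j))) ∧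
      Wt (s.τ s.h) *
        Real.exp (-((3 / 20) * s.A s.h - C1 - 4 * Real.log (1 + Real.pi / Real.sqrt (s.τ s.h)))) < 1 / 2 ∧
      s.cost n ≤ C * (Real.log n * (1 + Real.log n / (1 + Real.log (1 / q))) ^ 2) ∧
      (4 : ℝ) ^ (s.h + 1) * Real.log n ≤ C * (Real.log n * (1 + Real.log n / (1 + Real.log (1 / q))) ^ 2)

/-- Main theorem of the upper bound. -/
def UMainStatement : Prop :=
  ∃ C : ℝ, 1 ≤ C ∧ ∀ (n : ℕ) (p : ℝ), 2 ≤ n → 0 < p → p < 1 → ∃ K : ℕ, 1 ≤ K ∧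
    (K : ℝ) * Real.log n ≤ C * (p⁻¹ * Real.log n *
      (1 + Real.log n / (1 + Real.log (1 / (1 - p)))) ^ 2) ∧
    ∀ (D : ℕ) (E : PE n D) (x : Fin n → Bool) (t : ℕ), 2 * K ≤ D → t < n → Prefix E x t →
      Data E x p K (Real.exp (-(C * (p⁻¹ * Real.log n *
        (1 + Real.log n / (1 + Real.log (1 / (1 - p)))) ^ 2)))) →
      E.N (dev x (xv t)) < 1 / 2

end Crest.Agent.R300U
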