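import Mathlib
import Crest.Agent.R300.ProbSym
import Crest.Agent.R300.U.Iface

/-!
# Row 300: evaluation pseudo-expectation; separation theorem and S0456 from `UMainStatement`
-/

set_option autoImplicit false

namespace Crest.Agent.R300U

open Crest.FinProb Crest.TraceRecon Finset

noncomputable section

theorem stat_eq (a : Finset ℕ) (y : List Bool) : stat a y = R300.Prob.stat a y := rfl

theorem TT_eq {n : ℕ} (p : ℝ) (a : Finset ℕ) (x : Fin n → Bool) :
    TT p a x = R300.Prob.T p x a := rfl

/-- evaluation at a word is a pseudo-expectation of every degree -/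
def evalPE {n : ℕ} (D : ℕ) (y : Fin n → Bool) : PE n D where
  L := { toFun := fun f => f y, map_add' := fun _ _ => rfl, map_smul' := fun _ _ => rfl }
  one := rfl
  herm := fun _ => rfl
  pos := by
    intro P c _
    show 0 ≤ (star (P y) * P y).re
    have : star (P y) * P y = ((Complex.normSq (P y) : ℝ) : ℂ) := by
      rw [mul_comm]; exact Complex.mul_conj _
    rw [this, Complex.ofReal_re]
    exact Complex.normSq_nonneg _

theorem evalPE_N {n : ℕ} (D : ℕ) (y : Fin n → Bool) (P : R n) :
    (evalPE D y).N P = ‖P y‖ := by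
  unfold PE.N
  have : (evalPE D y).L (star P * P) = star (P y) * P y := rfl
  rw [this]
  have : star (P y) * P y = ((Complex.normSq (P y) : ℝ) : ℂ) := by
    rw [mul_comm]; exact Complex.mul_conj _
  rw [this, Complex.ofReal_re]
  rfl

/-- The separation theorem for binary words. -/
theorem SEP_of_UMain (h : UMainStatement) : R300.Prob.SEP := by
  obtain ⟨C, hC1, hC⟩ := h
  refine ⟨C, hC1, fun n hn p hp0 hp1 => ?_⟩
  obtain ⟨K, hK1, hK, hmain⟩ := hC n p hn hp0 hp1
  refine ⟨K, Real.exp (-(C * R300.Prob.YY n p)), Real.exp_pos _, hK, le_rfl, ?_⟩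
  intro x y hxy
  by_contra hne
  -- first difference
  have hex : ∃ t : ℕ, ∃ ht : t < n, x ⟨t, ht⟩ ≠ y ⟨t, ht⟩ := by
    by_contra hcon
    push Not at hcon
    exact hne (funext fun i => hcon i i.2)
  classical
  obtain ⟨htn, htne⟩ := Nat.find_spec hex
  set t := Nat.find hex with ht
  have hpre : ∀ u < t, ∀ hu : u < n, x ⟨u, hu⟩ = y ⟨u, hu⟩ := by
    intro u hu hun
    by_contra hc
    exact Nat.find_min hex hu ⟨hun, hc⟩
  have hP : Prefix (evalPE (2 * K) y) x t := by
    intro u hu
    rw [evalPE_N]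
    have : (dev x (xv u) : R n) y = 0 := by
      show (xv u : R n) y - (xv u : R n) x = 0
      unfold xv
      by_cases hun : u < n
      · simp only [dif_pos hun, hpre u hu hun, sub_self]
      · simp only [dif_neg hun, sub_self]
    rw [this, norm_zero]
  have hD : Data (evalPE (2 * K) y) x p K (Real.exp (-(C * (p⁻¹ * Real.log n *
        (1 + Real.log n / (1 + Real.log (1 / (1 - p)))) ^ 2)))) := by
    intro a haK han
    rw [evalPE_N]
    have h1 := hxy a (fun j hj => Finset.mem_range.mpr (han j hj)) haK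
    have h2 : (dev x (Tc p a) : R n) y
        = (((R300.Prob.T p y a - R300.Prob.T p x a : ℝ)) : ℂ) := by
      show ((TT p a y : ℝ) : ℂ) - ((TT p a x : ℝ) : ℂ) = _
      rw [TT_eq, TT_eq]; push_cast; ring
    rw [h2, Complex.norm_real, Real.norm_eq_abs, abs_sub_comm]
    exact h1
  have hfin := hmain (2 * K) (evalPE (2 * K) y) x t le_rfl htn hP hD
  rw [evalPE_N] at hfin
  have h3 : ‖(dev x (xv t) : R n) y‖ = 1 := by
    have : (dev x (xv t) : R n) y = (if y ⟨t, htn⟩ = true then (1 : ℂ) else 0)
        - (if x ⟨t, htn⟩ = true then 1 else 0) := by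
      show (xv t : R n) y - (xv t : R n) x = _
      unfold xv
      simp only [dif_pos htn]
    rw [this]
    cases hx : x ⟨t, htn⟩ <;> cases hy : y ⟨t, htn⟩
    · exact absurd (hx.trans hy.symm) htne
    · simp
    · simp
    · exact absurd (hx.trans hy.symm) htne
  rw [h3] at hfin
  norm_num at hfin

/-- S0456 from the main theorem. -/
theorem sample_upper_of_UMain (h : UMainStatement) :
    ∃ C : ℝ, ∀ s : ℕ, 2 ≤ s → ∀ n : ℕ, 2 ≤ n → ∀ p : ℝ, 0 < p → p < 1 →
      ∃ m : ℕ, (m : ℝ) ≤ Real.exp (C * p⁻¹ * Real.log n *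
          (1 + Real.log n / (1 + Real.log (1 / (1 - p)))) ^ 2 *
          (1 + Real.log (1 + Real.log n / (1 + Real.log (1 / (1 - p))))) ^ 6) ∧
        ∃ K : (Fin m → List (Fin s)) → (Fin n → Fin s) → ℝ, IsSymRule K ∧
          ∀ x : Fin n → Fin s, 2 / 3 ≤ symSuccessProb p K x :=
  R300.Prob.sample_upper_of_SEP (SEP_of_UMain h)

end

end Crest.Agent.R300U
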