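import Mathlib
import Crest.Agent.R300.ProbSym
import Crest.Agent.R300.U.Eval
import Crest.Prelude.Def_Randomized
import Crest.Prelude.Def_TraceDecoder

/-!
# Row 300: from `UMainStatement` and a correct decoder to S0457

* `That τ a`: empirical mean of the statistic `stat a` over the traces `τ`;
* `Ident n p K b x`: a pseudo-expectation of degree `2K` which knows the prefix before `t` and all
  trace moments of at most `K` letters up to `b` knows the letter `t`;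
* `exists_budget`: with the trace budget `m`, the numbers `K = log2 m / (k1 * size n)` and
  `b = 2 ^ (-(log2 m / k2))` identify every word;
* `decoder_of_correct`: the statement S0457.
-/

set_option autoImplicit false

namespace Crest.Agent.R300U

open Crest.FinProb Crest.TraceRecon Crest.Randomized Finset

noncomputable section

/-- The empirical mean of `stat a` over the observed traces. -/
def That {m : ℕ} (τ : Fin m → List Bool) (a : Finset ℕ) : ℝ :=
  (∑ k, stat a (τ k)) / m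

theorem That_eq {m : ℕ} (τ : Fin m → List Bool) (a : Finset ℕ) :
    That τ a = R300.Prob.That τ a := rfl

theorem stat_nonneg (a : Finset ℕ) (y : List Bool) : 0 ≤ stat a y :=
  R300.Prob.stat_nonneg a y

theorem stat_le_one (a : Finset ℕ) (y : List Bool) : stat a y ≤ 1 :=
  R300.Prob.stat_le_one a y

theorem That_nonneg {m : ℕ} (τ : Fin m → List Bool) (a : Finset ℕ) : 0 ≤ That τ a := by
  unfold That
  exact div_nonneg (Finset.sum_nonneg fun k _ => stat_nonneg _ _) (Nat.cast_nonneg _)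

theorem That_le_one {m : ℕ} (τ : Fin m → List Bool) (a : Finset ℕ) : That τ a ≤ 1 := by
  unfold That
  rcases Nat.eq_zero_or_pos m with h | h
  · subst h; simp
  · rw [div_le_one (by exact_mod_cast h)]
    calc ∑ k, stat a (τ k) ≤ ∑ _k : Fin m, (1 : ℝ) :=
          Finset.sum_le_sum fun k _ => stat_le_one _ _
      _ = m := by simp

theorem TT_nonneg {n : ℕ} {p : ℝ} (h0 : 0 ≤ p) (h1 : p ≤ 1) (a : Finset ℕ) (x : Fin n → Bool) :
    0 ≤ TT p a x := by
  unfold TT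
  exact Finset.sum_nonneg fun k _ => mul_nonneg (R300.Prob.bw_nonneg h0 h1 _) (stat_nonneg _ _)

theorem TT_le_one {n : ℕ} {p : ℝ} (h0 : 0 ≤ p) (h1 : p ≤ 1) (a : Finset ℕ) (x : Fin n → Bool) :
    TT p a x ≤ 1 := by
  unfold TT
  rw [← R300.Prob.sum_bw (ι := Fin n) p]
  refine Finset.sum_le_sum fun k _ => ?_
  calc bernoulliWeight p k * stat a (traceOf x k) ≤ bernoulliWeight p k * 1 :=
        mul_le_mul_of_nonneg_left (stat_le_one _ _) (R300.Prob.bw_nonneg h0 h1 _)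
    _ = _ := mul_one _

theorem length_traceOf_le {n : ℕ} (x : Fin n → Bool) (keep : Fin n → Bool) :
    (traceOf x keep).length ≤ n := by
  unfold traceOf
  rw [List.length_map]
  exact (List.length_filter_le _ _).trans (by simp)

/-- Local identification of the letters. -/
def Ident (n : ℕ) (p : ℝ) (K : ℕ) (b : ℝ) (x : Fin n → Bool) : Prop :=
  ∀ (E : PE n (2 * K)) (t : ℕ), t < n → Prefix E x t → Data E x p K b →
    E.N (dev x (xv t)) < 1 / 2

theorem Data.mono {n D : ℕ} {E : PE n D} {x : Fin n → Bool} {p : ℝ} {K K' : ℕ} {β β' : ℝ}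
    (h : Data E x p K β) (hK : K' ≤ K) (hβ : β ≤ β') : Data E x p K' β' :=
  fun a ha1 ha2 => (h a (ha1.trans hK) ha2).trans hβ

/-! ### arithmetic of the budget -/

theorem le_log2_of_exp_le {m : ℕ} {y : ℝ} (h : Real.exp y ≤ m) : y - 1 ≤ (Nat.log2 m : ℝ) := by
  have hm : (0 : ℝ) < m := lt_of_lt_of_le (Real.exp_pos _) h
  have hm' : m ≠ 0 := by rintro rfl; simp at hm
  have h1 : m < 2 ^ (Nat.log2 m + 1) := (Nat.log2_lt hm').mp (Nat.lt_succ_self _)
  have h2 : (m : ℝ) < 2 ^ (Nat.log2 m + 1) := by exact_mod_cast h1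
  have h3 : y ≤ Real.log m := (Real.le_log_iff_exp_le hm).mpr h
  have h4 : Real.log m < Real.log (2 ^ (Nat.log2 m + 1)) := Real.log_lt_log hm h2
  rw [Real.log_pow] at h4
  have h5 := Real.log_two_lt_d9
  have h6 : (0 : ℝ) ≤ (Nat.log2 m : ℝ) + 1 := by positivity
  push_cast at h4
  nlinarith

theorem size_le_log {n : ℕ} (hn : 2 ≤ n) : (Nat.size n : ℝ) ≤ 3 * Real.log n := by
  have hn0 : (0 : ℝ) < n := by positivity
  have h1 : 2 ^ (Nat.size n - 1) ≤ n := by
    by_contra hcon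
    push Not at hcon
    have := Nat.size_le.mpr hcon
    have h2 : 0 < Nat.size n := Nat.size_pos.mpr (by omega)
    omega
  have h2 : 0 < Nat.size n := Nat.size_pos.mpr (by omega)
  have h3 : ((2 : ℝ) ^ (Nat.size n - 1)) ≤ n := by exact_mod_cast h1
  have h4 : Real.log ((2 : ℝ) ^ (Nat.size n - 1)) ≤ Real.log n :=
    Real.log_le_log (by positivity) h3
  rw [Real.log_pow] at h4
  have h5 : ((Nat.size n - 1 : ℕ) : ℝ) = (Nat.size n : ℝ) - 1 := by
    rw [Nat.cast_sub (by omega)]; simp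
  rw [h5] at h4
  have h6 := Real.log_two_gt_d9
  have h7 : Real.log 2 ≤ Real.log n := Real.log_le_log (by norm_num) (by exact_mod_cast hn)
  nlinarith

/-- the exponent of the budget -/
def BB (n : ℕ) (p : ℝ) : ℝ :=
  p⁻¹ * Real.log n * (1 + Real.log n / (1 + Real.log (1 / (1 - p)))) ^ 2

theorem one_le_X {n : ℕ} (hn : 2 ≤ n) {p : ℝ} (hp0 : 0 < p) (hp1 : p < 1) :
    1 ≤ 1 + Real.log n / (1 + Real.log (1 / (1 - p))) := by
  have h1 : 0 ≤ Real.log (1 / (1 - p)) := by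
    apply Real.log_nonneg
    rw [le_div_iff₀ (by linarith)]
    linarith
  have h2 : 0 ≤ Real.log n := Real.log_nonneg (by exact_mod_cast (by omega : 1 ≤ n))
  have : 0 ≤ Real.log n / (1 + Real.log (1 / (1 - p))) := div_nonneg h2 (by linarith)
  linarith

theorem BB_ge {n : ℕ} (hn : 2 ≤ n) {p : ℝ} (hp0 : 0 < p) (hp1 : p < 1) : 0.69 ≤ BB n p := by
  unfold BB
  have hX := one_le_X hn hp0 hp1
  have h7 : Real.log 2 ≤ Real.log n := Real.log_le_log (by norm_num) (by exact_mod_cast hn)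
  have h6 := Real.log_two_gt_d9
  have h8 : 1 ≤ p⁻¹ := (one_le_inv₀ hp0).mpr hp1.le
  have h9 : (1 : ℝ) ≤ (1 + Real.log n / (1 + Real.log (1 / (1 - p)))) ^ 2 :=
    one_le_pow₀ hX
  calc (0.69 : ℝ) ≤ Real.log n := by linarith
    _ ≤ p⁻¹ * Real.log n := le_mul_of_one_le_left (by linarith) h8
    _ ≤ p⁻¹ * Real.log n * (1 + Real.log n / (1 + Real.log (1 / (1 - p)))) ^ 2 :=
        le_mul_of_one_le_right (mul_nonneg (by linarith) (by linarith)) h9

theorem exp_le_traceBudget {C : ℝ} (hC : 0 ≤ C) {n : ℕ} (hn : 2 ≤ n) {p : ℝ} (hp0 : 0 < p)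
    (hp1 : p < 1) : Real.exp (C * BB n p) ≤ traceBudget C n p := by
  unfold traceBudget
  refine le_trans (Real.exp_le_exp.mpr ?_) (Nat.le_ceil _)
  refine mul_le_mul_of_nonneg_left ?_ hC
  have hX := one_le_X hn hp0 hp1
  have hB := BB_ge hn hp0 hp1
  have h1 : (1 : ℝ) ≤ (1 + Real.log (1 + Real.log n / (1 + Real.log (1 / (1 - p))))) ^ 6 := by
    apply one_le_pow₀
    have := Real.log_nonneg hX
    linarith
  have hB' : 0 ≤ BB n p := by linarith
  unfold BB at hB' ⊢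
  exact le_mul_of_one_le_right hB' h1

theorem exists_budget (hU : UMainStatement) (k1 k2 M0 : ℕ) (hk1 : 0 < k1) (hk2 : 0 < k2) :
    ∃ C : ℝ, 1 ≤ C ∧ ∀ n : ℕ, 2 ≤ n → ∀ p : ℝ, 0 < p → p < 1 →
      M0 ≤ traceBudget C n p ∧ 1 ≤ traceBudget C n p ∧
      1 ≤ Nat.log2 (traceBudget C n p) / (k1 * Nat.size n) ∧
      ∀ x : Fin n → Bool, Ident n p (Nat.log2 (traceBudget C n p) / (k1 * Nat.size n))
        ((1 / 2) ^ (Nat.log2 (traceBudget C n p) / k2)) x := by
  obtain ⟨CU, hCU1, hmain⟩ := hU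
  refine ⟨3 * k1 * CU + 2 + 2 * (1 + k2) + 2 * k2 * CU + 2 * M0, ?_, ?_⟩
  · have h1 : (0 : ℝ) ≤ 3 * k1 * CU := by positivity
    have h2 : (0 : ℝ) ≤ 2 * k2 * CU := by positivity
    have h3 : (0 : ℝ) ≤ M0 := Nat.cast_nonneg _
    have h4 : (0 : ℝ) ≤ k2 := Nat.cast_nonneg _
    linarith
  intro n hn p hp0 hp1
  set C := 3 * k1 * CU + 2 + 2 * (1 + k2) + 2 * k2 * CU + 2 * (M0 : ℝ) with hCdef
  obtain ⟨KU, hKU1, hKU, hK⟩ := hmain n p hn hp0 hp1
  have hB := BB_ge hn hp0 hp1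
  have hk1' : (0 : ℝ) < k1 := by exact_mod_cast hk1
  have hk2' : (0 : ℝ) < k2 := by exact_mod_cast hk2
  have hM0' : (0 : ℝ) ≤ M0 := Nat.cast_nonneg _
  have hC0 : 0 ≤ C := by rw [hCdef]; positivity
  have hexp := exp_le_traceBudget hC0 hn hp0 hp1
  set m := traceBudget C n p with hm
  have hL := le_log2_of_exp_le hexp
  set B := BB n p with hBdef
  have hKUB : (KU : ℝ) * Real.log n ≤ CU * B := hKU
  have hmpos : (0 : ℝ) < m := lt_of_lt_of_le (Real.exp_pos _) hexp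
  have hsz := size_le_log hn
  have hlog : 0 ≤ Real.log n := Real.log_nonneg (by exact_mod_cast (by omega : 1 ≤ n))
  have hszpos : 0 < Nat.size n := Nat.size_pos.mpr (by omega)
  have p1 : 0 ≤ k1 * CU * B := by positivity
  have p2 : 0 ≤ k2 * CU * B := by positivity
  have p3 : 0 ≤ (k2 : ℝ) * B := by positivity
  have p4 : 0 ≤ (M0 : ℝ) * B := by positivity
  have hCB : C * B = 3 * (k1 * CU * B) + 2 * B + 2 * B + 2 * (k2 * B) + 2 * (k2 * CU * B)
      + 2 * (M0 * B) := by rw [hCdef]; ring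
  have hKle : KU ≤ Nat.log2 m / (k1 * Nat.size n) := by
    rw [Nat.le_div_iff_mul_le (Nat.mul_pos hk1 hszpos)]
    have : ((KU * (k1 * Nat.size n) : ℕ) : ℝ) ≤ (Nat.log2 m : ℝ) := by
      push_cast
      have h1 : (KU : ℝ) * (k1 * Nat.size n) ≤ 3 * k1 * (KU * Real.log n) := by
        have h2 : (KU : ℝ) * (k1 * Nat.size n) ≤ KU * (k1 * (3 * Real.log n)) :=
          mul_le_mul_of_nonneg_left (mul_le_mul_of_nonneg_left hsz hk1'.le) (Nat.cast_nonneg _)
        calc (KU : ℝ) * (k1 * Nat.size n) ≤ KU * (k1 * (3 * Real.log n)) := h2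
          _ = 3 * k1 * (KU * Real.log n) := by ring
      have h3 : 3 * (k1 : ℝ) * (KU * Real.log n) ≤ 3 * k1 * (CU * B) :=
        mul_le_mul_of_nonneg_left hKUB (by positivity)
      have h4 : 3 * (k1 : ℝ) * (CU * B) = 3 * (k1 * CU * B) := by ring
      linarith
    exact_mod_cast this
  refine ⟨?_, ?_, hKU1.trans hKle, ?_⟩
  · have h1 : (M0 : ℝ) ≤ m := by
      refine le_trans ?_ hexp
      have h2 := Real.add_one_le_exp (C * B)
      nlinarith
    exact_mod_cast h1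
  · have : 0 < m := by exact_mod_cast hmpos
    omega
  · intro x E t ht hpre hdat
    refine hK _ E x t (Nat.mul_le_mul_left 2 hKle) ht hpre (hdat.mono hKle ?_)
    have h1 : (1 / 2 : ℝ) ^ (Nat.log2 m / k2) = Real.exp (-(((Nat.log2 m / k2 : ℕ) : ℝ) * Real.log 2)) := by
      rw [← Real.rpow_natCast, Real.rpow_def_of_pos (by norm_num)]
      congr 1
      rw [one_div, Real.log_inv]; ring
    rw [h1]
    refine Real.exp_le_exp.mpr (neg_le_neg ?_)
    show CU * B ≤ _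
    have h2 : (Nat.log2 m : ℝ) < ((Nat.log2 m / k2 : ℕ) : ℝ) * k2 + k2 := by
      have := Nat.lt_div_mul_add (a := Nat.log2 m) hk2
      exact_mod_cast this
    have h6 := Real.log_two_gt_d9
    have h7 : (0 : ℝ) ≤ ((Nat.log2 m / k2 : ℕ) : ℝ) := Nat.cast_nonneg _
    set z : ℝ := ((Nat.log2 m / k2 : ℕ) : ℝ) with hz
    -- k2 * z ≥ log2 m - k2 ≥ C B - 1 - k2
    have h8 : k2 * (2 * (CU * B)) ≤ k2 * z := by
      nlinarith
    have h9 : 2 * (CU * B) ≤ z := le_of_mul_le_mul_left h8 hk2'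
    have h10 : 0 ≤ CU * B := by positivity
    nlinarith

/-- the union bound for the number of statistics used by the decoder -/
theorem card_idx_div_le (k1 k3 : ℕ) (hk1 : 2 ≤ k1) (hk3 : 4 ≤ k3) (n m : ℕ) (hm : 1 ≤ m) :
    ((R300.Prob.idx n (Nat.log2 m / (k1 * Nat.size n))).card : ℝ)
      / (4 * m * ((1 / 2 : ℝ) ^ (Nat.log2 m / k3)) ^ 2) ≤ 1 / 4 := by
  set L := Nat.log2 m with hL
  set K := L / (k1 * Nat.size n) with hK
  have h1 : ((R300.Prob.idx n K).card : ℝ) ≤ ((2 : ℝ) ^ (L / 2)) := by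
    have h2 := R300.Prob.card_idx_le n K
    have h3 : (n + 1) ^ K ≤ 2 ^ (L / 2) := by
      calc (n + 1) ^ K ≤ (2 ^ Nat.size n) ^ K :=
            Nat.pow_le_pow_left (Nat.lt_size_self n) K
        _ = 2 ^ (Nat.size n * K) := by rw [← pow_mul]
        _ ≤ 2 ^ (L / 2) := by
            apply Nat.pow_le_pow_right (by norm_num)
            rw [Nat.le_div_iff_mul_le (by norm_num)]
            have h4 : K * (k1 * Nat.size n) ≤ L := Nat.div_mul_le_self _ _
            calc Nat.size n * K * 2 = K * (2 * Nat.size n) := by ring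
              _ ≤ K * (k1 * Nat.size n) :=
                  Nat.mul_le_mul_left _ (Nat.mul_le_mul_right _ hk1)
              _ ≤ L := h4
    exact_mod_cast h2.trans h3
  have h5 : (2 : ℝ) ^ L ≤ m := by
    have : 2 ^ L ≤ m := Nat.log2_self_le (by omega)
    exact_mod_cast this
  have h6 : ((1 / 2 : ℝ) ^ (L / k3)) ^ 2 * 2 ^ (L / 2) ≥ 1 := by
    rw [← pow_mul]
    have h7 : L / k3 * 2 ≤ L / 2 := by
      rw [Nat.le_div_iff_mul_le (by norm_num)]
      calc L / k3 * 2 * 2 = L / k3 * 4 := by ring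
        _ ≤ L / k3 * k3 := Nat.mul_le_mul_left _ hk3
        _ ≤ L := Nat.div_mul_le_self _ _
    calc (1 : ℝ) = (1 / 2 : ℝ) ^ (L / k3 * 2) * 2 ^ (L / k3 * 2) := by
          rw [← mul_pow]; norm_num
      _ ≤ (1 / 2 : ℝ) ^ (L / k3 * 2) * 2 ^ (L / 2) := by
          apply mul_le_mul_of_nonneg_left _ (by positivity)
          exact pow_le_pow_right₀ (by norm_num) h7
  have hβ : (0 : ℝ) < ((1 / 2 : ℝ) ^ (L / k3)) ^ 2 := by positivity
  have hm' : (0 : ℝ) < m := by exact_mod_cast hm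
  rw [div_le_iff₀ (by positivity)]
  have h8 : (2 : ℝ) ^ (L / 2) ≤ m * ((1 / 2 : ℝ) ^ (L / k3)) ^ 2 := by
    have h9 : (2 : ℝ) ^ (L / 2) * 2 ^ (L / 2) ≤ 2 ^ L := by
      rw [← pow_add]
      exact pow_le_pow_right₀ (by norm_num) (by omega)
    have h10 : (0 : ℝ) < 2 ^ (L / 2) := by positivity
    have h11 : (2 : ℝ) ^ (L / 2) * 2 ^ (L / 2) ≤ m := h9.trans h5
    -- multiply h11 by β² and use h6
    have h12 : (2 : ℝ) ^ (L / 2) * (((1 / 2 : ℝ) ^ (L / k3)) ^ 2 * 2 ^ (L / 2))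
        ≤ m * ((1 / 2 : ℝ) ^ (L / k3)) ^ 2 := by
      calc (2 : ℝ) ^ (L / 2) * (((1 / 2 : ℝ) ^ (L / k3)) ^ 2 * 2 ^ (L / 2))
          = (2 : ℝ) ^ (L / 2) * 2 ^ (L / 2) * ((1 / 2 : ℝ) ^ (L / k3)) ^ 2 := by ring
        _ ≤ m * ((1 / 2 : ℝ) ^ (L / k3)) ^ 2 := mul_le_mul_of_nonneg_right h11 hβ.le
    have h13 : (2 : ℝ) ^ (L / 2) * 1
        ≤ (2 : ℝ) ^ (L / 2) * (((1 / 2 : ℝ) ^ (L / k3)) ^ 2 * 2 ^ (L / 2)) :=
      mul_le_mul_of_nonneg_left h6 h10.le
    linarith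
  linarith

/-- The statement S0457 from the main theorem and a decoder that is correct on good traces. -/
theorem decoder_of_correct (hU : UMainStatement) (k1 k2 k3 M0 : ℕ) (hk1 : 2 ≤ k1) (hk2 : 0 < k2)
    (hk3 : 4 ≤ k3) (A : List Bool × List Bool → List Bool) (r : Polynomial ℕ)
    (hPT : RandPolyTime A)
    (hA : ∀ n : ℕ, 2 ≤ n → ∀ p : ℚ, 0 < p → p < 1 → ∀ m : ℕ, M0 ≤ m → 1 ≤ m →
      1 ≤ Nat.log2 m / (k1 * Nat.size n) → ∀ (x : Fin n → Bool) (τ : Fin m → List Bool),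
      (∀ k, (τ k).length ≤ n) →
      (∀ a : Finset ℕ, a.card ≤ Nat.log2 m / (k1 * Nat.size n) → (∀ j ∈ a, j < n) →
        |That τ a - TT (p : ℝ) a x| ≤ (1 / 2) ^ (Nat.log2 m / k3)) →
      Ident n (p : ℝ) (Nat.log2 m / (k1 * Nat.size n)) ((1 / 2) ^ (Nat.log2 m / k2)) x →
      ∀ tape : List Bool, readWord n (A (decoderInput n p τ, tape)) = x) :
    ∃ C : ℝ, 1 ≤ C ∧ ∃ (A : List Bool × List Bool → List Bool) (r : Polynomial ℕ), RandPolyTime A ∧
      ∀ n : ℕ, 2 ≤ n → ∀ p : ℚ, 0 < p → p < 1 → ∀ x : Fin n → Bool,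
        2 / 3 ≤ decoderSuccessProb (traceBudget C n p) p A r x := by
  obtain ⟨C, hC1, hC⟩ := exists_budget hU k1 k2 M0 (by omega) hk2
  refine ⟨C, hC1, A, r, hPT, fun n hn p hp0 hp1 x => ?_⟩
  have hp0' : (0 : ℝ) < (p : ℝ) := by exact_mod_cast hp0
  have hp1' : (p : ℝ) < 1 := by exact_mod_cast hp1
  obtain ⟨hM0, hm1, hK1, hid⟩ := hC n hn (p : ℝ) hp0' hp1'
  set m := traceBudget C n (p : ℝ) with hm
  have hcard := card_idx_div_le k1 k3 hk1 hk3 n m hm1
  refine le_trans ?_ (R300.Prob.decoderSuccessProb_ge_of_stat (m := m) p hp0.le hp1.le A r x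
    ((R300.Prob.idx n (Nat.log2 m / (k1 * Nat.size n))))
    ((1 / 2 : ℝ) ^ (Nat.log2 m / k3)) (by positivity) (by omega) ?_)
  · linarith
  · intro keeps hk tape
    refine hA n hn p hp0 hp1 m hM0 hm1 hK1 x (fun k => traceOf x (keeps k))
      (fun k => length_traceOf_le _ _) ?_ (hid x) tape
    intro a ha1 ha2
    exact hk a (R300.Prob.mem_idx a (fun j hj => Finset.mem_range.mpr (ha2 j hj)) ha1)

end

end Crest.Agent.R300U
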