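import Mathlib
import Crest.Prelude.Def_TraceDecoder

/-!
Row 300, machine side: parameter arithmetic (owner helper899).
-/
set_option autoImplicit false

namespace Crest.Agent.R300U.DecParam

open Crest.TraceRecon

/-- the exponent `p⁻¹ log n X²` of the upper bound -/
noncomputable def Bx (n : ℕ) (p : ℝ) : ℝ :=
  p⁻¹ * Real.log n * (1 + Real.log n / (1 + Real.log (1 / (1 - p)))) ^ 2

section

variable {n m : ℕ} {p C C0 : ℝ}

theorem X_ge (hn : 2 ≤ n) (hp : 0 < p) (hp1 : p < 1) :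
    1 ≤ 1 + Real.log n / (1 + Real.log (1 / (1 - p))) := by
  have h1 : (1 : ℝ) ≤ n := by exact_mod_cast (by omega : 1 ≤ n)
  have h2 : 0 ≤ Real.log n := Real.log_nonneg h1
  have h3 : 0 ≤ Real.log (1 / (1 - p)) := Real.log_nonneg (by
    rw [le_div_iff₀ (by linarith)]; linarith)
  have : 0 ≤ Real.log n / (1 + Real.log (1 / (1 - p))) := by positivity
  linarith

theorem log_two_ge : (0.69 : ℝ) ≤ Real.log 2 := by
  have := Real.log_two_gt_d9
  linarith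

theorem log_two_le : Real.log 2 ≤ (0.7 : ℝ) := by
  have := Real.log_two_lt_d9
  linarith

theorem log_n_ge (hn : 2 ≤ n) : (0.69 : ℝ) ≤ Real.log n := by
  refine log_two_ge.trans (Real.log_le_log (by norm_num) ?_)
  exact_mod_cast hn

theorem log_le_Bx (hn : 2 ≤ n) (hp : 0 < p) (hp1 : p < 1) : Real.log n ≤ Bx n p := by
  have h1 := X_ge hn hp hp1
  have h2 := log_n_ge hn
  have h3 : 1 ≤ p⁻¹ := (one_le_inv₀ hp).2 hp1.le
  have h4 : 1 ≤ (1 + Real.log n / (1 + Real.log (1 / (1 - p)))) ^ 2 := one_le_pow₀ h1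
  have h5 : Real.log n ≤ p⁻¹ * Real.log n := le_mul_of_one_le_left (by linarith) h3
  have h6 : 0 ≤ p⁻¹ * Real.log n := by positivity
  exact h5.trans (le_mul_of_one_le_right h6 h4)

theorem Bx_ge (hn : 2 ≤ n) (hp : 0 < p) (hp1 : p < 1) : (0.69 : ℝ) ≤ Bx n p :=
  (log_n_ge hn).trans (log_le_Bx hn hp hp1)

/-- the budget is at least `exp (C Bx)` -/
theorem exp_le_budget (hn : 2 ≤ n) (hp : 0 < p) (hp1 : p < 1) (hC : 0 ≤ C) :
    Real.exp (C * Bx n p) ≤ traceBudget C n p := by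
  have h0 := X_ge hn hp hp1
  have h1 : 0 ≤ Real.log (1 + Real.log n / (1 + Real.log (1 / (1 - p)))) := Real.log_nonneg h0
  have h2 : 1 ≤ (1 + Real.log (1 + Real.log n / (1 + Real.log (1 / (1 - p))))) ^ 6 :=
    one_le_pow₀ (by linarith)
  have h3 := Bx_ge hn hp hp1
  unfold traceBudget
  refine le_trans ?_ (Nat.le_ceil _)
  refine Real.exp_le_exp.2 (mul_le_mul_of_nonneg_left ?_ hC)
  exact le_mul_of_one_le_right (by linarith) h2

/-- `C Bx ≤ log₂ m` for `m` at least the budget. -/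
theorem lam_ge (hn : 2 ≤ n) (hp : 0 < p) (hp1 : p < 1) (hC : 4 ≤ C)
    (hm : traceBudget C n p ≤ m) : C * Bx n p ≤ (Nat.log 2 m : ℝ) := by
  have h1 : Real.exp (C * Bx n p) ≤ m :=
    (exp_le_budget hn hp hp1 (by linarith)).trans (by exact_mod_cast hm)
  have hm0 : (0 : ℝ) < m := (Real.exp_pos _).trans_le h1
  have h2 : C * Bx n p ≤ Real.log m := (Real.le_log_iff_exp_le hm0).2 h1
  have h3 : m < 2 ^ (Nat.log 2 m + 1) := Nat.lt_pow_succ_log_self (by norm_num) m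
  have h4 : Real.log m ≤ (Nat.log 2 m + 1 : ℝ) * Real.log 2 := by
    have h5 : (m : ℝ) ≤ 2 ^ (Nat.log 2 m + 1) := by exact_mod_cast h3.le
    have h6 := Real.log_le_log hm0 h5
    rw [Real.log_pow] at h6
    push_cast at h6
    exact h6
  have h7 := Bx_ge hn hp hp1
  have h8 := log_two_le
  have h9 := log_two_ge
  have h10 : (0 : ℝ) ≤ Nat.log 2 m + 1 := by positivity
  have h11 : C * Bx n p ≤ (Nat.log 2 m + 1 : ℝ) * 0.7 :=
    (h2.trans h4).trans (mul_le_mul_of_nonneg_left h8 h10)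
  have h12 : (2.76 : ℝ) ≤ C * Bx n p := by nlinarith
  nlinarith

theorem size_le (hn : 2 ≤ n) : (Nat.size n : ℝ) ≤ 3 * Real.log n := by
  have h1 : Nat.size n ≤ Nat.log 2 n + 1 :=
    Nat.size_le.2 (Nat.lt_pow_succ_log_self (by norm_num) n)
  have h1' : (Nat.size n : ℝ) ≤ Nat.log 2 n + 1 := by exact_mod_cast h1
  refine h1'.trans ?_
  have h2 : 2 ^ Nat.log 2 n ≤ n := Nat.pow_log_le_self 2 (by omega)
  have h3 : (2 : ℝ) ^ Nat.log 2 n ≤ n := by exact_mod_cast h2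
  have h4 := Real.log_le_log (by positivity) h3
  rw [Real.log_pow] at h4
  have h5 := log_two_ge
  have h6 := log_n_ge hn
  have h7 : (0 : ℝ) ≤ Nat.log 2 n := by positivity
  nlinarith

/-- number of letters: `K ≤ log₂ m / (64 size n)`. -/
theorem K_le (hn : 2 ≤ n) (hp : 0 < p) (hp1 : p < 1) (hC0 : 1 ≤ C0) (hC : 192 * C0 ≤ C)
    (hm : traceBudget C n p ≤ m) {K : ℕ} (hK : (K : ℝ) * Real.log n ≤ C0 * Bx n p) :
    K ≤ Nat.log 2 m / (64 * Nat.size n) := by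
  have h1 := lam_ge hn hp hp1 (by linarith) hm
  have h2 := size_le hn
  have h3 := Bx_ge hn hp hp1
  have hs : 0 < Nat.size n := Nat.size_pos.2 (by omega)
  rw [Nat.le_div_iff_mul_le (by positivity)]
  have h4 : ((K * (64 * Nat.size n) : ℕ) : ℝ) ≤ (Nat.log 2 m : ℝ) := by
    push_cast
    have h5 : (K : ℝ) * (64 * Nat.size n) ≤ 192 * (K * Real.log n) := by
      have : (0 : ℝ) ≤ K := by positivity
      nlinarith
    have h6 : 192 * C0 * Bx n p ≤ C * Bx n p :=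
      mul_le_mul_of_nonneg_right hC (by linarith)
    nlinarith
  exact_mod_cast h4

/-- `log₂ m` is as large as we like -/
theorem lam_large (hn : 2 ≤ n) (hp : 0 < p) (hp1 : p < 1) (hC : 4 ≤ C) {A : ℕ}
    (hA : 2 * (A : ℝ) ≤ C) (hm : traceBudget C n p ≤ m) : A ≤ Nat.log 2 m := by
  have h1 := lam_ge hn hp hp1 hC hm
  have h2 := Bx_ge hn hp hp1
  have h3 : (A : ℝ) ≤ (Nat.log 2 m : ℝ) := by
    have h4 : C * 0.69 ≤ C * Bx n p := mul_le_mul_of_nonneg_left h2 (by linarith)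
    nlinarith
  exact_mod_cast h3

/-- tolerances: `2^c 2^{-(log₂ m / a)} ≤ exp (-C0 Bx)`. -/
theorem tol_le (hn : 2 ≤ n) (hp : 0 < p) (hp1 : p < 1) (hC0 : 0 ≤ C0) {a c : ℕ} (ha : 1 ≤ a)
    (hC : 4 + 2 * a * (C0 + 2 * (c + 1)) ≤ C) (hm : traceBudget C n p ≤ m) :
    (2 : ℝ) ^ c / 2 ^ (Nat.log 2 m / a) ≤ Real.exp (-(C0 * Bx n p)) := by
  have ha' : (1 : ℝ) ≤ a := by exact_mod_cast ha
  have hc' : (0 : ℝ) ≤ c := by positivity
  have hC4 : 4 ≤ C := by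
    have : 0 ≤ 2 * a * (C0 + 2 * (c + 1)) := by positivity
    linarith
  have h1 := lam_ge hn hp hp1 hC4 hm
  have h2 := Bx_ge hn hp hp1
  have h3 := log_two_ge
  have h4 := log_two_le
  set Λ := Nat.log 2 m with hΛ
  -- floor
  have h5 : (Λ : ℝ) / a - 1 ≤ (Λ / a : ℕ) := by
    have h6 : Λ < a * (Λ / a + 1) := by
      have := Nat.lt_mul_div_succ Λ (show 0 < a by omega)
      exact this
    have h7 : (Λ : ℝ) < a * ((Λ / a : ℕ) + 1) := by exact_mod_cast h6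
    rw [sub_le_iff_le_add, div_le_iff₀ (by linarith)]
    linarith
  have h8 : (C0 + 2 * (c + 1)) * Bx n p * 2 ≤ (Λ : ℝ) / a := by
    rw [le_div_iff₀ (by linarith)]
    have h9 : (2 * a * (C0 + 2 * (c + 1))) * Bx n p ≤ C * Bx n p :=
      mul_le_mul_of_nonneg_right (by linarith) (by linarith)
    nlinarith
  have e : (2 : ℝ) ^ c / 2 ^ (Λ / a) = Real.exp ((c - (Λ / a : ℕ)) * Real.log 2) := by
    rw [sub_mul, Real.exp_sub, Real.exp_nat_mul, Real.exp_nat_mul, Real.exp_log (by norm_num)]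
  rw [e, Real.exp_le_exp]
  have h10 : 0 ≤ C0 * Bx n p := mul_nonneg hC0 (by linarith)
  have h11 : ((c : ℝ) + 1) * 0.69 ≤ (c + 1) * Bx n p :=
    mul_le_mul_of_nonneg_left h2 (by linarith)
  have h12 : (c : ℝ) - (Λ / a : ℕ) ≤ -(2 * (C0 * Bx n p)) := by nlinarith
  nlinarith

theorem succ_le_two_pow_size (n : ℕ) : n + 1 ≤ 2 ^ Nat.size n := Nat.lt_size_self n

/-- `(n+1)^{c K} ≤ 2^{c (Λ/64)}` for `K = Λ / (64 size n)` -/
theorem pow_K_le (n Λ c : ℕ) :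
    (n + 1) ^ (c * (Λ / (64 * Nat.size n))) ≤ 2 ^ (c * (Λ / 64)) := by
  calc (n + 1) ^ (c * (Λ / (64 * Nat.size n)))
      ≤ (2 ^ Nat.size n) ^ (c * (Λ / (64 * Nat.size n))) :=
        Nat.pow_le_pow_left (succ_le_two_pow_size n) _
    _ = 2 ^ (c * (Nat.size n * (Λ / 64 / Nat.size n))) := by
        rw [← pow_mul, Nat.div_div_eq_div_mul]; ring_nf
    _ ≤ 2 ^ (c * (Λ / 64)) :=
        Nat.pow_le_pow_right (by norm_num) (Nat.mul_le_mul_left _ (Nat.mul_div_le _ _))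

theorem pow_lam_le (hm : m ≠ 0) : 2 ^ Nat.log 2 m ≤ m := Nat.pow_log_le_self 2 hm

theorem lt_pow_lam (m : ℕ) : m < 2 ^ (Nat.log 2 m + 1) := Nat.lt_pow_succ_log_self (by norm_num) m

/-- union bound: `2^{Λ/16} 4^{Λ/8 + c} / m ≤ 1/3` for `Λ` large. -/
theorem union_le (hm : m ≠ 0) {c : ℕ} (hΛ : 16 * (2 * c + 2) ≤ Nat.log 2 m) :
    (2 : ℝ) ^ (Nat.log 2 m / 16) * 4 ^ (Nat.log 2 m / 8 + c) / m ≤ 1 / 3 := by
  set Λ := Nat.log 2 m with hL
  have h1 : (2 : ℝ) ^ Λ ≤ m := by exact_mod_cast pow_lam_le hm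
  have hm0 : (0 : ℝ) < m := lt_of_lt_of_le (by positivity) h1
  rw [div_le_iff₀ hm0]
  have h2 : Λ / 16 + 2 * (Λ / 8 + c) + 2 ≤ Λ := by omega
  have h3 : (2 : ℝ) ^ (Λ / 16 + 2 * (Λ / 8 + c) + 2) ≤ 2 ^ Λ :=
    pow_le_pow_right₀ (by norm_num) h2
  have e : (2 : ℝ) ^ (Λ / 16 + 2 * (Λ / 8 + c) + 2) =
      4 * (2 ^ (Λ / 16) * 4 ^ (Λ / 8 + c)) := by
    rw [pow_add, pow_add, pow_mul]; norm_num; ring
  rw [e] at h3
  linarith

end

end Crest.Agent.R300U.DecParam
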