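import Crest.Agent.R300.U.Defs
/-!
Row 300, upper bound, machine side (M-B): from an approximate solution of the moment
inequalities to an exact pseudo-expectation, by mixing with the uniform distribution.
-/
set_option autoImplicit false

namespace Crest.Agent.R300U

open scoped BigOperators

namespace Br

variable {n : ℕ}

theorem sum_prod_bool (g : Fin n → Bool → ℝ) :
    ∑ x : Fin n → Bool, ∏ i, g i (x i) = ∏ i, (g i true + g i false) := by
  have h := Finset.prod_univ_sum (fun _ : Fin n => (Finset.univ : Finset Bool)) g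
  rw [Fintype.piFinset_univ] at h
  rw [← h]
  apply Finset.prod_congr rfl
  intro i _
  simp

/-- real monomial -/
def mr (S : Finset (Fin n)) (x : Fin n → Bool) : ℝ :=
  ∏ i, (if i ∈ S then (if x i then 1 else 0) else 1)

/-- Moebius functional -/
def mob (S : Finset (Fin n)) (x : Fin n → Bool) : ℝ :=
  ∏ i, (if i ∈ S then (if x i then 1 else -1) else (if x i then 0 else 1))

/-- Walsh function -/
def chi (S : Finset (Fin n)) (x : Fin n → Bool) : ℝ :=
  ∏ i, (if i ∈ S then (if x i then -1 else 1) else 1)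

theorem mr_eq (S : Finset (Fin n)) (x : Fin n → Bool) :
    mr S x = if (∀ i ∈ S, x i = true) then 1 else 0 := by
  unfold mr
  split_ifs with h
  · apply Finset.prod_eq_one
    intro i _
    by_cases hi : i ∈ S
    · simp [hi, h i hi]
    · simp [hi]
  · push Not at h
    obtain ⟨i, hi, hx⟩ := h
    apply Finset.prod_eq_zero (Finset.mem_univ i)
    simp [hi, hx]

theorem mono_eq (S : Finset (Fin n)) (x : Fin n → Bool) : (mono S x : ℂ) = ((mr S x : ℝ) : ℂ) := by
  rw [mr_eq]
  unfold mono
  split_ifs <;> simp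

theorem mr_mul (S T : Finset (Fin n)) (x : Fin n → Bool) : mr S x * mr T x = mr (S ∪ T) x := by
  unfold mr
  rw [← Finset.prod_mul_distrib]
  apply Finset.prod_congr rfl
  intro i _
  by_cases h1 : i ∈ S <;> by_cases h2 : i ∈ T <;> by_cases h3 : x i = true <;>
    simp [h1, h2, h3]

theorem sum_mob_mr (S T : Finset (Fin n)) :
    ∑ x, mob S x * mr T x = if S = T then 1 else 0 := by
  unfold mob mr
  simp_rw [← Finset.prod_mul_distrib]
  rw [sum_prod_bool (fun i b => (if i ∈ S then (if b then (1 : ℝ) else -1) else (if b then 0 else 1)) *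
    (if i ∈ T then (if b then 1 else 0) else 1))]
  by_cases h : S = T
  · rw [if_pos h]
    subst h
    apply Finset.prod_eq_one
    intro i _
    by_cases hi : i ∈ S <;> simp [hi]
  · rw [if_neg h]
    have h1 : ∃ i, ¬ (i ∈ S ↔ i ∈ T) := by
      by_contra hcon
      push Not at hcon
      exact h (Finset.ext hcon)
    obtain ⟨i, hi⟩ := h1
    apply Finset.prod_eq_zero (Finset.mem_univ i)
    by_cases h1 : i ∈ S <;> by_cases h2 : i ∈ T <;> simp [h1, h2] at hi ⊢

theorem sum_mr (S : Finset (Fin n)) : ∑ x, mr S x = 2 ^ n * (1 / 2) ^ S.card := by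
  unfold mr
  rw [sum_prod_bool (fun i b => (if i ∈ S then (if b then (1 : ℝ) else 0) else 1))]
  have h : ∀ i : Fin n, ((if i ∈ S then (if true then (1 : ℝ) else 0) else 1) +
      (if i ∈ S then (if false then (1 : ℝ) else 0) else 1)) =
      2 * (if i ∈ S then (1 / 2 : ℝ) else 1) := by
    intro i
    by_cases hi : i ∈ S <;> simp [hi]
    norm_num
  refine (Finset.prod_congr rfl (fun i _ => h i)).trans ?_
  rw [Finset.prod_mul_distrib]
  simp

theorem sum_chi_chi (S T : Finset (Fin n)) :
    ∑ x, chi S x * chi T x = if S = T then 2 ^ n else 0 := by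
  unfold chi
  simp_rw [← Finset.prod_mul_distrib]
  rw [sum_prod_bool (fun i b => (if i ∈ S then (if b then (-1 : ℝ) else 1) else 1) *
    (if i ∈ T then (if b then -1 else 1) else 1))]
  by_cases h : S = T
  · rw [if_pos h]
    subst h
    have : ∀ i ∈ (Finset.univ : Finset (Fin n)), ((if i ∈ S then (if true then (-1 : ℝ) else 1) else 1) *
      (if i ∈ S then (if true then -1 else 1) else 1)) + ((if i ∈ S then (if false then (-1 : ℝ) else 1) else 1) *
      (if i ∈ S then (if false then -1 else 1) else 1)) = 2 := by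
      intro i _
      by_cases hi : i ∈ S <;> simp [hi] <;> norm_num
    refine (Finset.prod_congr rfl this).trans ?_
    simp
  · rw [if_neg h]
    have h1 : ∃ i, ¬ (i ∈ S ↔ i ∈ T) := by
      by_contra hcon
      push Not at hcon
      exact h (Finset.ext hcon)
    obtain ⟨i, hi⟩ := h1
    apply Finset.prod_eq_zero (Finset.mem_univ i)
    by_cases h1 : i ∈ S <;> by_cases h2 : i ∈ T <;> simp [h1, h2] at hi ⊢

theorem sum_chi_mr (S T : Finset (Fin n)) :
    ∑ x, chi S x * mr T x =
      2 ^ n * (1 / 2) ^ T.card * ∏ i, (if i ∈ S then (if i ∈ T then (-1 : ℝ) else 0) else 1) := by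
  unfold chi mr
  simp_rw [← Finset.prod_mul_distrib]
  rw [sum_prod_bool (fun i b => (if i ∈ S then (if b then (-1 : ℝ) else 1) else 1) *
    (if i ∈ T then (if b then 1 else 0) else 1))]
  have e : (2 : ℝ) ^ n * (1 / 2) ^ T.card = ∏ i : Fin n, (2 * (if i ∈ T then (1 / 2 : ℝ) else 1)) := by
    rw [Finset.prod_mul_distrib]
    simp
  rw [e, ← Finset.prod_mul_distrib]
  apply Finset.prod_congr rfl
  intro i _
  by_cases h1 : i ∈ S <;> by_cases h2 : i ∈ T <;> simp [h1, h2]
  norm_num

/-- alternating sum over an interval of sets -/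
theorem sum_interval (S U : Finset (Fin n)) :
    ∑ T : Finset (Fin n), (if S ⊆ T then (∏ i, (if i ∈ T then (if i ∈ U then (-1 : ℝ) else 0) else 1))
      else 0) = if S = U then (-1) ^ S.card else 0 := by
  have h := Finset.prod_add (fun i : Fin n => (if i ∈ U then (-1 : ℝ) else 0))
    (fun i : Fin n => (if i ∈ S then (0 : ℝ) else 1)) Finset.univ
  rw [Finset.powerset_univ] at h
  have e1 : ∀ T ∈ (Finset.univ : Finset (Finset (Fin n))),
      (∏ i ∈ T, (if i ∈ U then (-1 : ℝ) else 0)) * (∏ i ∈ Finset.univ \ T, (if i ∈ S then (0 : ℝ) else 1)) =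
      (if S ⊆ T then (∏ i, (if i ∈ T then (if i ∈ U then (-1 : ℝ) else 0) else 1)) else 0) := by
    intro T _
    split_ifs with hST
    · have e2 : ∏ i ∈ Finset.univ \ T, (if i ∈ S then (0 : ℝ) else 1) = 1 := by
        apply Finset.prod_eq_one
        intro i hi
        have : i ∉ S := fun h => (Finset.mem_sdiff.mp hi).2 (hST h)
        simp [this]
      rw [e2, mul_one]
      rw [Finset.prod_ite_mem]
      simp
    · obtain ⟨i, hi1, hi2⟩ := Finset.not_subset.mp hST
      have e2 : ∏ i ∈ Finset.univ \ T, (if i ∈ S then (0 : ℝ) else 1) = 0 := by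
        apply Finset.prod_eq_zero (i := i)
        · simp [hi2]
        · simp [hi1]
      rw [e2, mul_zero]
  rw [← Finset.sum_congr rfl e1, ← h]
  split_ifs with hSU
  · subst hSU
    have e3 : ∀ i ∈ (Finset.univ : Finset (Fin n)),
        (if i ∈ S then (-1 : ℝ) else 0) + (if i ∈ S then (0 : ℝ) else 1) =
        (if i ∈ S then (-1 : ℝ) else 1) := by
      intro i _
      by_cases hi : i ∈ S <;> simp [hi]
    rw [Finset.prod_congr rfl e3, Finset.prod_ite_mem]
    simp
  · have h1 : ∃ i, ¬ (i ∈ S ↔ i ∈ U) := by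
      by_contra hcon
      push Not at hcon
      exact hSU (Finset.ext hcon)
    obtain ⟨i, hi⟩ := h1
    apply Finset.prod_eq_zero (Finset.mem_univ i)
    by_cases h1 : i ∈ S <;> by_cases h2 : i ∈ U <;> simp [h1, h2] at hi ⊢

/-- number of small sets -/
theorem card_small (D : ℕ) :
    (Finset.univ.filter (fun T : Finset (Fin n) => T.card ≤ D)).card ≤ (n + 1) ^ D := by
  have h1 : (Finset.univ.filter (fun T : Finset (Fin n) => T.card ≤ D)) =
      (Finset.range (D + 1)).biUnion (fun k => Finset.powersetCard k (Finset.univ : Finset (Fin n))) := by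
    ext T
    simp [Finset.mem_powersetCard, Nat.lt_succ_iff]
  rw [h1]
  refine Finset.card_biUnion_le.trans ?_
  rw [add_pow]
  apply Finset.sum_le_sum
  intro k hk
  rw [Finset.card_powersetCard, Finset.card_univ, Fintype.card_fin, one_pow, mul_one]
  have h2 : n.choose k ≤ n ^ k := Nat.choose_le_pow n k
  have h3 : 1 ≤ D.choose k := Nat.choose_pos (Nat.lt_succ_iff.mp (Finset.mem_range.mp hk))
  simp only [Nat.cast_id]
  calc n.choose k ≤ n ^ k := h2
    _ = n ^ k * 1 := (mul_one _).symm
    _ ≤ n ^ k * D.choose k := Nat.mul_le_mul_left _ h3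

/-- dual function of the monomial `x_S` -/
def phi (D : ℕ) (S : Finset (Fin n)) (x : Fin n → Bool) : ℝ :=
  ∑ T ∈ Finset.univ.filter (fun T : Finset (Fin n) => S ⊆ T ∧ T.card ≤ D), (-2) ^ S.card * chi T x

theorem sum_phi_sq (D : ℕ) (S : Finset (Fin n)) (hS : S.card ≤ D) :
    ∑ x, phi D S x ^ 2 ≤ 4 ^ D * (n + 1) ^ D * 2 ^ n := by
  set A := Finset.univ.filter (fun T : Finset (Fin n) => S ⊆ T ∧ T.card ≤ D) with hA
  have h1 : ∑ x, phi D S x ^ 2 = 4 ^ S.card * (A.card * 2 ^ n) := by
    calc ∑ x, phi D S x ^ 2 = ∑ x, ∑ T ∈ A, ∑ T' ∈ A, (4 : ℝ) ^ S.card * (chi T x * chi T' x) := by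
          apply Finset.sum_congr rfl
          intro x _
          unfold phi
          rw [sq, Finset.sum_mul_sum]
          apply Finset.sum_congr rfl
          intro T _
          apply Finset.sum_congr rfl
          intro T' _
          have e : (4 : ℝ) ^ S.card = (-2) ^ S.card * (-2) ^ S.card := by
            rw [← mul_pow]; norm_num
          rw [e]; ring
      _ = ∑ T ∈ A, ∑ T' ∈ A, ∑ x, (4 : ℝ) ^ S.card * (chi T x * chi T' x) := by
          rw [Finset.sum_comm]
          apply Finset.sum_congr rfl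
          intro T _
          rw [Finset.sum_comm]
      _ = ∑ T ∈ A, ∑ T' ∈ A, (4 : ℝ) ^ S.card * (if T = T' then 2 ^ n else 0) := by
          apply Finset.sum_congr rfl
          intro T _
          apply Finset.sum_congr rfl
          intro T' _
          rw [← Finset.mul_sum, sum_chi_chi]
      _ = ∑ T ∈ A, (4 : ℝ) ^ S.card * 2 ^ n := by
          apply Finset.sum_congr rfl
          intro T hT
          rw [← Finset.mul_sum, Finset.sum_ite_eq, if_pos hT]
      _ = 4 ^ S.card * (A.card * 2 ^ n) := by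
          rw [Finset.sum_const, nsmul_eq_mul]; ring
  rw [h1]
  have h2 : A.card ≤ (n + 1) ^ D := by
    refine le_trans (Finset.card_le_card ?_) (card_small (n := n) D)
    intro T hT
    simp only [hA, Finset.mem_filter, Finset.mem_univ, true_and] at hT ⊢
    exact hT.2
  have h3 : (A.card : ℝ) ≤ (n + 1) ^ D := by exact_mod_cast h2
  have h4 : (4 : ℝ) ^ S.card ≤ 4 ^ D := pow_le_pow_right₀ (by norm_num) hS
  calc (4 : ℝ) ^ S.card * (A.card * 2 ^ n) ≤ 4 ^ D * ((n + 1) ^ D * 2 ^ n) := by gcongr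
    _ = _ := by ring

theorem sum_phi_mr (D : ℕ) (S U : Finset (Fin n)) (hU : U.card ≤ D) :
    ∑ x, phi D S x * mr U x = if S = U then 2 ^ n else 0 := by
  have h1 : ∑ x, phi D S x * mr U x =
      ∑ T ∈ Finset.univ.filter (fun T : Finset (Fin n) => S ⊆ T ∧ T.card ≤ D),
        (-2) ^ S.card * (2 ^ n * (1 / 2) ^ U.card *
          ∏ i, (if i ∈ T then (if i ∈ U then (-1 : ℝ) else 0) else 1)) := by
    unfold phi
    simp_rw [Finset.sum_mul]
    rw [Finset.sum_comm]
    apply Finset.sum_congr rfl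
    intro T _
    rw [← sum_chi_mr, Finset.mul_sum]
    apply Finset.sum_congr rfl
    intro x _
    ring
  rw [h1]
  have h2 : ∑ T ∈ Finset.univ.filter (fun T : Finset (Fin n) => S ⊆ T ∧ T.card ≤ D),
        (-2) ^ S.card * (2 ^ n * (1 / 2) ^ U.card *
          ∏ i, (if i ∈ T then (if i ∈ U then (-1 : ℝ) else 0) else 1)) =
      ∑ T : Finset (Fin n), (-2) ^ S.card * (2 ^ n * (1 / 2) ^ U.card) *
        (if S ⊆ T then (∏ i, (if i ∈ T then (if i ∈ U then (-1 : ℝ) else 0) else 1)) else 0) := by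
    rw [Finset.sum_filter]
    apply Finset.sum_congr rfl
    intro T _
    by_cases hST : S ⊆ T
    · by_cases hT : T.card ≤ D
      · rw [if_pos ⟨hST, hT⟩, if_pos hST]; ring
      · rw [if_neg (fun h => hT h.2), if_pos hST]
        have : ¬ T ⊆ U := fun h => hT ((Finset.card_le_card h).trans hU)
        obtain ⟨i, hi1, hi2⟩ := Finset.not_subset.mp this
        have e : ∏ i, (if i ∈ T then (if i ∈ U then (-1 : ℝ) else 0) else 1) = 0 := by
          apply Finset.prod_eq_zero (Finset.mem_univ i)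
          simp [hi1, hi2]
        rw [e]; ring
    · rw [if_neg (fun h => hST h.1), if_neg hST]; ring
  rw [h2, ← Finset.mul_sum, sum_interval]
  split_ifs with h
  · subst h
    have e : (-2 : ℝ) ^ S.card * (2 ^ n * (1 / 2) ^ S.card) * (-1) ^ S.card =
        2 ^ n * ((-2) * (1 / 2) * (-1)) ^ S.card := by
      rw [mul_pow, mul_pow]; ring
    rw [e]; norm_num
  · ring

/-- quadratic form of a signed weight -/
theorem quad_eq (w : (Fin n → Bool) → ℝ) (p : Finset (Fin n) → ℝ) :
    ∑ x, w x * (∑ S, p S * mr S x) ^ 2 = ∑ S, ∑ T, p S * p T * ∑ x, w x * mr (S ∪ T) x := by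
  calc ∑ x, w x * (∑ S, p S * mr S x) ^ 2
      = ∑ x, ∑ S, ∑ T, p S * p T * (w x * mr (S ∪ T) x) := by
        apply Finset.sum_congr rfl
        intro x _
        rw [sq, Finset.sum_mul_sum, Finset.mul_sum]
        apply Finset.sum_congr rfl
        intro S _
        rw [Finset.mul_sum]
        apply Finset.sum_congr rfl
        intro T _
        rw [← mr_mul]; ring
    _ = _ := by
        rw [Finset.sum_comm]
        apply Finset.sum_congr rfl
        intro S _
        rw [Finset.sum_comm]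
        apply Finset.sum_congr rfl
        intro T _
        rw [Finset.mul_sum]

/-- strong positivity of the uniform distribution on polynomials of degree `≤ D` -/
theorem unif_pos {D : ℕ} (p : Finset (Fin n) → ℝ) (hp : ∀ S, D < S.card → p S = 0) :
    ∑ S, p S ^ 2 ≤ 4 ^ D * (n + 1) ^ (2 * D) * ∑ S, ∑ T, p S * p T * (1 / 2) ^ (S ∪ T).card := by
  set F : (Fin n → Bool) → ℝ := fun x => ∑ S, p S * mr S x with hF
  have h1 : ∑ x, F x ^ 2 = 2 ^ n * ∑ S, ∑ T, p S * p T * (1 / 2) ^ (S ∪ T).card := by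
    have h := quad_eq (fun _ => (1 : ℝ)) p
    simp only [one_mul] at h
    rw [hF]
    simp only
    rw [h, Finset.mul_sum]
    apply Finset.sum_congr rfl
    intro S _
    rw [Finset.mul_sum]
    apply Finset.sum_congr rfl
    intro T _
    rw [sum_mr]; ring
  have h2 : ∀ S : Finset (Fin n), S.card ≤ D → 2 ^ n * p S = ∑ x, phi D S x * F x := by
    intro S hS
    have e : ∑ x, phi D S x * F x = ∑ U, p U * ∑ x, phi D S x * mr U x := by
      rw [hF]
      simp only
      simp_rw [Finset.mul_sum]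
      rw [Finset.sum_comm]
      apply Finset.sum_congr rfl
      intro U _
      apply Finset.sum_congr rfl
      intro x _
      ring
    rw [e]
    have e2 : ∀ U ∈ (Finset.univ : Finset (Finset (Fin n))), p U * ∑ x, phi D S x * mr U x =
        if S = U then 2 ^ n * p U else 0 := by
      intro U _
      by_cases hU : U.card ≤ D
      · rw [sum_phi_mr D S U hU]
        split_ifs <;> ring
      · rw [hp U (by omega)]
        have : S ≠ U := fun h => hU (h ▸ hS)
        rw [if_neg this]; ring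
    rw [Finset.sum_congr rfl e2, Finset.sum_ite_eq, if_pos (Finset.mem_univ S)]
  have h3 : ∀ S : Finset (Fin n), S.card ≤ D →
      p S ^ 2 ≤ 4 ^ D * (n + 1) ^ D * (∑ S, ∑ T, p S * p T * (1 / 2) ^ (S ∪ T).card) := by
    intro S hS
    have hcs := Finset.sum_mul_sq_le_sq_mul_sq Finset.univ (fun x => phi D S x) F
    rw [← h2 S hS, h1] at hcs
    have h4 := sum_phi_sq D S hS
    have h5 : 0 ≤ 2 ^ n * ∑ S, ∑ T, p S * p T * (1 / 2) ^ (S ∪ T).card := by
      rw [← h1]; exact Finset.sum_nonneg fun x _ => sq_nonneg _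
    have h6 : (2 ^ n * p S) ^ 2 ≤ (4 ^ D * (n + 1) ^ D * 2 ^ n) *
        (2 ^ n * ∑ S, ∑ T, p S * p T * (1 / 2) ^ (S ∪ T).card) :=
      hcs.trans (mul_le_mul_of_nonneg_right h4 h5)
    have h7 : (0 : ℝ) < (2 ^ n) ^ 2 := by positivity
    have h8 : (2 ^ n) ^ 2 * p S ^ 2 ≤ (2 ^ n) ^ 2 *
        (4 ^ D * (n + 1) ^ D * (∑ S, ∑ T, p S * p T * (1 / 2) ^ (S ∪ T).card)) := by
      calc (2 ^ n) ^ 2 * p S ^ 2 = (2 ^ n * p S) ^ 2 := by ring
        _ ≤ _ := h6
        _ = _ := by ring
    exact le_of_mul_le_mul_left h8 h7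
  set Q := ∑ S, ∑ T, p S * p T * (1 / 2) ^ (S ∪ T).card with hQ
  have hQ0 : 0 ≤ Q := by
    have h5 : 0 ≤ 2 ^ n * Q := by
      rw [← h1]; exact Finset.sum_nonneg fun x _ => sq_nonneg _
    have h7 : (0 : ℝ) < 2 ^ n := by positivity
    exact nonneg_of_mul_nonneg_right h5 h7
  calc ∑ S, p S ^ 2 = ∑ S ∈ Finset.univ.filter (fun T : Finset (Fin n) => T.card ≤ D), p S ^ 2 := by
        rw [Finset.sum_filter]
        apply Finset.sum_congr rfl
        intro S _
        split_ifs with h
        · rfl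
        · rw [hp S (by omega)]; ring
    _ ≤ ∑ S ∈ Finset.univ.filter (fun T : Finset (Fin n) => T.card ≤ D),
        4 ^ D * (n + 1) ^ D * Q := by
        apply Finset.sum_le_sum
        intro S hS
        exact h3 S (Finset.mem_filter.mp hS).2
    _ = (Finset.univ.filter (fun T : Finset (Fin n) => T.card ≤ D)).card *
        (4 ^ D * (n + 1) ^ D * Q) := by
        rw [Finset.sum_const, nsmul_eq_mul]
    _ ≤ ((n + 1) ^ D) * (4 ^ D * (n + 1) ^ D * Q) := by
        apply mul_le_mul_of_nonneg_right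
        · exact_mod_cast card_small (n := n) D
        · positivity
    _ = 4 ^ D * (n + 1) ^ (2 * D) * Q := by
        rw [two_mul, pow_add]; ring

end Br

open Br in
/-- **Bridge**: approximate moments give an exact pseudo-expectation. -/
theorem exists_PE {N D : ℕ} (μ : Finset (Fin N) → ℝ) (ε : ℝ) (hε : 0 ≤ ε) (h0 : |μ ∅ - 1| ≤ 1 / 4)
    (hpsd : ∀ a : Finset (Fin N) → ℝ, (∀ S, D < S.card → a S = 0) →
      -ε * ∑ S, a S ^ 2 ≤ ∑ S, ∑ T, a S * a T * μ (S ∪ T))
    (hδ : 2 * ε * 4 ^ D * (N + 1) ^ (2 * D) ≤ 1) :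
    ∃ E : PE N D, ∀ S : Finset (Fin N), S.card ≤ 2 * D →
      E.L (mono S) = (((1 - 2 * ε * 4 ^ D * (N + 1) ^ (2 * D)) * (μ S / μ ∅) +
        2 * ε * 4 ^ D * (N + 1) ^ (2 * D) * (1 / 2) ^ S.card : ℝ) : ℂ) := by
  set δ := 2 * ε * 4 ^ D * (N + 1) ^ (2 * D) with hδdef
  have hδ0 : 0 ≤ δ := by rw [hδdef]; positivity
  have hμ0 : 3 / 4 ≤ μ ∅ := by
    have := (abs_le.mp h0).1
    linarith
  set ν : Finset (Fin N) → ℝ := fun S => (1 - δ) * (μ S / μ ∅) + δ * (1 / 2) ^ S.card with hν
  set w : (Fin N → Bool) → ℝ := fun x => ∑ S, ν S * mob S x with hw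
  have hwm : ∀ T : Finset (Fin N), ∑ x, w x * mr T x = ν T := by
    intro T
    calc ∑ x, w x * mr T x = ∑ x, ∑ S, ν S * (mob S x * mr T x) := by
          apply Finset.sum_congr rfl
          intro x _
          rw [hw]
          simp only
          rw [Finset.sum_mul]
          apply Finset.sum_congr rfl
          intro S _
          ring
      _ = ∑ S, ν S * ∑ x, mob S x * mr T x := by
          rw [Finset.sum_comm]
          apply Finset.sum_congr rfl
          intro S _
          rw [Finset.mul_sum]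
      _ = ν T := by
          simp_rw [sum_mob_mr]
          simp
  have hνe : ν ∅ = 1 := by
    rw [hν]
    simp only [Finset.card_empty, pow_zero, mul_one]
    rw [div_self (by linarith)]
    ring
  have hpos : ∀ p : Finset (Fin N) → ℝ, (∀ S, D < S.card → p S = 0) →
      0 ≤ ∑ x, w x * (∑ S, p S * mr S x) ^ 2 := by
    intro p hp
    rw [quad_eq]
    simp_rw [hwm]
    have e1 : ∑ S, ∑ T, p S * p T * ν (S ∪ T) =
        (1 - δ) / μ ∅ * (∑ S, ∑ T, p S * p T * μ (S ∪ T)) +
          δ * ∑ S, ∑ T, p S * p T * (1 / 2) ^ (S ∪ T).card := by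
      rw [Finset.mul_sum, Finset.mul_sum, ← Finset.sum_add_distrib]
      apply Finset.sum_congr rfl
      intro S _
      rw [Finset.mul_sum, Finset.mul_sum, ← Finset.sum_add_distrib]
      apply Finset.sum_congr rfl
      intro T _
      rw [hν]
      simp only
      ring
    rw [e1]
    have h1 := hpsd p hp
    have h2 := unif_pos p hp
    set P2 := ∑ S, p S ^ 2 with hP2
    set Q := ∑ S, ∑ T, p S * p T * (1 / 2) ^ (S ∪ T).card with hQ
    have hP20 : 0 ≤ P2 := Finset.sum_nonneg fun S _ => sq_nonneg _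
    have h3 : 0 ≤ (1 - δ) / μ ∅ := div_nonneg (by linarith) (by linarith)
    have h4 : (1 - δ) / μ ∅ ≤ 4 / 3 := by
      rw [div_le_iff₀ (by linarith)]
      linarith
    have h5 : (1 - δ) / μ ∅ * (-ε * P2) ≤ (1 - δ) / μ ∅ * ∑ S, ∑ T, p S * p T * μ (S ∪ T) :=
      mul_le_mul_of_nonneg_left h1 h3
    have h6 : -(4 / 3 * (ε * P2)) ≤ (1 - δ) / μ ∅ * (-ε * P2) := by
      have : (1 - δ) / μ ∅ * (ε * P2) ≤ 4 / 3 * (ε * P2) :=
        mul_le_mul_of_nonneg_right h4 (mul_nonneg hε hP20)
      linarith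
    have h7 : 2 * (ε * P2) ≤ δ * Q := by
      have := mul_le_mul_of_nonneg_left h2 (by linarith : (0 : ℝ) ≤ 2 * ε)
      calc 2 * (ε * P2) = 2 * ε * P2 := by ring
        _ ≤ 2 * ε * (4 ^ D * (N + 1) ^ (2 * D) * Q) := this
        _ = δ * Q := by rw [hδdef]; ring
    have h8 : 0 ≤ ε * P2 := mul_nonneg hε hP20
    linarith
  let L : R N →ₗ[ℂ] ℂ :=
    { toFun := fun f => ∑ x, ((w x : ℝ) : ℂ) * f x
      map_add' := by
        intro f g
        rw [← Finset.sum_add_distrib]
        apply Finset.sum_congr rfl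
        intro x _
        simp only [Pi.add_apply]; ring
      map_smul' := by
        intro z f
        simp only [RingHom.id_apply, smul_eq_mul]
        rw [Finset.mul_sum]
        apply Finset.sum_congr rfl
        intro x _
        simp only [Pi.smul_apply, smul_eq_mul]; ring }
  have hL : ∀ f, L f = ∑ x, ((w x : ℝ) : ℂ) * f x := fun _ => rfl
  have hLm : ∀ S : Finset (Fin N), L (mono S) = ((ν S : ℝ) : ℂ) := by
    intro S
    rw [hL, ← hwm S]
    push_cast
    apply Finset.sum_congr rfl
    intro x _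
    rw [mono_eq]
  refine ⟨⟨L, ?_, ?_, ?_⟩, ?_⟩
  · have h1 : (1 : R N) = mono ∅ := by
      funext x; simp [mono]
    rw [h1, hLm, hνe]; simp
  · intro f
    rw [hL, hL]
    simp only [star_sum, star_mul', Pi.star_apply]
    apply Finset.sum_congr rfl
    intro x _
    congr 1
    exact (Complex.conj_ofReal _).symm
  · rintro P c ⟨a, ha, -, hP⟩
    rw [hL]
    have h1 : ∀ x, P x = ((∑ S, (a S).re * mr S x : ℝ) : ℂ) + ((∑ S, (a S).im * mr S x : ℝ) : ℂ) * Complex.I := by
      intro x
      rw [hP]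
      simp only [Finset.sum_apply, Pi.smul_apply, smul_eq_mul]
      push_cast
      rw [Finset.sum_mul, ← Finset.sum_add_distrib]
      apply Finset.sum_congr rfl
      intro S _
      rw [mono_eq]
      conv_lhs => rw [← Complex.re_add_im (a S)]
      ring
    have h2 : ∀ x, (((w x : ℝ) : ℂ) * (star P * P) x).re =
        w x * (∑ S, (a S).re * mr S x) ^ 2 + w x * (∑ S, (a S).im * mr S x) ^ 2 := by
      intro x
      rw [Pi.mul_apply, Pi.star_apply, Complex.re_ofReal_mul]
      have h3 : (star (P x) * P x).re = Complex.normSq (P x) := by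
        rw [Complex.star_def, ← Complex.normSq_eq_conj_mul_self, Complex.ofReal_re]
      rw [h3, h1 x, Complex.normSq_add_mul_I]
      ring
    rw [Complex.re_sum]
    rw [Finset.sum_congr rfl (fun x _ => h2 x), Finset.sum_add_distrib]
    apply add_nonneg
    · apply hpos
      intro S hS
      rw [ha S hS]; rfl
    · apply hpos
      intro S hS
      rw [ha S hS]; rfl
  · intro S _
    exact hLm S

end Crest.Agent.R300U
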