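import Crest.Agent.R300.U.Calc
import Crest.Agent.R300.U.Iface
import Crest.Agent.R300.U.Bridge

/-!
# Row 300, upper bound: soundness of one decoding step (program independent)

`glue x t h y` is the word with the letters of `x` before `t` and the letters of `y` from `t` on;
`gluePE` transports a pseudo-expectation on the tail to a pseudo-expectation on the whole word
that satisfies the prefix condition.
-/

set_option autoImplicit false

namespace Crest.Agent.R300U

open Finset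

/-- the word with the letters of `x` before `t` and those of `y` from `t` on. -/
def glue {n : ℕ} (x : Fin n → Bool) (t : ℕ) {N : ℕ} (h : t + N = n) (y : Fin N → Bool) :
    Fin n → Bool :=
  fun i => if hi : (i : ℕ) < t then x i else y ⟨i - t, by omega⟩

/-- substitution of the prefix -/
noncomputable def gsub {n : ℕ} (x : Fin n → Bool) (t : ℕ) {N : ℕ} (h : t + N = n) (P : R n) : R N :=
  fun y => P (glue x t h y)

section glue

variable {n : ℕ} (x : Fin n → Bool) (t : ℕ) {N : ℕ} (h : t + N = n)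

theorem gsub_add (P Q : R n) : gsub x t h (P + Q) = gsub x t h P + gsub x t h Q := rfl

theorem gsub_smul (z : ℂ) (P : R n) : gsub x t h (z • P) = z • gsub x t h P := rfl

theorem gsub_star (P : R n) : gsub x t h (star P) = star (gsub x t h P) := rfl

theorem gsub_mul (P Q : R n) : gsub x t h (P * Q) = gsub x t h P * gsub x t h Q := rfl

theorem gsub_one : gsub x t h (1 : R n) = 1 := rfl

theorem gsub_sum {κ : Type*} (s : Finset κ) (P : κ → R n) :
    gsub x t h (∑ k ∈ s, P k) = ∑ k ∈ s, gsub x t h (P k) := by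
  funext y
  simp [gsub, Finset.sum_apply]

/-- tail part of a set of positions -/
def tailSet (S : Finset (Fin n)) : Finset (Fin N) :=
  Finset.univ.filter fun j : Fin N => (⟨t + j, by omega⟩ : Fin n) ∈ S

theorem card_tailSet_le (S : Finset (Fin n)) : (tailSet t h S).card ≤ S.card := by
  refine Finset.card_le_card_of_injOn (fun j : Fin N => (⟨t + j, by omega⟩ : Fin n)) ?_ ?_
  · intro j hj
    simpa [tailSet] using hj
  · intro i _ j _ hij
    simp only [Fin.mk.injEq, Nat.add_left_cancel_iff] at hij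
    exact Fin.ext hij

theorem gsub_mono (S : Finset (Fin n)) :
    gsub x t h (mono S) = (if ∀ i ∈ S, (i : ℕ) < t → x i = true then (1 : ℂ) else 0) •
      mono (tailSet t h S) := by
  funext y
  simp only [gsub, mono_apply, Pi.smul_apply, smul_eq_mul]
  by_cases h1 : ∀ i ∈ S, (i : ℕ) < t → x i = true
  · rw [if_pos h1, one_mul]
    by_cases h2 : ∀ j ∈ tailSet t h S, y j = true
    · rw [if_pos h2, if_pos]
      intro i hi
      unfold glue
      split_ifs with hit
      · exact h1 i hi hit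
      · refine h2 _ ?_
        simp only [tailSet, Finset.mem_filter, Finset.mem_univ, true_and]
        convert hi using 1
        apply Fin.ext
        simp
        omega
    · rw [if_neg h2, if_neg]
      intro h3
      apply h2
      intro j hj
      simp only [tailSet, Finset.mem_filter, Finset.mem_univ, true_and] at hj
      have := h3 _ hj
      unfold glue at this
      simpa using this
  · rw [if_neg h1, zero_mul, if_neg]
    intro h3
    apply h1
    intro i hi hit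
    have := h3 i hi
    unfold glue at this
    rwa [dif_pos hit] at this

theorem Bd.gsub {d : ℕ} {c : ℝ} {P : R n} (hP : Bd d c P) : Bd d c (gsub x t h P) := by
  obtain ⟨a, h1, h3, h2⟩ := hP
  have e1 : R300U.gsub x t h P = ∑ S, (a S * (if ∀ i ∈ S, (i : ℕ) < t → x i = true then (1 : ℂ)
      else 0)) • R300U.mono (tailSet t h S) := by
    rw [h2, gsub_sum]
    refine Finset.sum_congr rfl fun S _ => ?_
    rw [gsub_smul, gsub_mono, smul_smul]
  rw [e1]
  have h4 := Bd.sum (n := N) (d := d) Finset.univ (fun S : Finset (Fin n) => ‖a S‖)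
    (fun S => (a S * (if ∀ i ∈ S, (i : ℕ) < t → x i = true then (1 : ℂ)
      else 0)) • R300U.mono (tailSet t h S)) ?_
  · exact h4.mono_mass h3
  · intro S _
    by_cases hS : d < S.card
    · rw [h1 S hS]
      simpa using Bd.zero (n := N) (d := d) le_rfl
    · refine (Bd.smul_mono ((card_tailSet_le t h S).trans (by omega)) _).mono_mass ?_
      rw [norm_mul]
      refine mul_le_of_le_one_right (norm_nonneg _) ?_
      split_ifs <;> simp

/-- transport of a pseudo-expectation on the tail -/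
noncomputable def gluePE {D : ℕ} (E : PE N D) : PE n D where
  L :=
    { toFun := fun f => E.L (gsub x t h f)
      map_add' := fun f g => by rw [gsub_add, map_add]
      map_smul' := fun z f => by rw [gsub_smul, map_smul, RingHom.id_apply] }
  one := by
    show E.L (gsub x t h 1) = 1
    rw [gsub_one, E.one]
  herm := fun f => by
    show E.L (gsub x t h (star f)) = star (E.L (gsub x t h f))
    rw [gsub_star, E.herm]
  pos := fun P c hP => by
    show 0 ≤ (E.L (gsub x t h (star P * P))).re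
    rw [gsub_mul, gsub_star]
    exact E.pos _ c (hP.gsub x t h)

variable {x t h}

theorem gluePE_L {D : ℕ} (E : PE N D) (f : R n) : (gluePE x t h E).L f = E.L (gsub x t h f) := rfl

theorem gluePE_N {D : ℕ} (E : PE N D) (f : R n) : (gluePE x t h E).N f = E.N (gsub x t h f) := by
  unfold PE.N
  rw [gluePE_L, gsub_mul, gsub_star]

theorem gsub_xv_lt {u : ℕ} (hu : u < t) : gsub x t h (xv u) = cst ((xv u : R n) x) := by
  funext y
  simp only [gsub, xv, cst, glue]
  have : u < n := by omega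
  simp [this, hu]

theorem gluePE_prefix {D : ℕ} (E : PE N D) : Prefix (gluePE x t h E) x t := by
  intro u hu
  rw [gluePE_N]
  have : gsub x t h (dev x (xv u)) = 0 := by
    unfold dev
    funext y
    have h1 := congrFun (gsub_xv_lt (x := x) (h := h) hu) y
    simp only [gsub, cst] at h1
    simp only [gsub, Pi.sub_apply, cst, Pi.zero_apply]
    rw [h1, sub_self]
  rw [this, PE.N_zero]

theorem gsub_xv_self (hN : 0 < N) : gsub x t h (xv t) = mono {(⟨0, hN⟩ : Fin N)} := by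
  funext y
  have htn : t < n := by omega
  simp [gsub, xv, mono, glue, htn]

end glue

section step

variable {n : ℕ} {x : Fin n → Bool} {t : ℕ} {N : ℕ} {h : t + N = n} {D : ℕ}

/-- the letter is recovered by rounding. -/
theorem round_of_N (E : PE n D) (hD : 1 ≤ D) (ht : t < n) (hN : E.N (dev x (xv t)) < 1 / 2) :
    (x ⟨t, ht⟩ = true → 1 / 2 < (E.L (xv t)).re) ∧ (x ⟨t, ht⟩ = false → (E.L (xv t)).re < 1 / 2) := by
  have h1 := E.norm_L_le (((Bd.xv (n := n) t le_rfl).dev x).mono_deg hD)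
  have h2 : E.L (dev x (xv t)) = E.L (xv t) - (xv t : R n) x := by
    unfold dev
    rw [map_sub, cst_eq_smul, map_smul, E.one, smul_eq_mul, mul_one]
  have h3 : |(E.L (xv t) - (xv t : R n) x).re| < 1 / 2 := by
    rw [← h2]
    exact (Complex.abs_re_le_norm _).trans_lt (h1.trans_lt hN)
  rw [abs_lt] at h3
  constructor
  · intro hx
    have : (xv t : R n) x = 1 := by simp [xv, ht, hx]
    rw [this, Complex.sub_re, Complex.one_re] at h3
    linarith [h3.1]
  · intro hx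
    have : (xv t : R n) x = 0 := by simp [xv, ht, hx]
    rw [this, sub_zero] at h3
    linarith [h3.2]

/-- quadratic form of a real coefficient vector against the moment vector -/
theorem N_sq_of_coeff (E : PE N D) (v : Finset (Fin N) → ℝ) (hv : ∀ S, D < S.card → v S = 0) :
    E.N (∑ S, ((v S : ℝ) : ℂ) • mono S) ^ 2
      = ∑ S, ∑ S', v S * v S' * (E.L (mono (S ∪ S'))).re := by
  have hB : Bd D (∑ S, |v S|) (∑ S, ((v S : ℝ) : ℂ) • (mono S : R N)) :=
    ⟨fun S => ((v S : ℝ) : ℂ), fun S hS => by simp [hv S hS], by simp, rfl⟩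
  rw [E.N_sq hB]
  have e1 : star (∑ S, ((v S : ℝ) : ℂ) • (mono S : R N)) * ∑ S, ((v S : ℝ) : ℂ) • (mono S : R N)
      = ∑ S, ∑ S', ((v S * v S' : ℝ) : ℂ) • mono (S ∪ S') := by
    rw [star_sum, Finset.sum_mul]
    refine Finset.sum_congr rfl fun S _ => ?_
    rw [Finset.mul_sum]
    refine Finset.sum_congr rfl fun S' _ => ?_
    rw [star_smul, star_mono, smul_mul_smul_comm, mono_mul_mono]
    congr 1
    simp
  rw [e1, map_sum, Complex.re_sum]
  refine Finset.sum_congr rfl fun S _ => ?_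
  rw [map_sum, Complex.re_sum]
  refine Finset.sum_congr rfl fun S' _ => ?_
  rw [map_smul, smul_eq_mul, Complex.re_ofReal_mul]

/-- value of a real combination of monomials as an element of `R N`. -/
theorem comb_apply (v : Finset (Fin N) → ℝ) (y : Fin N → Bool) :
    (∑ S, ((v S : ℝ) : ℂ) • (mono S : R N)) y
      = ((∑ S, v S * (if ∀ i ∈ S, y i = true then 1 else 0) : ℝ) : ℂ) := by
  rw [Finset.sum_apply]
  push_cast
  refine Finset.sum_congr rfl fun S _ => ?_
  rw [Pi.smul_apply, smul_eq_mul, mono_apply]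
  split_ifs <;> simp

/-- `0 ≤ T_a(x) ≤ 1`. -/
theorem TT_mem {p : ℝ} (h0 : 0 ≤ p) (h1 : p ≤ 1) (a : Finset ℕ) (y : Fin n → Bool) :
    0 ≤ TT p a y ∧ TT p a y ≤ 1 := by
  have hw : ∀ keep : Fin n → Bool, 0 ≤ Crest.FinProb.bernoulliWeight p keep := by
    intro keep
    unfold Crest.FinProb.bernoulliWeight
    refine Finset.prod_nonneg fun i _ => ?_
    split_ifs
    · exact h0
    · linarith
  have hs : ∑ keep : Fin n → Bool, Crest.FinProb.bernoulliWeight p keep = 1 := by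
    have e : ∑ keep : Fin n → Bool, Crest.FinProb.bernoulliWeight p keep
        = ∏ i : Fin n, ∑ b : Bool, (if b then p else 1 - p) := by
      rw [Finset.prod_univ_sum]
      simp only [Crest.FinProb.bernoulliWeight, Fintype.piFinset_univ]
    rw [e]
    simp
  have hst : ∀ z : List Bool, 0 ≤ stat a z ∧ stat a z ≤ 1 := by
    intro z; unfold stat; split_ifs <;> norm_num
  constructor
  · exact Finset.sum_nonneg fun keep _ => mul_nonneg (hw keep) (hst _).1
  · rw [← hs]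
    exact Finset.sum_le_sum fun keep _ => mul_le_of_le_one_right (hw keep) (hst _).2

/-- the uniform average of a monomial -/
theorem unif_mono (S : Finset (Fin N)) :
    ∑ y : Fin N → Bool, (if ∀ i ∈ S, y i = true then (1 : ℝ) else 0)
      = 2 ^ N * (1 / 2 : ℝ) ^ S.card := by
  classical
  have e1 : ∀ y : Fin N → Bool, (if ∀ i ∈ S, y i = true then (1 : ℝ) else 0)
      = ∏ i : Fin N, (if i ∈ S then (if y i = true then 1 else 0) else 1) := by
    intro y
    by_cases hy : ∀ i ∈ S, y i = true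
    · rw [if_pos hy, Finset.prod_eq_one]
      intro i _
      split_ifs with h1 h2
      · rfl
      · exact absurd (hy i h1) h2
      · rfl
    · rw [if_neg hy]
      push Not at hy
      obtain ⟨i, hi, hyi⟩ := hy
      refine (Finset.prod_eq_zero (Finset.mem_univ i) ?_).symm
      rw [if_pos hi, if_neg hyi]
  simp_rw [e1]
  have e2 : ∑ y : Fin N → Bool, ∏ i : Fin N, (if i ∈ S then (if y i = true then (1 : ℝ) else 0) else 1)
      = ∏ i : Fin N, ∑ b : Bool, (if i ∈ S then (if b = true then (1 : ℝ) else 0) else 1) := by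
    rw [Finset.prod_univ_sum]
    simp only [Fintype.piFinset_univ]
  rw [e2]
  have e3 : ∀ i : Fin N, ∑ b : Bool, (if i ∈ S then (if b = true then (1 : ℝ) else 0) else 1)
      = 2 * (if i ∈ S then (1 / 2 : ℝ) else 1) := by
    intro i
    split_ifs <;> norm_num
  simp_rw [e3]
  rw [Finset.prod_mul_distrib, Finset.prod_const, Finset.card_univ, Fintype.card_fin]
  congr 1
  rw [Finset.prod_ite_mem_eq, Finset.prod_const]

/-- uniform average of the square of a combination of monomials -/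
theorem unif_sq (v : Finset (Fin N) → ℝ) :
    ∑ S, ∑ S', v S * v S' * (1 / 2 : ℝ) ^ (S ∪ S').card
      = (1 / 2 : ℝ) ^ N * ∑ y : Fin N → Bool,
        (∑ S, v S * (if ∀ i ∈ S, y i = true then (1 : ℝ) else 0)) ^ 2 := by
  classical
  have e1 : ∀ y : Fin N → Bool, (∑ S, v S * (if ∀ i ∈ S, y i = true then (1 : ℝ) else 0)) ^ 2
      = ∑ S, ∑ S', v S * v S' * (if ∀ i ∈ S ∪ S', y i = true then (1 : ℝ) else 0) := by
    intro y
    rw [sq, Finset.sum_mul_sum]
    refine Finset.sum_congr rfl fun S _ => Finset.sum_congr rfl fun S' _ => ?_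
    by_cases h1 : ∀ i ∈ S, y i = true
    · by_cases h2 : ∀ i ∈ S', y i = true
      · have h3 : ∀ i ∈ S ∪ S', y i = true := fun i hi =>
          (Finset.mem_union.1 hi).elim (h1 i) (h2 i)
        rw [if_pos h1, if_pos h2, if_pos h3]; ring
      · have h3 : ¬ ∀ i ∈ S ∪ S', y i = true := fun h =>
          h2 fun i hi => h i (Finset.mem_union_right _ hi)
        rw [if_neg h2, if_neg h3]; ring
    · have h3 : ¬ ∀ i ∈ S ∪ S', y i = true := fun h =>
        h1 fun i hi => h i (Finset.mem_union_left _ hi)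
      rw [if_neg h1, if_neg h3]; ring
  simp_rw [e1]
  have e2 : ∑ y : Fin N → Bool, ∑ S, ∑ S', v S * v S' *
      (if ∀ i ∈ S ∪ S', y i = true then (1 : ℝ) else 0)
      = ∑ S, ∑ S', v S * v S' * (2 ^ N * (1 / 2 : ℝ) ^ (S ∪ S').card) := by
    rw [Finset.sum_comm]
    refine Finset.sum_congr rfl fun S _ => ?_
    rw [Finset.sum_comm]
    refine Finset.sum_congr rfl fun S' _ => ?_
    rw [← unif_mono, Finset.mul_sum]
  rw [e2, Finset.mul_sum]
  refine Finset.sum_congr rfl fun S _ => ?_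
  rw [Finset.mul_sum]
  refine Finset.sum_congr rfl fun S' _ => ?_
  have : (1 / 2 : ℝ) ^ N * 2 ^ N = 1 := by rw [← mul_pow]; norm_num
  calc v S * v S' * (1 / 2 : ℝ) ^ (S ∪ S').card
      = ((1 / 2 : ℝ) ^ N * 2 ^ N) * (v S * v S' * (1 / 2 : ℝ) ^ (S ∪ S').card) := by
        rw [this, one_mul]
    _ = _ := by ring

/-- **data condition from the machine's constraint** -/
theorem data_of_mu (E : PE N D) {mu : Finset (Fin N) → ℝ} {δ : ℝ} (hδ0 : 0 ≤ δ) (hδ1 : δ ≤ 1)
    (hmu0 : 3 / 4 ≤ mu ∅)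
    (hE : ∀ S : Finset (Fin N), S.card ≤ 2 * D →
      E.L (mono S) = (((1 - δ) * (mu S / mu ∅) + δ * (1 / 2) ^ S.card : ℝ) : ℂ))
    {p : ℝ} (hp0 : 0 ≤ p) (hp1 : p ≤ 1) {a : Finset ℕ} {co : Finset (Fin N) → ℝ}
    (hco : ∀ S, D < S.card → co S = 0)
    (hrep : ∀ y : Fin N → Bool, TT p a (glue x t h y)
      = ∑ S, co S * (if ∀ i ∈ S, y i = true then 1 else 0))
    {That β₁ : ℝ} (hThat0 : 0 ≤ That) (hThat1 : That ≤ 1)
    (hdata : |∑ S, ∑ S', (co S - if S = ∅ then That else 0) *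
      (co S' - if S' = ∅ then That else 0) * mu (S ∪ S')| ≤ 3 * β₁ ^ 2)
    (hδβ : δ ≤ β₁ ^ 2) (hβ₁ : |That - TT p a x| ≤ β₁) :
    (gluePE x t h E).N (dev x (Tc p a)) ≤ 8 * β₁ := by
  classical
  have hβ0 : 0 ≤ β₁ := (abs_nonneg _).trans hβ₁
  set v : Finset (Fin N) → ℝ := fun S => co S - if S = ∅ then That else 0 with hvdef
  have hv : ∀ S, D < S.card → v S = 0 := by
    intro S hS
    have hne : S ≠ ∅ := by
      rintro rfl
      simp at hS
    simp [hvdef, hco S hS, hne]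
  have hval : ∀ y : Fin N → Bool, ∑ S, v S * (if ∀ i ∈ S, y i = true then (1 : ℝ) else 0)
      = TT p a (glue x t h y) - That := by
    intro y
    rw [hrep y]
    simp only [hvdef, sub_mul, Finset.sum_sub_distrib]
    congr 1
    rw [Finset.sum_eq_single ∅]
    · simp
    · intro S _ hS
      simp [hS]
    · simp
  set W : R N := ∑ S, ((v S : ℝ) : ℂ) • mono S with hW
  have hWB : Bd D (∑ S, |v S|) W :=
    ⟨fun S => ((v S : ℝ) : ℂ), fun S hS => by simp [hv S hS], by simp, rfl⟩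
  -- the norm of `W`
  have hN2 : E.N W ^ 2 ≤ 5 * β₁ ^ 2 := by
    rw [hW, N_sq_of_coeff E v hv]
    have h1 : ∑ S, ∑ S', v S * v S' * (E.L (mono (S ∪ S'))).re
        = (1 - δ) / mu ∅ * (∑ S, ∑ S', v S * v S' * mu (S ∪ S'))
          + δ * ∑ S, ∑ S', v S * v S' * (1 / 2 : ℝ) ^ (S ∪ S').card := by
      rw [Finset.mul_sum, Finset.mul_sum, ← Finset.sum_add_distrib]
      refine Finset.sum_congr rfl fun S _ => ?_
      rw [Finset.mul_sum, Finset.mul_sum, ← Finset.sum_add_distrib]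
      refine Finset.sum_congr rfl fun S' _ => ?_
      by_cases hS : D < S.card
      · simp [hv S hS]
      by_cases hS' : D < S'.card
      · simp [hv S' hS']
      have hcard : (S ∪ S').card ≤ 2 * D := (Finset.card_union_le _ _).trans (by omega)
      rw [hE _ hcard, Complex.ofReal_re]
      ring
    have h2 : (1 - δ) / mu ∅ * (∑ S, ∑ S', v S * v S' * mu (S ∪ S')) ≤ 4 * β₁ ^ 2 := by
      have h3 : 0 ≤ (1 - δ) / mu ∅ := div_nonneg (by linarith) (by linarith)
      have h4 : (1 - δ) / mu ∅ ≤ 4 / 3 := by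
        rw [div_le_div_iff₀ (by linarith) (by norm_num)]
        linarith
      have h5 := (le_abs_self _).trans hdata
      calc (1 - δ) / mu ∅ * (∑ S, ∑ S', v S * v S' * mu (S ∪ S'))
          ≤ (1 - δ) / mu ∅ * (3 * β₁ ^ 2) := mul_le_mul_of_nonneg_left h5 h3
        _ ≤ 4 / 3 * (3 * β₁ ^ 2) := mul_le_mul_of_nonneg_right h4 (by positivity)
        _ = 4 * β₁ ^ 2 := by ring
    have h3 : ∑ S, ∑ S', v S * v S' * (1 / 2 : ℝ) ^ (S ∪ S').card ≤ 1 := by
      rw [unif_sq]
      have h4 : ∑ y : Fin N → Bool,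
          (∑ S, v S * (if ∀ i ∈ S, y i = true then (1 : ℝ) else 0)) ^ 2 ≤ 2 ^ N := by
        calc ∑ y : Fin N → Bool, (∑ S, v S * (if ∀ i ∈ S, y i = true then (1 : ℝ) else 0)) ^ 2
            ≤ ∑ _y : Fin N → Bool, (1 : ℝ) := by
              refine Finset.sum_le_sum fun y _ => ?_
              rw [hval y]
              have := TT_mem hp0 hp1 a (glue x t h y)
              have h6 : |TT p a (glue x t h y) - That| ≤ 1 := by
                rw [abs_le]; constructor <;> linarith [this.1, this.2]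
              rw [← sq_abs]
              exact pow_le_one₀ (abs_nonneg _) h6
          _ = 2 ^ N := by simp
      have h5 : (0 : ℝ) ≤ (1 / 2 : ℝ) ^ N := by positivity
      calc (1 / 2 : ℝ) ^ N * _ ≤ (1 / 2 : ℝ) ^ N * 2 ^ N := mul_le_mul_of_nonneg_left h4 h5
        _ = 1 := by rw [← mul_pow]; norm_num
    rw [h1]
    have h4 : δ * ∑ S, ∑ S', v S * v S' * (1 / 2 : ℝ) ^ (S ∪ S').card ≤ δ * 1 :=
      mul_le_mul_of_nonneg_left h3 hδ0
    linarith
  have hNW : E.N W ≤ 3 * β₁ := by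
    refine le_of_sq_le_sq ?_ (by positivity)
    nlinarith [sq_nonneg β₁]
  -- relation with the deviation
  rw [gluePE_N]
  have hrel : gsub x t h (dev x (Tc p a)) = W + cst ((That - TT p a x : ℝ) : ℂ) := by
    funext y
    have h5 := comb_apply v y
    rw [← hW] at h5
    simp only [gsub, dev_apply, Tc, Pi.add_apply, cst_apply]
    rw [h5, hval y]
    push_cast
    ring
  rw [hrel]
  refine (E.N_add_le hWB (Bd.cst _)).trans ?_
  rw [E.N_cst, Complex.norm_real, Real.norm_eq_abs]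
  linarith

/-- **soundness of one decoding step** from an exact pseudo-expectation on the tail. -/
theorem step_sound_aux {K : ℕ} (hK : 1 ≤ K) (ht : t < n) {p : ℝ} (hp0 : 0 ≤ p) (hp1 : p ≤ 1)
    {β₁ : ℝ}
    (hIdent : ∀ (E : PE n (2 * K)), Prefix E x t → Data E x p K (8 * β₁) →
      E.N (dev x (xv t)) < 1 / 2)
    (E : PE N (2 * K)) {mu : Finset (Fin N) → ℝ} {δ : ℝ} (hδ0 : 0 ≤ δ) (hδ1 : δ ≤ 1)
    (hmu0 : 3 / 4 ≤ mu ∅)
    (hE : ∀ S : Finset (Fin N), S.card ≤ 2 * (2 * K) →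
      E.L (mono S) = (((1 - δ) * (mu S / mu ∅) + δ * (1 / 2) ^ S.card : ℝ) : ℂ))
    (hδβ : δ ≤ β₁ ^ 2) {co : Finset ℕ → Finset (Fin N) → ℝ} {That : Finset ℕ → ℝ}
    (hco : ∀ a : Finset ℕ, a.card ≤ K → (∀ j ∈ a, j < n) → ∀ S, K < S.card → co a S = 0)
    (hrep : ∀ a : Finset ℕ, a.card ≤ K → (∀ j ∈ a, j < n) → ∀ y : Fin N → Bool,
      TT p a (glue x t h y) = ∑ S, co a S * (if ∀ i ∈ S, y i = true then 1 else 0))
    (hThat : ∀ a : Finset ℕ, a.card ≤ K → (∀ j ∈ a, j < n) →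
      0 ≤ That a ∧ That a ≤ 1 ∧ |That a - TT p a x| ≤ β₁)
    (hdata : ∀ a : Finset ℕ, a.card ≤ K → (∀ j ∈ a, j < n) →
      |∑ S, ∑ S', (co a S - if S = ∅ then That a else 0) *
        (co a S' - if S' = ∅ then That a else 0) * mu (S ∪ S')| ≤ 3 * β₁ ^ 2)
    (hN : 0 < N) :
    (x ⟨t, ht⟩ = true ↔ mu ∅ < 2 * mu {(⟨0, hN⟩ : Fin N)}) := by
  have hdat : Data (gluePE x t h E) x p K (8 * β₁) := by
    intro a ha hj
    obtain ⟨h1, h2, h3⟩ := hThat a ha hj
    exact data_of_mu E hδ0 hδ1 hmu0 hE hp0 hp1 (fun S hS => hco a ha hj S (by omega))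
      (hrep a ha hj) h1 h2 (hdata a ha hj) hδβ h3
  have hlt := hIdent (gluePE x t h E) (gluePE_prefix E) hdat
  obtain ⟨r1, r2⟩ := round_of_N (gluePE x t h E) (by omega) ht hlt
  have hL : ((gluePE x t h E).L (xv t)).re
      = (1 - δ) * (mu {(⟨0, hN⟩ : Fin N)} / mu ∅) + δ * (1 / 2) := by
    rw [gluePE_L, gsub_xv_self hN, hE _ (by simp; omega), Complex.ofReal_re]
    simp
  rw [hL] at r1 r2
  have hm : 0 < mu ∅ := by linarith
  constructor
  · intro hx
    have h1 := r1 hx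
    have h2 : 0 < (1 - δ) * (mu {(⟨0, hN⟩ : Fin N)} / mu ∅ - 1 / 2) := by linarith
    have h3 : 0 < mu {(⟨0, hN⟩ : Fin N)} / mu ∅ - 1 / 2 := by
      by_contra hcon
      push Not at hcon
      have := mul_nonpos_of_nonneg_of_nonpos (by linarith : 0 ≤ 1 - δ) hcon
      linarith
    have h4 : 1 / 2 < mu {(⟨0, hN⟩ : Fin N)} / mu ∅ := by linarith
    rw [lt_div_iff₀ hm] at h4
    linarith
  · intro hlt2
    by_contra hx
    have hx' : x ⟨t, ht⟩ = false := by simpa using hx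
    have h1 := r2 hx'
    have h4 : 1 / 2 < mu {(⟨0, hN⟩ : Fin N)} / mu ∅ := by
      rw [lt_div_iff₀ hm]; linarith
    have h2 : 0 ≤ (1 - δ) * (mu {(⟨0, hN⟩ : Fin N)} / mu ∅ - 1 / 2) :=
      mul_nonneg (by linarith) (by linarith)
    linarith

/-- the statement of helper333's bridge -/
def ExistsPE : Prop :=
  ∀ (N D : ℕ) (μ : Finset (Fin N) → ℝ) (ε : ℝ), 0 ≤ ε → |μ ∅ - 1| ≤ 1 / 4 →
    (∀ a : Finset (Fin N) → ℝ, (∀ S, D < S.card → a S = 0) →
      -ε * ∑ S, a S ^ 2 ≤ ∑ S, ∑ T, a S * a T * μ (S ∪ T)) →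
    2 * ε * 4 ^ D * ((N : ℝ) + 1) ^ (2 * D) ≤ 1 →
    ∃ E : PE N D, ∀ S : Finset (Fin N), S.card ≤ 2 * D →
      E.L (mono S) = (((1 - 2 * ε * 4 ^ D * ((N : ℝ) + 1) ^ (2 * D)) * (μ S / μ ∅) +
        2 * ε * 4 ^ D * ((N : ℝ) + 1) ^ (2 * D) * (1 / 2) ^ S.card : ℝ) : ℂ)

variable (h) in
/-- **soundness of one decoding step** from an approximate moment vector. -/
theorem step_sound_of (hEx : ExistsPE) {K m : ℕ} (hK : 1 ≤ K) (ht : t < n) {p : ℝ} (hp0 : 0 ≤ p)
    (hp1 : p ≤ 1) {β₁ : ℝ} (hβ0 : 0 ≤ β₁) (hβ1 : β₁ ≤ 1)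
    (hIdent : ∀ (E : PE n (2 * K)), Prefix E x t → Data E x p K (8 * β₁) →
      E.N (dev x (xv t)) < 1 / 2)
    {mu : Finset (Fin N) → ℝ} (hm : 3 / (m : ℝ) ≤ 1 / 4) (h0 : |mu ∅ - 1| ≤ 3 / (m : ℝ))
    (hpsd : ∀ c : Finset (Fin N) → ℝ, (∀ S, 2 * K < S.card → c S = 0) →
      -(1 / (m : ℝ)) * ∑ S, c S ^ 2 ≤ ∑ S, ∑ T, c S * c T * mu (S ∪ T))
    (hnum : 2 * (1 / (m : ℝ)) * 4 ^ (2 * K) * ((N : ℝ) + 1) ^ (4 * K) ≤ β₁ ^ 2)
    {gl : (Fin N → Bool) → Fin n → Bool}
    (hgl1 : ∀ (y : Fin N → Bool) (i : Fin n), (i : ℕ) < t → gl y i = x i)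
    (hgl2 : ∀ (y : Fin N → Bool) (i : Fin n) (hi : ¬ (i : ℕ) < t),
      gl y i = y ⟨i - t, by omega⟩)
    {co : Finset ℕ → Finset (Fin N) → ℝ} {That : Finset ℕ → ℝ}
    (hco : ∀ a : Finset ℕ, a.card ≤ K → (∀ j ∈ a, j < n) → ∀ S, K < S.card → co a S = 0)
    (hrep : ∀ a : Finset ℕ, a.card ≤ K → (∀ j ∈ a, j < n) → ∀ y : Fin N → Bool,
      TT p a (gl y) = ∑ S, co a S * (if ∀ i ∈ S, y i = true then 1 else 0))
    (hThat : ∀ a : Finset ℕ, a.card ≤ K → (∀ j ∈ a, j < n) →
      0 ≤ That a ∧ That a ≤ 1 ∧ |That a - TT p a x| ≤ β₁)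
    (hdata : ∀ a : Finset ℕ, a.card ≤ K → (∀ j ∈ a, j < n) →
      |∑ S, ∑ S', (co a S - if S = ∅ then That a else 0) *
        (co a S' - if S' = ∅ then That a else 0) * mu (S ∪ S')| ≤ 3 * β₁ ^ 2)
    (hN : 0 < N) :
    (x ⟨t, ht⟩ = true ↔ mu ∅ < 2 * mu {(⟨0, hN⟩ : Fin N)}) := by
  have hglue : ∀ y : Fin N → Bool, gl y = glue x t h y := by
    intro y
    funext i
    unfold glue
    split_ifs with hi
    · exact hgl1 y i hi
    · exact hgl2 y i hi
  have hδ : 2 * (1 / (m : ℝ)) * 4 ^ (2 * K) * ((N : ℝ) + 1) ^ (2 * (2 * K)) ≤ β₁ ^ 2 := by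
    rw [show 2 * (2 * K) = 4 * K by ring]
    exact hnum
  have hδ1 : 2 * (1 / (m : ℝ)) * 4 ^ (2 * K) * ((N : ℝ) + 1) ^ (2 * (2 * K)) ≤ 1 :=
    hδ.trans (pow_le_one₀ hβ0 hβ1)
  obtain ⟨E, hE⟩ := hEx N (2 * K) mu (1 / (m : ℝ)) (by positivity) (h0.trans hm) hpsd hδ1
  refine step_sound_aux (h := h) hK ht hp0 hp1 hIdent E (by positivity) hδ1 ?_ hE hδ hco ?_ hThat hdata hN
  · have := (abs_le.1 (h0.trans hm)).1
    linarith
  · intro a ha hj y
    rw [← hglue y]
    exact hrep a ha hj y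

theorem existsPE : ExistsPE := fun _ _ μ ε hε h0 hpsd hδ => exists_PE μ ε hε h0 hpsd hδ

variable (h) in
/-- **soundness of one decoding step** from an approximate moment vector (final form). -/
theorem step_sound {K m : ℕ} (hK : 1 ≤ K) (ht : t < n) {p : ℝ} (hp0 : 0 ≤ p)
    (hp1 : p ≤ 1) {β₁ : ℝ} (hβ0 : 0 ≤ β₁) (hβ1 : β₁ ≤ 1)
    (hIdent : ∀ (E : PE n (2 * K)), Prefix E x t → Data E x p K (8 * β₁) →
      E.N (dev x (xv t)) < 1 / 2)
    {mu : Finset (Fin N) → ℝ} (hm : 3 / (m : ℝ) ≤ 1 / 4) (h0 : |mu ∅ - 1| ≤ 3 / (m : ℝ))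
    (hpsd : ∀ c : Finset (Fin N) → ℝ, (∀ S, 2 * K < S.card → c S = 0) →
      -(1 / (m : ℝ)) * ∑ S, c S ^ 2 ≤ ∑ S, ∑ T, c S * c T * mu (S ∪ T))
    (hnum : 2 * (1 / (m : ℝ)) * 4 ^ (2 * K) * ((N : ℝ) + 1) ^ (4 * K) ≤ β₁ ^ 2)
    {gl : (Fin N → Bool) → Fin n → Bool}
    (hgl1 : ∀ (y : Fin N → Bool) (i : Fin n), (i : ℕ) < t → gl y i = x i)
    (hgl2 : ∀ (y : Fin N → Bool) (i : Fin n) (hi : ¬ (i : ℕ) < t),
      gl y i = y ⟨i - t, by omega⟩)
    {co : Finset ℕ → Finset (Fin N) → ℝ} {That : Finset ℕ → ℝ}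
    (hco : ∀ a : Finset ℕ, a.card ≤ K → (∀ j ∈ a, j < n) → ∀ S, K < S.card → co a S = 0)
    (hrep : ∀ a : Finset ℕ, a.card ≤ K → (∀ j ∈ a, j < n) → ∀ y : Fin N → Bool,
      TT p a (gl y) = ∑ S, co a S * (if ∀ i ∈ S, y i = true then 1 else 0))
    (hThat : ∀ a : Finset ℕ, a.card ≤ K → (∀ j ∈ a, j < n) →
      0 ≤ That a ∧ That a ≤ 1 ∧ |That a - TT p a x| ≤ β₁)
    (hdata : ∀ a : Finset ℕ, a.card ≤ K → (∀ j ∈ a, j < n) →
      |∑ S, ∑ S', (co a S - if S = ∅ then That a else 0) *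
        (co a S' - if S' = ∅ then That a else 0) * mu (S ∪ S')| ≤ 3 * β₁ ^ 2)
    (hN : 0 < N) :
    (x ⟨t, ht⟩ = true ↔ mu ∅ < 2 * mu {(⟨0, hN⟩ : Fin N)}) :=
  step_sound_of h existsPE hK ht hp0 hp1 hβ0 hβ1 hIdent hm h0 hpsd hnum hgl1 hgl2 hco hrep hThat
    hdata hN

end step

end Crest.Agent.R300U
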