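import Crest.Agent.R300.U.AccRep
import Crest.Agent.R300.U.Iface
/-!
Row 300, AccessStatement: the skeleton of a code (owner helper862).
-/
set_option autoImplicit false

namespace Crest.Agent.R300U

open scoped BigOperators

theorem Adm.le {s : Sched} : ∀ {c : Code} {j : ℕ}, Adm s j c → j ≤ s.h + 1
  | [], j, h => by
      have : j = s.h + 1 := h
      omega
  | nd :: c, j, h => by
      have h1 : Adm s (j + 1) c := h.2.2.2.2.2
      have := Adm.le h1
      omega

theorem Adm.leaves_le {s : Sched} : ∀ {c : Code} {j : ℕ}, Adm s j c → leaves c ≤ 4 ^ (s.h + 1 - j)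
  | [], j, h => by
      simp [leaves, Nat.one_le_pow]
  | nd :: c, j, h => by
      have h1 : Adm s (j + 1) c := h.2.2.2.2.2
      have h2 := Adm.leaves_le h1
      have h3 := Adm.le h1
      have h4 : nd.k ≤ 4 := h.2.1
      have e : s.h + 1 - j = (s.h + 1 - (j + 1)) + 1 := by omega
      rw [e, pow_succ, leaves]
      calc nd.k * leaves c ≤ 4 * 4 ^ (s.h + 1 - (j + 1)) := Nat.mul_le_mul h4 h2
        _ = _ := by ring

/-- the kernel class of the edges: closed under conjugation, contains the child kernels -/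
structure KerClass (s : Sched) (Ker : ℕ → (ℕ → ℂ) → Prop) : Prop where
  conj : ∀ j g, Ker j g → Ker j (fun d => star (g d))
  child : ∀ j, 1 ≤ j → j ≤ s.h → ∀ ρ f : ℝ, ρ ≤ 12 * Real.sqrt (2 * s.A j * s.τ j) →
    |f| ≤ 2 * s.r j →
    Ker j (fun d => Complex.exp (-(s.τ j * (d : ℝ) ^ 2 / 2 : ℝ) + ((ρ : ℂ) + Complex.I * f) * (d : ℂ)))

theorem KerClass.cjn {s : Sched} {Ker : ℕ → (ℕ → ℂ) → Prop} (hK : KerClass s Ker) {j : ℕ}
    {g : ℕ → ℂ} (h : Ker j g) (b : Bool) : Ker j (fun d => cjn b (g d)) := by
  cases b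
  · simpa [R300U.cjn] using h
  · simpa [R300U.cjn] using hK.conj j g h

/-- skeleton representation of a code, head at level `j` -/
theorem code_rep {s : Sched} {Ker : ℕ → (ℕ → ℂ) → Prop} (hK : KerClass s Ker) :
    ∀ (c : Code) (j : ℕ), 1 ≤ j → Adm s j c →
    ∃ (ι κ : Type) (_ : Fintype ι) (_ : DecidableEq ι) (_ : Nonempty ι) (_ : Fintype κ)
      (A B : κ → Finset ι) (g : κ → ℕ → ℂ) (lev : κ → ℕ),
      Fintype.card ι = leaves c ∧ (∀ e, B e ⊆ A e) ∧ (∀ e, j ≤ lev e ∧ lev e ≤ s.h) ∧
      (∀ i, j ≤ i → (Finset.univ.filter (fun e => lev e = i)).card ≤ 4 ^ (i + 1 - j)) ∧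
      (∀ e, Ker (lev e) (g e)) ∧ ∀ n : ℕ, Rep (n := n) (val c) A B g := by
  classical
  intro c
  induction c with
  | nil =>
    intro j hj h
    refine ⟨Unit, Empty, inferInstance, inferInstance, inferInstance, inferInstance,
      fun _ => ∅, fun _ => ∅, fun _ _ => 0, fun _ => 0, ?_, ?_, ?_, ?_, ?_, ?_⟩
    · simp [leaves]
    · intro e; exact e.elim
    · intro e; exact e.elim
    · intro i _; simp
    · intro e; exact e.elim
    · intro n
      have := rep_leaf (n := n)
      intro M
      rw [val]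
      exact this M
  | cons nd c ih =>
    intro j hj h
    obtain ⟨hk2, hk4, hτ, hρ, hf, hadm⟩ := h
    have hjle : j + 1 ≤ s.h + 1 := Adm.le hadm
    obtain ⟨ι, κ, _, _, _, _, A, B, g, lev, hcard, hBA, hlev, hcnt, hg, hrep⟩ :=
      ih (j + 1) (by omega) hadm
    have hk0 : 0 < nd.k := by omega
    have : Nonempty (Fin nd.k) := ⟨⟨0, hk0⟩⟩
    refine ⟨Fin nd.k × ι, Fin nd.k ⊕ Fin nd.k × κ, inferInstance, inferInstance, inferInstance,
      inferInstance, nodeA nd.k A, nodeB nd.k B,
      nodeG nd.k nd.flag (fun a d => Complex.exp (-(nd.τ * (d : ℝ) ^ 2 / 2 : ℝ) +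
        ((nd.ρ : ℂ) + Complex.I * nd.f a) * (d : ℂ))) g,
      Sum.elim (fun _ => j) (fun ae => lev ae.2), ?_, ?_, ?_, ?_, ?_, ?_⟩
    · rw [Fintype.card_prod, Fintype.card_fin, hcard, leaves]
    · rintro (a | ⟨a, e⟩)
      · exact Finset.subset_univ _
      · exact Finset.map_subset_map.mpr (hBA e)
    · rintro (a | ⟨a, e⟩)
      · simp only [Sum.elim_inl]; omega
      · have := hlev e
        simp only [Sum.elim_inr]; omega
    · intro i hi
      have hfin : (Finset.univ.filter (fun e : Fin nd.k ⊕ Fin nd.k × κ =>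
          Sum.elim (fun _ => j) (fun ae => lev ae.2) e = i)) ⊆
          (Finset.univ.filter (fun _ : Fin nd.k => j = i)).disjSum
            (Finset.univ ×ˢ (Finset.univ.filter (fun e => lev e = i))) := by
        intro e he
        rw [Finset.mem_filter] at he
        rcases e with a | ⟨a, e⟩
        · rw [Finset.inl_mem_disjSum, Finset.mem_filter]
          exact ⟨Finset.mem_univ _, he.2⟩
        · rw [Finset.inr_mem_disjSum, Finset.mem_product, Finset.mem_filter]
          exact ⟨Finset.mem_univ _, Finset.mem_univ _, he.2⟩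
      refine (Finset.card_le_card hfin).trans ?_
      rw [Finset.card_disjSum, Finset.card_product, Finset.card_univ, Fintype.card_fin]
      by_cases hij : j = i
      · subst hij
        have h0 : (Finset.univ.filter (fun e => lev e = j)) = ∅ := by
          rw [Finset.filter_eq_empty_iff]
          intro e _
          have := (hlev e).1
          omega
        rw [h0]
        have h1 : (Finset.univ.filter (fun _ : Fin nd.k => j = j)).card ≤ nd.k := by
          refine (Finset.card_filter_le _ _).trans ?_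
          simp
        have h2 : j + 1 - j = 1 := by omega
        rw [h2, Finset.card_empty, mul_zero, add_zero, pow_one]
        exact h1.trans hk4
      · have h0 : (Finset.univ.filter (fun _ : Fin nd.k => j = i)) = ∅ := by
          rw [Finset.filter_eq_empty_iff]
          intro a _
          exact hij
        rw [h0, Finset.card_empty, zero_add]
        have h1 := hcnt i (by omega)
        have h2 : i + 1 - j = (i + 1 - (j + 1)) + 1 := by omega
        rw [h2, pow_succ, mul_comm (4 ^ _) 4]
        exact Nat.mul_le_mul hk4 h1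
    · rintro (a | ⟨a, e⟩)
      · simp only [Sum.elim_inl, nodeG]
        rw [hτ]
        exact hK.child j hj (by omega) nd.ρ (nd.f a) hρ (hf a)
      · simp only [Sum.elim_inr, nodeG]
        exact hK.cjn (hg e) _
    · intro n
      have h1 := rep_node hk0 (hrep n) nd.flag (fun a d => Complex.exp (-(nd.τ * (d : ℝ) ^ 2 / 2 : ℝ) +
        ((nd.ρ : ℂ) + Complex.I * nd.f a) * (d : ℂ)))
      intro M
      rw [← h1 M, val]

/-- skeleton representation of the top-level products -/
theorem top_rep {s : Sched} {Ker : ℕ → (ℕ → ℂ) → Prop} (hK : KerClass s Ker) {c : Code}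
    (hc : Adm s 1 c) {k : ℕ} (hk1 : 1 ≤ k) (hk4 : k ≤ 4) (flag : Fin k → Bool) (E : Fin k → ℕ → ℂ)
    (hE : ∀ a, Ker 0 (E a)) :
    ∃ (ι κ : Type) (_ : Fintype ι) (_ : DecidableEq ι) (_ : Nonempty ι) (_ : Fintype κ)
      (A B : κ → Finset ι) (g : κ → ℕ → ℂ) (lev : κ → ℕ),
      Fintype.card ι ≤ 4 ^ (s.h + 1) ∧ (∀ e, B e ⊆ A e) ∧ (∀ e, lev e ≤ s.h) ∧
      (∀ i, (Finset.univ.filter (fun e => lev e = i)).card ≤ 4 ^ (i + 1)) ∧
      (∀ e, Ker (lev e) (g e)) ∧
      ∀ n : ℕ, ∏ a : Fin k, cj (flag a) (∑ u ∈ Finset.range n, E a u • (val c u : R n)) =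
        skel A B g := by
  classical
  obtain ⟨ι, κ, _, _, _, _, A, B, g, lev, hcard, hBA, hlev, hcnt, hg, hrep⟩ :=
    code_rep hK c 1 le_rfl hc
  have : Nonempty (Fin k) := ⟨⟨0, hk1⟩⟩
  refine ⟨Fin k × ι, Fin k ⊕ Fin k × κ, inferInstance, inferInstance, inferInstance,
    inferInstance, rootA k A, rootB k B, nodeG k flag (fun a u => cjn (flag a) (E a u)) g,
    Sum.elim (fun _ => 0) (fun ae => lev ae.2), ?_, ?_, ?_, ?_, ?_, ?_⟩
  · rw [Fintype.card_prod, Fintype.card_fin, hcard]
    have := Adm.leaves_le hc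
    rw [Nat.add_sub_cancel] at this
    calc k * leaves c ≤ 4 * 4 ^ s.h := Nat.mul_le_mul hk4 this
      _ = _ := by ring
  · rintro (a | ⟨a, e⟩)
    · exact Finset.empty_subset _
    · exact Finset.map_subset_map.mpr (hBA e)
  · rintro (a | ⟨a, e⟩)
    · simp only [Sum.elim_inl]; omega
    · have := hlev e
      simp only [Sum.elim_inr]; omega
  · intro i
    have hfin : (Finset.univ.filter (fun e : Fin k ⊕ Fin k × κ =>
        Sum.elim (fun _ => 0) (fun ae => lev ae.2) e = i)) ⊆
        (Finset.univ.filter (fun _ : Fin k => 0 = i)).disjSum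
          (Finset.univ ×ˢ (Finset.univ.filter (fun e => lev e = i))) := by
      intro e he
      rw [Finset.mem_filter] at he
      rcases e with a | ⟨a, e⟩
      · rw [Finset.inl_mem_disjSum, Finset.mem_filter]
        exact ⟨Finset.mem_univ _, he.2⟩
      · rw [Finset.inr_mem_disjSum, Finset.mem_product, Finset.mem_filter]
        exact ⟨Finset.mem_univ _, Finset.mem_univ _, he.2⟩
    refine (Finset.card_le_card hfin).trans ?_
    rw [Finset.card_disjSum, Finset.card_product, Finset.card_univ, Fintype.card_fin]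
    by_cases hij : 0 = i
    · subst hij
      have h0 : (Finset.univ.filter (fun e => lev e = 0)) = ∅ := by
        rw [Finset.filter_eq_empty_iff]
        intro e _
        have := (hlev e).1
        omega
      rw [h0]
      have h1 : (Finset.univ.filter (fun _ : Fin k => 0 = 0)).card ≤ k := by
        refine (Finset.card_filter_le _ _).trans ?_
        simp
      rw [Finset.card_empty, mul_zero, add_zero, zero_add, pow_one]
      exact h1.trans hk4
    · have h0 : (Finset.univ.filter (fun _ : Fin k => 0 = i)) = ∅ := by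
        rw [Finset.filter_eq_empty_iff]
        intro a _
        exact hij
      rw [h0, Finset.card_empty, zero_add]
      have h1 := hcnt i (by omega)
      rw [Nat.add_sub_cancel] at h1
      rw [pow_succ, mul_comm (4 ^ _) 4]
      exact Nat.mul_le_mul hk4 h1
  · rintro (a | ⟨a, e⟩)
    · simp only [Sum.elim_inl, nodeG]
      exact hK.cjn (hE a) _
    · simp only [Sum.elim_inr, nodeG]
      exact hK.cjn (hg e) _
  · intro n
    exact skel_root (hrep n) flag E

end Crest.Agent.R300U
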