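import Crest.Agent.R300.U.Defs
/-!
Row 300, AccessStatement: skeleton sums (design helper862, proofs helper688).

`skel A B g` is the sum over all position maps `p : ι → Fin n` of the product of edge weights
`g e (sup_{A e} p - sup_{B e} p)` times the product of the letters.
-/
set_option autoImplicit false
set_option linter.unusedSectionVars false

namespace Crest.Agent.R300U

open scoped BigOperators

/-- location of a set of leaves: the maximal position -/
def loc {n : ℕ} {ι : Type} (A : Finset ι) (p : ι → Fin n) : ℕ := A.sup (fun i => (p i : ℕ))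

/-- skeleton sum -/
noncomputable def skel {n : ℕ} {ι κ : Type} [Fintype ι] [DecidableEq ι] [Fintype κ]
    (A B : κ → Finset ι) (g : κ → ℕ → ℂ) : R n :=
  ∑ p : ι → Fin n, (∏ e, g e (loc (A e) p - loc (B e) p)) • ∏ i, (xv (p i : ℕ) : R n)

namespace Skel

variable {n : ℕ} {ι κ : Type} [Fintype ι] [DecidableEq ι] [Fintype κ]

/-- rank of the value at `i` among the values of `p` -/
def rk (p : ι → Fin n) (i : ι) : ℕ := ((Finset.univ.image p).filter (fun v => v < p i)).card

lemma rk_lt (p : ι → Fin n) (i : ι) : rk p i < Fintype.card ι := by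
  have h1 : ((Finset.univ.image p).filter (fun v => v < p i)) ⊂ Finset.univ.image p := by
    refine Finset.filter_ssubset.2 ⟨p i, Finset.mem_image_of_mem _ (Finset.mem_univ _), ?_⟩
    simp
  have h2 := Finset.card_lt_card h1
  have h3 : (Finset.univ.image p).card ≤ Fintype.card ι := by
    simpa using (Finset.card_image_le (s := (Finset.univ : Finset ι)) (f := p))
  unfold rk
  omega

/-- rank as a map into `Fin (card ι)` -/
def rank (p : ι → Fin n) : ι → Fin (Fintype.card ι) := fun i => ⟨rk p i, rk_lt p i⟩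

lemma rk_comp {l : ℕ} (u : Fin l → Fin n) (hu : StrictMono u) (τ : ι → Fin l)
    (hτ : Function.Surjective τ) (i : ι) : rk (u ∘ τ) i = τ i := by
  unfold rk
  have h1 : (Finset.univ.image (u ∘ τ)).filter (fun v => v < (u ∘ τ) i)
      = (Finset.Iio (τ i)).image u := by
    ext v
    simp only [Finset.mem_filter, Finset.mem_image, Finset.mem_univ, true_and,
      Function.comp_apply, Finset.mem_Iio]
    constructor
    · rintro ⟨⟨i', rfl⟩, h⟩
      exact ⟨τ i', hu.lt_iff_lt.1 h, rfl⟩
    · rintro ⟨j, hj, rfl⟩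
      obtain ⟨i', rfl⟩ := hτ j
      exact ⟨⟨i', rfl⟩, hu hj⟩
  rw [h1, Finset.card_image_of_injective _ hu.injective, Fin.card_Iio]

lemma exists_factor (p : ι → Fin n) : ∃ (l : ℕ) (u : Fin l → Fin n) (τ : ι → Fin l),
    StrictMono u ∧ Function.Surjective τ ∧ p = u ∘ τ := by
  let S := Finset.univ.image p
  let e := S.orderIsoOfFin rfl
  have hmem : ∀ i, p i ∈ S := fun i => Finset.mem_image_of_mem _ (Finset.mem_univ _)
  refine ⟨S.card, fun j => (e j : Fin n), fun i => e.symm ⟨p i, hmem i⟩, ?_, ?_, ?_⟩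
  · intro a b hab
    exact e.strictMono hab
  · intro j
    obtain ⟨i, _, hi⟩ := Finset.mem_image.1 (e j).2
    refine ⟨i, ?_⟩
    apply e.injective
    rw [OrderIso.apply_symm_apply]
    exact Subtype.ext hi
  · funext i
    simp

/-- number of distinct values of `σ` -/
def len (σ : ι → Fin (Fintype.card ι)) : ℕ := (Finset.univ.image σ).card

lemma len_le (σ : ι → Fin (Fintype.card ι)) : len σ ≤ Fintype.card ι := by
  simpa [len] using (Finset.card_image_le (s := (Finset.univ : Finset ι)) (f := σ))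

/-- `σ` takes exactly the values `0, …, len σ - 1` -/
def Good (σ : ι → Fin (Fintype.card ι)) : Prop :=
  ∃ h : (∀ i, (σ i : ℕ) < len σ), Function.Surjective (fun i => (⟨σ i, h i⟩ : Fin (len σ)))

lemma rank_comp {l : ℕ} (u : Fin l → Fin n) (hu : StrictMono u) (τ : ι → Fin l)
    (hτ : Function.Surjective τ) (i : ι) : (rank (u ∘ τ) i : ℕ) = τ i := rk_comp u hu τ hτ i

lemma len_of_surj {l : ℕ} (σ : ι → Fin (Fintype.card ι)) (τ : ι → Fin l)
    (hτ : Function.Surjective τ) (h : ∀ i, (σ i : ℕ) = τ i) : len σ = l := by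
  unfold len
  have h1 : ((Finset.univ.image σ).image Fin.val) = (Finset.univ : Finset (Fin l)).image Fin.val := by
    ext v
    simp only [Finset.mem_image, Finset.mem_univ, true_and]
    constructor
    · rintro ⟨_, ⟨i, rfl⟩, rfl⟩
      exact ⟨τ i, (h i).symm⟩
    · rintro ⟨j, rfl⟩
      obtain ⟨i, rfl⟩ := hτ j
      exact ⟨_, ⟨i, rfl⟩, h i⟩
  have h2 := congrArg Finset.card h1
  rw [Finset.card_image_of_injective _ Fin.val_injective,
    Finset.card_image_of_injective _ Fin.val_injective] at h2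
  simpa using h2

lemma good_of_surj {l : ℕ} (σ : ι → Fin (Fintype.card ι)) (τ : ι → Fin l)
    (hτ : Function.Surjective τ) (h : ∀ i, (σ i : ℕ) = τ i) : Good σ := by
  have hl := len_of_surj σ τ hτ h
  subst hl
  refine ⟨fun i => by rw [h i]; exact (τ i).2, ?_⟩
  intro j
  obtain ⟨i, rfl⟩ := hτ j
  exact ⟨i, Fin.ext (h i)⟩

lemma good_rank (p : ι → Fin n) : Good (rank p) := by
  obtain ⟨l, u, τ, hu, hτ, rfl⟩ := exists_factor p
  exact good_of_surj _ τ hτ (fun i => rank_comp u hu τ hτ i)


/-- increments of a position tuple -/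
def Dl {l : ℕ} (u : Fin l → ℕ) (j : Fin l) : ℕ :=
  if h : (j : ℕ) = 0 then u j else u j - u ⟨j - 1, by omega⟩

lemma sum_Dl {l : ℕ} (u : Fin l → ℕ) (hu : Monotone u) (k : ℕ) (hk : k < l) :
    ∑ j ∈ Finset.univ.filter (fun j : Fin l => (j : ℕ) ≤ k), Dl u j = u ⟨k, hk⟩ := by
  induction k with
  | zero =>
    have : (Finset.univ.filter (fun j : Fin l => (j : ℕ) ≤ 0)) = {⟨0, hk⟩} := by
      ext j
      simp [Fin.ext_iff]
    rw [this, Finset.sum_singleton]
    simp [Dl]
  | succ k ih =>
    have hk' : k < l := by omega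
    have : (Finset.univ.filter (fun j : Fin l => (j : ℕ) ≤ k + 1))
        = insert ⟨k + 1, hk⟩ (Finset.univ.filter (fun j : Fin l => (j : ℕ) ≤ k)) := by
      ext j
      simp only [Finset.mem_filter, Finset.mem_univ, true_and, Finset.mem_insert, Fin.ext_iff]
      omega
    rw [this, Finset.sum_insert (by simp), ih hk']
    have h2 : u ⟨k, hk'⟩ ≤ u ⟨k + 1, hk⟩ := hu (by simp [Fin.le_def])
    unfold Dl
    simp only [Nat.add_eq_zero_iff, one_ne_zero, and_false, dite_false, Nat.add_sub_cancel]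
    omega

/-- gaps `j` below some `τ i`, `i ∈ A` -/
def below {l : ℕ} (τ : ι → Fin l) (A : Finset ι) : Finset (Fin l) :=
  Finset.univ.filter (fun j => ∃ i ∈ A, j ≤ τ i)

lemma sum_below {l : ℕ} (u : Fin l → ℕ) (hu : Monotone u) (τ : ι → Fin l) (A : Finset ι) :
    A.sup (fun i => u (τ i)) = ∑ j ∈ below τ A, Dl u j := by
  rcases A.eq_empty_or_nonempty with rfl | hA
  · simp [below]
  · obtain ⟨i0, hi0, hmax⟩ := A.exists_max_image τ hA
    have h1 : A.sup (fun i => u (τ i)) = u (τ i0) := by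
      apply le_antisymm
      · exact Finset.sup_le (fun i hi => hu (hmax i hi))
      · exact Finset.le_sup (f := fun i => u (τ i)) hi0
    have h2 : below τ A = Finset.univ.filter (fun j : Fin l => (j : ℕ) ≤ (τ i0 : ℕ)) := by
      ext j
      simp only [below, Finset.mem_filter, Finset.mem_univ, true_and]
      constructor
      · rintro ⟨i, hi, hj⟩
        exact Fin.le_def.1 (hj.trans (hmax i hi))
      · intro h
        exact ⟨i0, hi0, Fin.le_def.2 h⟩
    rw [h1, h2, sum_Dl u hu _ (τ i0).2]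

/-- gaps open for the edge `(A, B)` -/
def opn {l : ℕ} (τ : ι → Fin l) (A B : Finset ι) : Finset (Fin l) := below τ A \ below τ B

lemma below_mono {l : ℕ} (τ : ι → Fin l) {A B : Finset ι} (h : B ⊆ A) : below τ B ⊆ below τ A := by
  intro j hj
  simp only [below, Finset.mem_filter, Finset.mem_univ, true_and] at hj ⊢
  obtain ⟨i, hi, hj⟩ := hj
  exact ⟨i, h hi, hj⟩

lemma sub_eq_opn {l : ℕ} (u : Fin l → ℕ) (hu : Monotone u) (τ : ι → Fin l) {A B : Finset ι}
    (h : B ⊆ A) : A.sup (fun i => u (τ i)) - B.sup (fun i => u (τ i)) =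
      ∑ j ∈ opn τ A B, Dl u j := by
  rw [sum_below u hu, sum_below u hu, opn]
  have := Finset.sum_sdiff (f := Dl u) (below_mono τ h)
  omega

/-- the product of the letters only depends on the set of positions -/
lemma prod_xv {l : ℕ} (u : Fin l → ℕ) (τ : ι → Fin l) (hτ : Function.Surjective τ) :
    ∏ i, (xv (u (τ i)) : R n) = ∏ j, (xv (u j) : R n) := by
  funext x
  rw [Finset.prod_apply, Finset.prod_apply]
  have key : ∀ v : ℕ, (xv v : R n) x = if (∃ h : v < n, x ⟨v, h⟩ = true) then 1 else 0 := by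
    intro v
    unfold xv
    by_cases h : v < n
    · by_cases h2 : x ⟨v, h⟩ = true
      · simp [h, h2]
      · simp [h, h2]
    · simp [h]
  simp only [key]
  rw [Finset.prod_ite_zero, Finset.prod_ite_zero]
  simp only [Finset.mem_univ, true_implies, Finset.prod_const_one]
  congr 1
  apply propext
  constructor
  · intro h j
    obtain ⟨i, rfl⟩ := hτ j
    exact h i
  · intro h i
    exact h (τ i)

/-- the parameter of gap `j` -/
noncomputable def zt {l : ℕ} (A B : κ → Finset ι) (b : κ → ℂ) (τ : ι → Fin l) (j : Fin l) : ℂ :=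
  Complex.exp (-∑ e ∈ Finset.univ.filter (fun e => j ∈ opn τ (A e) (B e)), b e)

lemma prod_exp {l : ℕ} (A B : κ → Finset ι) (hAB : ∀ e, B e ⊆ A e) (b : κ → ℂ) (τ : ι → Fin l)
    (u : Fin l → ℕ) (hu : Monotone u) :
    ∏ e, Complex.exp (-(b e * (((A e).sup (fun i => u (τ i)) - (B e).sup (fun i => u (τ i)) : ℕ) : ℂ)))
      = ∏ j, zt A B b τ j ^ Dl u j := by
  rw [← Complex.exp_sum]
  have h1 : ∀ j, zt A B b τ j ^ Dl u j = Complex.exp (∑ e, if j ∈ opn τ (A e) (B e) then
      -(b e * (Dl u j : ℂ)) else 0) := by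
    intro j
    unfold zt
    rw [← Complex.exp_nat_mul]
    congr 1
    rw [← Finset.sum_filter, mul_neg, Finset.mul_sum, Finset.sum_neg_distrib]
    congr 1
    exact Finset.sum_congr rfl (fun e _ => mul_comm _ _)
  rw [Finset.prod_congr rfl (fun j _ => h1 j), ← Complex.exp_sum, Finset.sum_comm]
  congr 1
  refine Finset.sum_congr rfl (fun e _ => ?_)
  rw [sub_eq_opn u hu τ (hAB e), ← Finset.sum_filter]
  push_cast
  rw [Finset.mul_sum, Finset.sum_neg_distrib]
  congr 1
  have : Finset.univ.filter (fun j => j ∈ opn τ (A e) (B e)) = opn τ (A e) (B e) := by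
    ext j; simp
  rw [this]


/-- the tuple map of a good rank function -/
def tau {σ : ι → Fin (Fintype.card ι)} (h : ∀ i, (σ i : ℕ) < len σ) (i : ι) : Fin (len σ) :=
  ⟨σ i, h i⟩

lemma Dl_pos {l : ℕ} {u : Fin l → ℕ} (hu : StrictMono u) {j : Fin l} (hj : (j : ℕ) ≠ 0) :
    Dl u j = (u j - u ⟨j - 1, by omega⟩ - 1) + 1 := by
  have h2 : u ⟨j - 1, by omega⟩ < u j := hu (by rw [Fin.lt_def]; simp; omega)
  unfold Dl
  simp only [hj, dite_false]
  omega

lemma term_eq {l : ℕ} (ζ : Fin l → ℂ) {u : Fin l → ℕ} (hu : StrictMono u) :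
    ∏ j, ζ j ^ Dl u j = (∏ j : Fin l, if (j : ℕ) = 0 then 1 else ζ j) *
      ∏ j : Fin l, ζ j ^ (if h : (j : ℕ) = 0 then u j else u j - u ⟨j - 1, by omega⟩ - 1) := by
  rw [← Finset.prod_mul_distrib]
  refine Finset.prod_congr rfl (fun j _ => ?_)
  by_cases hj : (j : ℕ) = 0
  · simp [Dl, hj]
  · rw [Dl_pos hu hj, pow_succ]
    simp only [hj, if_false, dite_false]
    ring

lemma fiber_sum (A B : κ → Finset ι) (hAB : ∀ e, B e ⊆ A e) (b : κ → ℂ)
    (σ : ι → Fin (Fintype.card ι)) (h : ∀ i, (σ i : ℕ) < len σ)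
    (hτ : Function.Surjective (tau h)) :
    ∑ p ∈ Finset.univ.filter (fun p : ι → Fin n => rank p = σ),
      (∏ e, Complex.exp (-(b e * ((loc (A e) p - loc (B e) p : ℕ) : ℂ)))) • ∏ i, (xv (p i : ℕ) : R n)
      = (∏ j : Fin (len σ), if (j : ℕ) = 0 then 1 else zt A B b (tau h) j) •
          (Pure (zt A B b (tau h)) : R n) := by
  unfold Pure
  rw [Finset.smul_sum]
  have hlt : ∀ u ∈ (Fintype.piFinset (fun _ : Fin (len σ) => Finset.range n)).filter
      (fun u => StrictMono u), ∀ j, u j < n := by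
    intro u hu j
    have := (Finset.mem_filter.1 hu).1
    rw [Fintype.mem_piFinset] at this
    simpa using this j
  symm
  refine Finset.sum_bij (fun u hu i => (⟨u (tau h i), hlt u hu (tau h i)⟩ : Fin n)) ?_ ?_ ?_ ?_
  · intro u hu
    rw [Finset.mem_filter]
    refine ⟨Finset.mem_univ _, ?_⟩
    funext i
    apply Fin.ext
    have hsm := (Finset.mem_filter.1 hu).2
    have := rank_comp (n := n) (fun j => (⟨u j, hlt u hu j⟩ : Fin n))
      (fun a b hab => Fin.lt_def.2 (hsm hab)) (tau h) hτ i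
    exact this
  · intro u hu u' hu' heq
    funext j
    obtain ⟨i, rfl⟩ := hτ j
    have := congrFun heq i
    simpa using congrArg Fin.val this
  · intro p hp
    have hp2 := (Finset.mem_filter.1 hp).2
    obtain ⟨l, U, τ', hU, hτ', rfl⟩ := exists_factor p
    have hv : ∀ i, (σ i : ℕ) = τ' i := by
      intro i
      rw [← hp2]
      exact rank_comp U hU τ' hτ' i
    have hl := len_of_surj σ τ' hτ' hv
    subst hl
    refine ⟨fun j => (U j : ℕ), ?_, ?_⟩
    · rw [Finset.mem_filter, Fintype.mem_piFinset]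
      refine ⟨fun j => by simp, fun a b hab => hU hab⟩
    · funext i
      have : tau h i = τ' i := Fin.ext (hv i)
      simp [this]
  · intro u hu
    have hsm := (Finset.mem_filter.1 hu).2
    have h1 := prod_exp A B hAB b (tau h) u hsm.monotone
    have h2 : ∀ e, (loc (A e) (fun i => (⟨u (tau h i), hlt u hu (tau h i)⟩ : Fin n)) -
        loc (B e) (fun i => (⟨u (tau h i), hlt u hu (tau h i)⟩ : Fin n)) : ℕ) =
        ((A e).sup (fun i => u (tau h i)) - (B e).sup (fun i => u (tau h i)) : ℕ) := by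
      intro e
      rfl
    simp only [h2]
    rw [h1, term_eq _ hsm, mul_smul]
    congr 1
    congr 1
    exact (prod_xv u (tau h) hτ).symm

lemma norm_zt {l : ℕ} (A B : κ → Finset ι) (b : κ → ℂ) (hb : ∀ e, 0 ≤ (b e).re)
    (τ : ι → Fin l) (j : Fin l) : ‖zt A B b τ j‖ ≤ 1 := by
  unfold zt
  rw [Complex.norm_exp]
  apply Real.exp_le_one_iff.2
  rw [Complex.neg_re, Complex.re_sum]
  have := Finset.sum_nonneg (s := Finset.univ.filter (fun e => j ∈ opn τ (A e) (B e)))
    (f := fun e => (b e).re) (fun e _ => hb e)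
  linarith

end Skel

open Skel in
/-- (S) skeleton sums with exponential edge weights are sums over weak orderings of pure
statistics. -/
theorem skel_exp {n : ℕ} {ι κ : Type} [Fintype ι] [DecidableEq ι] [Fintype κ]
    (A B : κ → Finset ι) (hAB : ∀ e, B e ⊆ A e) (b : κ → ℂ) (hb : ∀ e, 0 ≤ (b e).re) (Z : Set ℂ)
    (hZ : ∀ T : Finset κ, Complex.exp (-∑ e ∈ T, b e) ∈ Z) :
    ∃ (J : Type) (_ : Fintype J) (l : J → ℕ) (c : J → ℂ) (ζ : ∀ s, Fin (l s) → ℂ),
      Fintype.card J ≤ Fintype.card ι ^ Fintype.card ι ∧ (∀ s, l s ≤ Fintype.card ι) ∧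
      (∀ s, ‖c s‖ ≤ 1) ∧ (∀ s i, ζ s i ∈ Z) ∧
      (skel A B (fun e d => Complex.exp (-(b e * d))) : R n) = ∑ s, c s • Pure (ζ s) := by
  classical
  refine ⟨ι → Fin (Fintype.card ι), inferInstance, len,
    fun σ => if h : Good σ then
      ∏ j : Fin (len σ), (if (j : ℕ) = 0 then 1 else zt A B b (tau h.choose) j) else 0,
    fun σ => if h : Good σ then zt A B b (tau h.choose) else fun _ => Complex.exp (-∑ e ∈ ∅, b e),
    ?_, len_le, ?_, ?_, ?_⟩
  · rw [Fintype.card_fun, Fintype.card_fin]
  · intro σ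
    by_cases h : Good σ
    · simp only [h, dite_true]
      rw [norm_prod]
      apply Finset.prod_le_one
      · intro j _; exact norm_nonneg _
      · intro j _
        split_ifs
        · simp
        · exact norm_zt A B b hb _ j
    · simp [h]
  · intro σ i
    by_cases h : Good σ
    · simp only [h, dite_true]
      exact hZ _
    · simp only [h, dite_false]
      exact hZ _
  · unfold skel
    rw [← Finset.sum_fiberwise (s := Finset.univ) (g := fun p : ι → Fin n => rank p)]
    refine Finset.sum_congr rfl (fun σ _ => ?_)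
    by_cases h : Good σ
    · simp only [h, dite_true]
      exact fiber_sum A B hAB b σ h.choose h.choose_spec
    · have : Finset.univ.filter (fun p : ι → Fin n => rank p = σ) = ∅ := by
        apply Finset.filter_eq_empty_iff.2
        rintro p - rfl
        exact h (good_rank p)
      rw [this]
      simp [h]

end Crest.Agent.R300U
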