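import Mathlib
import Crest.Agent.R300.Contour
import Crest.Agent.R300.UDisc

/-!
Row 300, upper bound: the one-dimensional Gaussian kernels as superpositions of damped
exponentials (blueprint U part 2, item B (1), (2), RULE), helper782.
-/

set_option autoImplicit false

namespace Crest.Agent.R300U

open Complex MeasureTheory
open Crest.Agent.R300 (Contour.ctr Contour.dctr)

/-- the contour `S(y) = b₀ + |y|/4 + i y` -/
noncomputable def kS (b0 y : ℝ) : ℂ := Crest.Agent.R300.Contour.ctr b0 (1 / 4) y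

/-- the weight on the contour -/
noncomputable def kW (τ b0 y : ℝ) : ℂ :=
  ((1 / Real.sqrt (2 * Real.pi * τ) : ℝ) : ℂ) *
    (cexp (kS b0 y ^ 2 / (2 * τ)) * Crest.Agent.R300.Contour.dctr (1 / 4) y)

theorem kS_re (b0 y : ℝ) : (kS b0 y).re = b0 + |y| / 4 := by
  unfold kS Crest.Agent.R300.Contour.ctr
  have h : ((b0 : ℂ) + ((1 / 4 : ℝ) : ℂ) * ((|y| : ℝ) : ℂ) + (y : ℂ) * I).re = b0 + 1 / 4 * |y| := by
    rw [Complex.add_re, Complex.add_re, Complex.re_ofReal_mul, Complex.re_ofReal_mul]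
    simp
  rw [h]; ring

theorem kS_im (b0 y : ℝ) : (kS b0 y).im = y := by
  unfold kS Crest.Agent.R300.Contour.ctr
  rw [Complex.add_im, Complex.add_im, Complex.im_ofReal_mul, Complex.im_ofReal_mul]
  simp

theorem kS_continuous (b0 : ℝ) : Continuous (kS b0) := by
  unfold kS Crest.Agent.R300.Contour.ctr
  fun_prop

theorem kd_measurable_sign : Measurable Real.sign := by
  unfold Real.sign
  refine Measurable.ite measurableSet_Iio measurable_const ?_
  exact Measurable.ite measurableSet_Ioi measurable_const measurable_const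

theorem kW_measurable (τ b0 : ℝ) : Measurable (kW τ b0) := by
  unfold kW Crest.Agent.R300.Contour.dctr
  refine Measurable.const_mul ?_ _
  refine Measurable.mul ?_ ?_
  · have : Continuous fun y : ℝ => cexp (kS b0 y ^ 2 / (2 * τ)) := by
      have := kS_continuous b0
      fun_prop
    exact this.measurable
  · have h := kd_measurable_sign
    have h2 : Measurable fun y : ℝ => ((Real.sign y : ℝ) : ℂ) := Complex.measurable_ofReal.comp h
    exact measurable_const.sub ((h2.const_mul _).const_mul _)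

theorem kd_norm_dctr_le (y : ℝ) : ‖Crest.Agent.R300.Contour.dctr (1 / 4) y‖ ≤ Real.sqrt (17 / 16) := by
  unfold Crest.Agent.R300.Contour.dctr
  rw [Complex.norm_def]
  apply Real.sqrt_le_sqrt
  rw [Complex.normSq_apply]
  have h : (Real.sign y) ^ 2 ≤ 1 := by
    rcases lt_trichotomy y 0 with h | h | h
    · rw [Real.sign_of_neg h]; norm_num
    · rw [h]; simp
    · rw [Real.sign_of_pos h]; norm_num
  have e1 : (1 - I * (((1 / 4 : ℝ) : ℂ) * ((Real.sign y : ℝ) : ℂ))) = ((1 : ℝ) : ℂ) - ((1 / 4 * Real.sign y : ℝ) : ℂ) * I := by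
    push_cast; ring
  rw [e1]
  have e2 : (((1 : ℝ) : ℂ) - ((1 / 4 * Real.sign y : ℝ) : ℂ) * I).re = 1 := by
    rw [Complex.sub_re, Complex.re_ofReal_mul]; simp
  have e3 : (((1 : ℝ) : ℂ) - ((1 / 4 * Real.sign y : ℝ) : ℂ) * I).im = -(1 / 4 * Real.sign y) := by
    rw [Complex.sub_im, Complex.im_ofReal_mul]; simp
  rw [e2, e3]
  nlinarith

/-- master identity: `∫ w(y) exp(-S(y) z) dy = exp(-τ z²/2)` -/
theorem kW_integral {τ : ℝ} (hτ : 0 < τ) (b0 : ℝ) (z : ℂ) :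
    Integrable (fun y : ℝ => kW τ b0 y * cexp (-(kS b0 y * z))) ∧
    ∫ y : ℝ, kW τ b0 y * cexp (-(kS b0 y * z)) = cexp (-(τ * z ^ 2 / 2)) := by
  have hpi := Real.pi_pos
  set A : ℝ := 1 / (2 * Real.pi * τ) with hA
  have hA0 : 0 < A := by positivity
  obtain ⟨h1, h2⟩ := Crest.Agent.R300.Contour.kink hA0 0 (z / (2 * Real.pi)) b0
    (κ := 1 / 4) (by norm_num) (by norm_num)
  have hτC : (τ : ℂ) ≠ 0 := by exact_mod_cast hτ.ne'
  have hpiC : (Real.pi : ℂ) ≠ 0 := by exact_mod_cast hpi.ne'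
  have key : ∀ y : ℝ, kW τ b0 y * cexp (-(kS b0 y * z)) =
      ((1 / Real.sqrt (2 * Real.pi * τ) : ℝ) : ℂ) *
        (Crest.Agent.R300.Contour.gf A 0 (z / (2 * Real.pi)) (Crest.Agent.R300.Contour.ctr b0 (1 / 4) y) *
          Crest.Agent.R300.Contour.dctr (1 / 4) y) := by
    intro y
    unfold kW Crest.Agent.R300.Contour.gf kS
    have e : Real.pi * ((A : ℝ) : ℂ) * (Crest.Agent.R300.Contour.ctr b0 (1 / 4) y + 0) ^ 2 -
        2 * Real.pi * Crest.Agent.R300.Contour.ctr b0 (1 / 4) y * (z / (2 * Real.pi)) =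
        Crest.Agent.R300.Contour.ctr b0 (1 / 4) y ^ 2 / (2 * τ) +
          -(Crest.Agent.R300.Contour.ctr b0 (1 / 4) y * z) := by
      rw [hA]; push_cast; field_simp; ring
    rw [e, Complex.exp_add]
    ring
  have key2 : (fun y : ℝ => kW τ b0 y * cexp (-(kS b0 y * z))) = fun y : ℝ =>
      ((1 / Real.sqrt (2 * Real.pi * τ) : ℝ) : ℂ) *
        (Crest.Agent.R300.Contour.gf A 0 (z / (2 * Real.pi)) (Crest.Agent.R300.Contour.ctr b0 (1 / 4) y) *
          Crest.Agent.R300.Contour.dctr (1 / 4) y) := funext key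
  rw [key2]
  refine ⟨h1.const_mul _, ?_⟩
  rw [integral_const_mul, h2]
  have e1 : (1 / Real.sqrt A) = Real.sqrt (2 * Real.pi * τ) := by
    rw [hA, Real.sqrt_div zero_le_one, Real.sqrt_one, one_div_one_div]
  rw [e1, ← mul_assoc, ← Complex.ofReal_mul]
  have hne : Real.sqrt (2 * Real.pi * τ) ≠ 0 := (Real.sqrt_pos.mpr (by positivity)).ne'
  have e2 : 1 / Real.sqrt (2 * Real.pi * τ) * Real.sqrt (2 * Real.pi * τ) = 1 := by
    field_simp
  rw [e2, Complex.ofReal_one, one_mul]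
  congr 1
  rw [hA]
  push_cast
  field_simp
  ring

theorem norm_exp_kS (τ b0 y : ℝ) :
    ‖cexp (kS b0 y ^ 2 / (2 * τ))‖ = Real.exp (((b0 + |y| / 4) ^ 2 - y ^ 2) / (2 * τ)) := by
  rw [Complex.norm_exp]
  congr 1
  have h : (kS b0 y ^ 2 / (2 * τ)) = (kS b0 y ^ 2) / ((2 * τ : ℝ) : ℂ) := by push_cast; rfl
  rw [h, Complex.div_ofReal_re, sq, Complex.mul_re, kS_re, kS_im]
  ring

/-- pointwise bound of the weight -/
theorem norm_kW_le {τ : ℝ} (hτ : 0 < τ) (b0 y : ℝ) :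
    ‖kW τ b0 y‖ ≤ (Real.sqrt (17 / 16) / Real.sqrt (2 * Real.pi * τ) * Real.exp (b0 ^ 2 / τ)) *
      Real.exp (-(7 / (16 * τ)) * y ^ 2) := by
  have hpi := Real.pi_pos
  have hs : 0 < Real.sqrt (2 * Real.pi * τ) := Real.sqrt_pos.mpr (by positivity)
  unfold kW
  rw [norm_mul, norm_mul, norm_exp_kS, Complex.norm_real, Real.norm_eq_abs, abs_of_pos (by positivity)]
  have h1 : Real.exp (((b0 + |y| / 4) ^ 2 - y ^ 2) / (2 * τ)) ≤
      Real.exp (b0 ^ 2 / τ) * Real.exp (-(7 / (16 * τ)) * y ^ 2) := by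
    rw [← Real.exp_add]
    apply Real.exp_le_exp.mpr
    have h2 : b0 ^ 2 / τ + -(7 / (16 * τ)) * y ^ 2 = (2 * b0 ^ 2 - 7 / 8 * y ^ 2) / (2 * τ) := by
      field_simp; ring
    rw [h2]
    apply div_le_div_of_nonneg_right _ (by positivity)
    have h3 : y ^ 2 = |y| ^ 2 := (sq_abs y).symm
    rw [h3]
    nlinarith [sq_nonneg (b0 - |y| / 4)]
  have h2 := kd_norm_dctr_le y
  calc 1 / Real.sqrt (2 * Real.pi * τ) * (Real.exp (((b0 + |y| / 4) ^ 2 - y ^ 2) / (2 * τ)) *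
        ‖Crest.Agent.R300.Contour.dctr (1 / 4) y‖)
      ≤ 1 / Real.sqrt (2 * Real.pi * τ) * ((Real.exp (b0 ^ 2 / τ) * Real.exp (-(7 / (16 * τ)) * y ^ 2)) *
        Real.sqrt (17 / 16)) := by
        apply mul_le_mul_of_nonneg_left _ (by positivity)
        exact mul_le_mul h1 h2 (norm_nonneg _) (by positivity)
    _ = _ := by ring

theorem kW_integrable {τ : ℝ} (hτ : 0 < τ) (b0 : ℝ) : Integrable (kW τ b0) := by
  have h := (kW_integral hτ b0 0).1
  simpa using h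

/-- total mass of the weight -/
theorem integral_norm_kW_le {τ : ℝ} (hτ : 0 < τ) (b0 : ℝ) :
    ∫ y : ℝ, ‖kW τ b0 y‖ ≤ 6 / 5 * Real.exp (b0 ^ 2 / τ) := by
  have hpi := Real.pi_pos
  have hc : 0 < 7 / (16 * τ) := by positivity
  have hint := (integrable_exp_neg_mul_sq hc).const_mul
    (Real.sqrt (17 / 16) / Real.sqrt (2 * Real.pi * τ) * Real.exp (b0 ^ 2 / τ))
  have h1 : ∫ y : ℝ, ‖kW τ b0 y‖ ≤ ∫ y : ℝ,
      (Real.sqrt (17 / 16) / Real.sqrt (2 * Real.pi * τ) * Real.exp (b0 ^ 2 / τ)) *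
        Real.exp (-(7 / (16 * τ)) * y ^ 2) :=
    integral_mono_of_nonneg (Filter.Eventually.of_forall fun y => norm_nonneg _) hint
      (Filter.Eventually.of_forall fun y => norm_kW_le hτ b0 y)
  refine h1.trans ?_
  rw [integral_const_mul, integral_gaussian]
  have e1 : Real.sqrt (17 / 16) / Real.sqrt (2 * Real.pi * τ) * Real.exp (b0 ^ 2 / τ) *
      Real.sqrt (Real.pi / (7 / (16 * τ))) =
      (Real.sqrt (17 / 16) / Real.sqrt (2 * Real.pi * τ) * Real.sqrt (Real.pi / (7 / (16 * τ)))) *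
        Real.exp (b0 ^ 2 / τ) := by ring
  rw [e1]
  apply mul_le_mul_of_nonneg_right _ (Real.exp_pos _).le
  rw [← Real.sqrt_div (by norm_num), ← Real.sqrt_mul (by positivity)]
  apply Real.sqrt_le_iff.mpr
  refine ⟨by norm_num, ?_⟩
  have e2 : 17 / 16 / (2 * Real.pi * τ) * (Real.pi / (7 / (16 * τ))) = 17 / 14 := by
    field_simp; norm_num
  rw [e2]; norm_num

/-- pointwise bound of the weight with a growing factor -/
theorem norm_kW_mul_le {τ : ℝ} (hτ : 0 < τ) (b0 t y : ℝ) :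
    ‖kW τ b0 y‖ * Real.exp ((b0 + |y| / 4) * t) ≤
      (Real.sqrt (17 / 16) / Real.sqrt (2 * Real.pi * τ) *
        Real.exp (b0 ^ 2 / τ + b0 * t + t ^ 2 * τ / 12)) *
      Real.exp (-(1 / (4 * τ)) * y ^ 2) := by
  have h := norm_kW_le hτ b0 y
  refine (mul_le_mul_of_nonneg_right h (Real.exp_pos _).le).trans ?_
  have h0 : ∀ C a b c d e : ℝ, 0 ≤ C → a + b + c ≤ d + e →
      C * Real.exp a * Real.exp b * Real.exp c ≤ C * Real.exp d * Real.exp e := by
    intro C a b c d e hC hh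
    have h1 : Real.exp (a + b + c) ≤ Real.exp (d + e) := Real.exp_le_exp.mpr hh
    rw [Real.exp_add, Real.exp_add, Real.exp_add] at h1
    have := mul_le_mul_of_nonneg_left h1 hC
    linarith
  apply h0 _ _ _ _ _ _ (by positivity)
  have h2 : |y| / 4 * t ≤ 3 / (16 * τ) * y ^ 2 + t ^ 2 * τ / 12 := by
    have h3 : y ^ 2 = |y| ^ 2 := (sq_abs y).symm
    rw [h3]
    have h4 : 0 ≤ (3 / 4 * |y| - t * τ / 2) ^ 2 / (3 * τ) := by positivity
    have h5 : (3 / 4 * |y| - t * τ / 2) ^ 2 / (3 * τ) =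
        3 / (16 * τ) * |y| ^ 2 + t ^ 2 * τ / 12 - |y| / 4 * t := by
      field_simp; ring
    linarith
  have h6 : -(7 / (16 * τ)) * y ^ 2 = -(1 / (4 * τ)) * y ^ 2 - 3 / (16 * τ) * y ^ 2 := by
    field_simp; ring
  rw [h6]
  linarith

/-- the weight of a root edge with centre `t` and frequency `ν` -/
noncomputable def kR (τ b0 t ν y : ℝ) : ℂ := kW τ b0 y * cexp ((kS b0 y - I * ν) * t)

theorem norm_kR (τ b0 t ν y : ℝ) :
    ‖kR τ b0 t ν y‖ = ‖kW τ b0 y‖ * Real.exp ((b0 + |y| / 4) * t) := by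
  unfold kR
  rw [norm_mul, Complex.norm_exp]
  congr 2
  rw [Complex.re_mul_ofReal, Complex.sub_re, kS_re]
  simp

theorem kR_measurable (τ b0 t ν : ℝ) : Measurable (kR τ b0 t ν) := by
  unfold kR
  refine (kW_measurable τ b0).mul ?_
  have : Continuous fun y : ℝ => cexp ((kS b0 y - I * ν) * t) := by
    have := kS_continuous b0
    fun_prop
  exact this.measurable

theorem kR_integrable {τ : ℝ} (hτ : 0 < τ) (b0 t ν : ℝ) :
    Integrable (kR τ b0 t ν) := by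
  have hc : 0 < 1 / (4 * τ) := by positivity
  refine Integrable.mono' ((integrable_exp_neg_mul_sq hc).const_mul
    (Real.sqrt (17 / 16) / Real.sqrt (2 * Real.pi * τ) *
        Real.exp (b0 ^ 2 / τ + b0 * t + t ^ 2 * τ / 12)))
    (kR_measurable τ b0 t ν).aestronglyMeasurable ?_
  refine Filter.Eventually.of_forall fun y => ?_
  rw [norm_kR]
  exact norm_kW_mul_le hτ b0 t y

/-- total mass of the root weight -/
theorem integral_norm_kR_le {τ : ℝ} (hτ : 0 < τ) (b0 t ν : ℝ) :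
    ∫ y : ℝ, ‖kR τ b0 t ν y‖ ≤ 3 / 2 * Real.exp (b0 ^ 2 / τ + b0 * t + t ^ 2 * τ / 12) := by
  have hpi := Real.pi_pos
  have hc : 0 < 1 / (4 * τ) := by positivity
  have hint := (integrable_exp_neg_mul_sq hc).const_mul
    (Real.sqrt (17 / 16) / Real.sqrt (2 * Real.pi * τ) *
        Real.exp (b0 ^ 2 / τ + b0 * t + t ^ 2 * τ / 12))
  have h1 : ∫ y : ℝ, ‖kR τ b0 t ν y‖ ≤ ∫ y : ℝ,
      (Real.sqrt (17 / 16) / Real.sqrt (2 * Real.pi * τ) *
        Real.exp (b0 ^ 2 / τ + b0 * t + t ^ 2 * τ / 12)) *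
        Real.exp (-(1 / (4 * τ)) * y ^ 2) :=
    integral_mono_of_nonneg (Filter.Eventually.of_forall fun y => norm_nonneg _) hint
      (Filter.Eventually.of_forall fun y => by
        show ‖kR τ b0 t ν y‖ ≤ _
        rw [norm_kR]; exact norm_kW_mul_le hτ b0 t y)
  refine h1.trans ?_
  rw [integral_const_mul, integral_gaussian]
  have e1 : Real.sqrt (17 / 16) / Real.sqrt (2 * Real.pi * τ) *
        Real.exp (b0 ^ 2 / τ + b0 * t + t ^ 2 * τ / 12) *
      Real.sqrt (Real.pi / (1 / (4 * τ))) =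
      (Real.sqrt (17 / 16) / Real.sqrt (2 * Real.pi * τ) * Real.sqrt (Real.pi / (1 / (4 * τ)))) *
        Real.exp (b0 ^ 2 / τ + b0 * t + t ^ 2 * τ / 12) := by ring
  rw [e1]
  apply mul_le_mul_of_nonneg_right _ (Real.exp_pos _).le
  rw [← Real.sqrt_div (by norm_num), ← Real.sqrt_mul (by positivity)]
  apply Real.sqrt_le_iff.mpr
  refine ⟨by norm_num, ?_⟩
  have e2 : 17 / 16 / (2 * Real.pi * τ) * (Real.pi / (1 / (4 * τ))) = 17 / 8 := by
    field_simp; norm_num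
  rw [e2]; norm_num

/-- exponent of a child edge: `b(y) = S(y) - (ρ + i f)` -/
noncomputable def bE (b0 ρ f y : ℝ) : ℂ := kS b0 y - ((ρ : ℂ) + I * f)

theorem bE_re (b0 ρ f y : ℝ) : (bE b0 ρ f y).re = b0 - ρ + |y| / 4 := by
  unfold bE
  rw [Complex.sub_re, kS_re]
  simp
  ring

theorem bE_im (b0 ρ f y : ℝ) : -(bE b0 ρ f y).im = f - y := by
  unfold bE
  rw [Complex.sub_im, kS_im]
  simp

theorem bE_continuous (b0 ρ f : ℝ) : Continuous (bE b0 ρ f) := by
  unfold bE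
  have := kS_continuous b0
  fun_prop

/-- **child edge**: `exp(-τ d²/2 + (ρ + i f) d) = ∫ w(y) exp(-b(y) d) dy` -/
theorem kernel_child {τ : ℝ} (hτ : 0 < τ) (b0 ρ f d : ℝ) :
    Integrable (fun y : ℝ => kW τ b0 y * cexp (-(bE b0 ρ f y * d))) ∧
    ∫ y : ℝ, kW τ b0 y * cexp (-(bE b0 ρ f y * d)) =
      cexp (-(τ * d ^ 2 / 2 : ℝ) + ((ρ : ℂ) + I * f) * (d : ℂ)) := by
  obtain ⟨h1, h2⟩ := kW_integral hτ b0 (d : ℂ)
  have key : (fun y : ℝ => kW τ b0 y * cexp (-(bE b0 ρ f y * d))) =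
      fun y : ℝ => cexp (((ρ : ℂ) + I * f) * d) * (kW τ b0 y * cexp (-(kS b0 y * d))) := by
    funext y
    have : -(bE b0 ρ f y * d) = ((ρ : ℂ) + I * f) * d + -(kS b0 y * d) := by
      unfold bE; ring
    rw [this, Complex.exp_add]; ring
  rw [key]
  refine ⟨h1.const_mul _, ?_⟩
  rw [integral_const_mul, h2, ← Complex.exp_add]
  congr 1
  push_cast; ring

/-- **root edge**: `exp(-τ(u-t)²/2 + iν(u-t)) = ∫ w(y) exp(-b(y) u) dy`, `b = S - iν`. -/
theorem kernel_root {τ : ℝ} (hτ : 0 < τ) (b0 ν t u : ℝ) :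
    Integrable (fun y : ℝ => kR τ b0 t ν y * cexp (-(bE b0 0 ν y * u))) ∧
    ∫ y : ℝ, kR τ b0 t ν y * cexp (-(bE b0 0 ν y * u)) =
      cexp (-(τ * (u - t) ^ 2 / 2 : ℝ) + I * ν * ((u : ℂ) - t)) := by
  obtain ⟨h1, h2⟩ := kernel_child hτ b0 0 ν (u - t)
  have key : (fun y : ℝ => kR τ b0 t ν y * cexp (-(bE b0 0 ν y * u))) =
      fun y : ℝ => kW τ b0 y * cexp (-(bE b0 0 ν y * ((u - t : ℝ) : ℂ))) := by
    funext y
    unfold kR
    rw [mul_assoc, ← Complex.exp_add]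
    congr 2
    unfold bE
    push_cast; ring
  rw [key]
  refine ⟨h1, ?_⟩
  rw [h2]
  congr 1
  push_cast; ring

/-- the RULE for the damping: both cases (quadratic / linear). -/
theorem edge_rule {q lam r β f y : ℝ} (hq0 : 0 ≤ q) (hq : q ≤ 1 / 24) (hlam : 0 ≤ lam)
    (hf : |f| ≤ 2 * r) (hmin : min (12 * q * r) (16 * q * lam * r ^ 2) ≤ β) :
    ∃ U V : ℝ, U + V = f - y ∧ 6 * q * |U| + 4 * q * (lam * V ^ 2) ≤ β + |y| / 4 := by
  have hy : 6 * q * |y| ≤ |y| / 4 := by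
    have := mul_le_mul_of_nonneg_right hq (abs_nonneg y)
    linarith
  rcases min_le_iff.mp hmin with h | h
  · refine ⟨f - y, 0, by ring, ?_⟩
    have h1 : |f - y| ≤ 2 * r + |y| := (abs_sub f y).trans (by linarith)
    have h2 : 6 * q * |f - y| ≤ 6 * q * (2 * r + |y|) :=
      mul_le_mul_of_nonneg_left h1 (by positivity)
    have h3 : 4 * q * (lam * (0:ℝ) ^ 2) = 0 := by ring
    rw [h3]
    nlinarith
  · refine ⟨-y, f, by ring, ?_⟩
    have h1 : f ^ 2 ≤ (2 * r) ^ 2 := by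
      rw [← sq_abs f]
      exact pow_le_pow_left₀ (abs_nonneg _) hf 2
    have h2 : 4 * q * (lam * f ^ 2) ≤ 4 * q * (lam * (2 * r) ^ 2) := by
      apply mul_le_mul_of_nonneg_left _ (by positivity)
      exact mul_le_mul_of_nonneg_left h1 hlam
    rw [abs_neg]
    nlinarith

/-- an exponent `b` is admissible with weight `lam` -/
def GoodExp (q lam : ℝ) (b : ℂ) : Prop :=
  ∃ U V : ℝ, U + V = -b.im ∧ 6 * q * |U| + 4 * q * (lam * V ^ 2) ≤ b.re

theorem GoodExp.re_nonneg {q lam : ℝ} {b : ℂ} (h : GoodExp q lam b) (hq : 0 ≤ q) (hl : 0 ≤ lam) :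
    0 ≤ b.re := by
  obtain ⟨U, V, -, h⟩ := h
  refine le_trans ?_ h
  positivity

theorem GoodExp.conj {q lam : ℝ} {b : ℂ} (h : GoodExp q lam b) :
    GoodExp q lam ((starRingEnd ℂ) b) := by
  obtain ⟨U, V, h1, h2⟩ := h
  refine ⟨-U, -V, ?_, ?_⟩
  · rw [Complex.conj_im]; linarith
  · rw [Complex.conj_re, abs_neg, neg_sq]; exact h2

theorem goodExp_bE {q lam r β b0 ρ f y : ℝ} (hq0 : 0 ≤ q) (hq : q ≤ 1 / 24) (hlam : 0 ≤ lam)
    (hf : |f| ≤ 2 * r) (hmin : min (12 * q * r) (16 * q * lam * r ^ 2) ≤ β)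
    (hb : β + ρ ≤ b0) : GoodExp q lam (bE b0 ρ f y) := by
  obtain ⟨U, V, h1, h2⟩ := edge_rule (y := y) hq0 hq hlam hf hmin
  refine ⟨U, V, ?_, ?_⟩
  · rw [bE_im, h1]
  · rw [bE_re]; linarith

/-- the product of the exponentials of the open edges lies in the disc. -/
theorem prod_exp_mem_disc {ι : Type*} (s : Finset ι) {q : ℝ} (hq0 : 0 ≤ q) (hq : q ≤ 1 / 8)
    (lam : ι → ℝ) (b : ι → ℂ) (hlam : ∀ i ∈ s, 0 < lam i) (hsum : ∑ i ∈ s, 1 / lam i ≤ 1)
    (hb : ∀ i ∈ s, GoodExp q (lam i) (b i)) :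
    ‖∏ i ∈ s, cexp (-(b i)) - q‖ ≤ 1 - q := by
  classical
  choose! U V h1 h2 using hb
  have h := Crest.Agent.R300.exp_mem_disc_of_sum_rule s hq0 hq lam U V (fun i => (b i).re) hlam hsum h2
  rw [← Complex.exp_sum]
  have e : -(((∑ i ∈ s, (b i).re : ℝ)) : ℂ) + ((∑ i ∈ s, (U i + V i) : ℝ) : ℂ) * I =
      ∑ i ∈ s, -(b i) := by
    have e2 : ∑ i ∈ s, (U i + V i) = ∑ i ∈ s, -(b i).im := Finset.sum_congr rfl h1
    rw [e2]
    push_cast
    rw [← Finset.sum_neg_distrib, Finset.sum_mul, ← Finset.sum_add_distrib]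
    refine Finset.sum_congr rfl fun i _ => ?_
    apply Complex.ext
    · simp
    · simp
  rw [← e]
  exact h

/-! ### the representation used by the assembly (form of helper862) -/

/-- `g` is a superposition of damped exponentials with damping `≥ β + |y|/4` and frequency
`y + φ`, total mass `≤ mass`. -/
def KerRep (g : ℕ → ℂ) (β φ mass : ℝ) : Prop :=
  ∃ w : ℝ → ℂ, MeasureTheory.Integrable w ∧ (∫ y, ‖w y‖) ≤ mass ∧
    ∃ a : ℝ → ℝ, Measurable a ∧ (∀ y, β + |y| / 4 ≤ a y) ∧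
      ∀ d : ℕ, g d = ∫ y : ℝ, w y * Complex.exp
        (-(((a y : ℝ) : ℂ) + Complex.I * ((y + φ : ℝ) : ℂ)) * (d : ℂ))

theorem bE_eq (b0 ρ f y : ℝ) :
    bE b0 ρ f y = ((b0 - ρ + |y| / 4 : ℝ) : ℂ) + I * ((y + -f : ℝ) : ℂ) := by
  apply Complex.ext
  · rw [bE_re, Complex.add_re, Complex.ofReal_re]
    simp
  · have := bE_im b0 ρ f y
    rw [Complex.add_im, Complex.ofReal_im, mul_comm I, Complex.im_ofReal_mul]
    simp
    linarith

theorem kerRep_child {τ β : ℝ} (hτ : 0 < τ) (ρ f : ℝ) :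
    KerRep (fun d : ℕ => Complex.exp (-(τ * (d : ℝ) ^ 2 / 2 : ℝ) +
      ((ρ : ℂ) + Complex.I * f) * (d : ℂ))) β (-f)
      (2 * Real.exp ((β + max ρ 0) ^ 2 / τ)) := by
  refine ⟨kW τ (β + max ρ 0), kW_integrable hτ _, ?_, fun y => β + max ρ 0 - ρ + |y| / 4, ?_, ?_, ?_⟩
  · refine (integral_norm_kW_le hτ _).trans ?_
    have := Real.exp_pos ((β + max ρ 0) ^ 2 / τ)
    linarith
  · have : Continuous fun y : ℝ => β + max ρ 0 - ρ + |y| / 4 := by fun_prop
    exact this.measurable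
  · intro y
    have := le_max_left ρ 0
    linarith
  · intro d
    obtain ⟨-, h2⟩ := kernel_child hτ (β + max ρ 0) ρ f (d : ℝ)
    have h3 := h2.symm
    push_cast at h3 ⊢
    rw [h3]
    refine integral_congr_ae (Filter.Eventually.of_forall fun y => ?_)
    show _ = _
    simp only
    rw [bE_eq]
    push_cast
    congr 2
    ring

theorem kerRep_root {τ β : ℝ} (hτ : 0 < τ) (hβ : 0 ≤ β) (ν : ℝ) {t n : ℕ} (ht : t ≤ n) :
    KerRep (fun u : ℕ => Complex.exp (-(τ * ((u : ℝ) - t) ^ 2 / 2 : ℝ) +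
      Complex.I * ν * ((u : ℂ) - t))) β (-ν)
      (2 * Real.exp (2 * β ^ 2 / τ + β * n + n ^ 2 * τ)) := by
  have ht0 : (0 : ℝ) ≤ t := Nat.cast_nonneg t
  have htn : (t : ℝ) ≤ n := by exact_mod_cast ht
  refine ⟨kR τ β t ν, kR_integrable hτ _ _ _, ?_, fun y => β + |y| / 4, ?_, ?_, ?_⟩
  · refine (integral_norm_kR_le hτ β t ν).trans ?_
    have h1 : Real.exp (β ^ 2 / τ + β * t + (t : ℝ) ^ 2 * τ / 12) ≤
        Real.exp (2 * β ^ 2 / τ + β * n + (n : ℝ) ^ 2 * τ) := by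
      apply Real.exp_le_exp.mpr
      have a1 : β ^ 2 / τ ≤ 2 * β ^ 2 / τ := by
        apply div_le_div_of_nonneg_right _ hτ.le
        nlinarith [sq_nonneg β]
      have a2 : β * t ≤ β * n := mul_le_mul_of_nonneg_left htn hβ
      have a3 : (t : ℝ) ^ 2 * τ / 12 ≤ (n : ℝ) ^ 2 * τ := by
        have : (t : ℝ) ^ 2 ≤ (n : ℝ) ^ 2 := pow_le_pow_left₀ ht0 htn 2
        have h4 := mul_le_mul_of_nonneg_right this hτ.le
        have h5 : 0 ≤ (t : ℝ) ^ 2 * τ := by positivity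
        linarith
      linarith
    have h2 := Real.exp_pos (2 * β ^ 2 / τ + β * n + (n : ℝ) ^ 2 * τ)
    linarith
  · have : Continuous fun y : ℝ => β + |y| / 4 := by fun_prop
    exact this.measurable
  · intro y
    exact le_refl _
  · intro u
    obtain ⟨-, h2⟩ := kernel_root hτ β ν (t : ℝ) (u : ℝ)
    have h3 := h2.symm
    push_cast at h3 ⊢
    rw [h3]
    refine integral_congr_ae (Filter.Eventually.of_forall fun y => ?_)
    show _ = _
    simp only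
    rw [bE_eq]
    push_cast
    congr 2
    ring

theorem KerRep.conj {g : ℕ → ℂ} {β φ m : ℝ} (h : KerRep g β φ m) :
    KerRep (fun d => star (g d)) β (-φ) m := by
  obtain ⟨w, hw, hm, a, ha, hb, hg⟩ := h
  have hneg : MeasurePreserving (fun y : ℝ => -y) volume volume :=
    Measure.measurePreserving_neg volume
  refine ⟨fun y => star (w (-y)), ?_, ?_, fun y => a (-y), ha.comp measurable_neg, ?_, ?_⟩
  · have h1 : Integrable (fun y : ℝ => w (-y)) := hw.comp_neg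
    have h2 : Integrable (fun y : ℝ => (starRingEnd ℂ) (w (-y))) := by
      refine (Complex.conjLIE.integrable_comp_iff).mpr h1
    exact h2
  · have e1 : (fun y : ℝ => ‖star (w (-y))‖) = fun y : ℝ => ‖w (-y)‖ := by
      funext y; exact norm_star _
    rw [e1, integral_neg_eq_self (fun y : ℝ => ‖w y‖) volume]
    exact hm
  · intro y
    have := hb (-y)
    rwa [abs_neg] at this
  · intro d
    show star (g d) = ∫ y : ℝ, star (w (-y)) *
      cexp (-(((a (-y) : ℝ) : ℂ) + I * ((y + -φ : ℝ) : ℂ)) * (d : ℂ))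
    rw [hg d]
    have h1 : star (∫ y : ℝ, w y * cexp (-(((a y : ℝ) : ℂ) + I * ((y + φ : ℝ) : ℂ)) * (d : ℂ))) =
        ∫ y : ℝ, star (w y * cexp (-(((a y : ℝ) : ℂ) + I * ((y + φ : ℝ) : ℂ)) * (d : ℂ))) :=
      (integral_conj (f := fun y : ℝ =>
        w y * cexp (-(((a y : ℝ) : ℂ) + I * ((y + φ : ℝ) : ℂ)) * (d : ℂ)))).symm
    rw [h1, ← integral_neg_eq_self _ volume]
    refine integral_congr_ae (Filter.Eventually.of_forall fun y => ?_)
    show star (w (-y) * cexp (-(((a (-y) : ℝ) : ℂ) + I * ((-y + φ : ℝ) : ℂ)) * (d : ℂ))) = _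
    rw [star_mul', mul_comm]
    have h2 : star (cexp (-(((a (-y) : ℝ) : ℂ) + I * ((-y + φ : ℝ) : ℂ)) * (d : ℂ))) =
        cexp (-(((a (-y) : ℝ) : ℂ) + I * ((y + -φ : ℝ) : ℂ)) * (d : ℂ)) := by
      have : star (cexp (-(((a (-y) : ℝ) : ℂ) + I * ((-y + φ : ℝ) : ℂ)) * (d : ℂ))) =
          cexp ((starRingEnd ℂ) (-(((a (-y) : ℝ) : ℂ) + I * ((-y + φ : ℝ) : ℂ)) * (d : ℂ))) :=
        (Complex.exp_conj _).symm
      rw [this]
      congr 1
      simp only [map_mul, map_neg, map_add, Complex.conj_ofReal, Complex.conj_I, Complex.conj_natCast,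
        neg_mul]
      push_cast
      ring
    rw [h2]
    exact mul_comm _ _

/-- finite weights: the representation gives the bound `‖g d‖ ≤ mass`. -/
theorem KerRep.norm_le {g : ℕ → ℂ} {β φ m : ℝ} (h : KerRep g β φ m) (hβ : 0 ≤ β) (d : ℕ) :
    ‖g d‖ ≤ m := by
  obtain ⟨w, hw, hm, a, ha, hb, hg⟩ := h
  rw [hg d]
  refine (norm_integral_le_integral_norm _).trans (le_trans ?_ hm)
  apply integral_mono_of_nonneg (Filter.Eventually.of_forall fun y => norm_nonneg _) hw.norm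
  refine Filter.Eventually.of_forall fun y => ?_
  show ‖w y * _‖ ≤ ‖w y‖
  rw [norm_mul]
  have h1 : ‖cexp (-(((a y : ℝ) : ℂ) + I * ((y + φ : ℝ) : ℂ)) * (d : ℂ))‖ ≤ 1 := by
    rw [Complex.norm_exp]
    apply Real.exp_le_one_iff.mpr
    have e : (-(((a y : ℝ) : ℂ) + I * ((y + φ : ℝ) : ℂ)) * (d : ℂ)).re = -(a y) * d := by
      have : (-(((a y : ℝ) : ℂ) + I * ((y + φ : ℝ) : ℂ)) * (d : ℂ)) =
        ((-(a y) * d : ℝ) : ℂ) + ((-(y + φ) * d : ℝ) : ℂ) * I := by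
        push_cast; ring
      rw [this, Complex.add_re, Complex.ofReal_re, Complex.re_ofReal_mul]
      simp
    rw [e]
    have h2 : 0 ≤ a y := le_trans (by positivity) (hb y)
    have h3 : (0 : ℝ) ≤ d := Nat.cast_nonneg d
    nlinarith
  calc ‖w y‖ * _ ≤ ‖w y‖ * 1 := mul_le_mul_of_nonneg_left h1 (norm_nonneg _)
    _ = ‖w y‖ := mul_one _

end Crest.Agent.R300U
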