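import Crest.Agent.R300.U.Calc
import Crest.Agent.R300.U.AccSkel
import Crest.Agent.R300.U.Kernel1D

/-!
Row 300, AccessStatement: the integral step (helper782).  Edge kernels which are superpositions of
damped exponentials are replaced one after the other.
-/

set_option autoImplicit false

namespace Crest.Agent.R300U

open Complex MeasureTheory Finset
open scoped BigOperators

section

variable {n : ℕ} {ι κ : Type} [Fintype ι] [DecidableEq ι] [Fintype κ] [DecidableEq κ]

/-- the monomial of a position map -/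
noncomputable def posMon (p : ι → Fin n) : R n := ∏ i, (xv (p i : ℕ) : R n)

omit [DecidableEq ι] in
theorem posMon_Bd (p : ι → Fin n) : Bd (Fintype.card ι) 1 (posMon p : R n) := by
  have h := Bd.prod (Finset.univ : Finset ι) (fun _ => 1) (fun _ => (1 : ℝ))
    (fun i => (xv (p i : ℕ) : R n)) (fun i _ => Bd.xv _ le_rfl)
  simpa [posMon] using h

omit [DecidableEq κ] in
theorem skel_eq (A B : κ → Finset ι) (g : κ → ℕ → ℂ) :
    (skel A B g : R n) = ∑ p : ι → Fin n, (∏ e, g e (loc (A e) p - loc (B e) p)) • posMon p := rfl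

omit [DecidableEq κ] in
theorem skel_Bd (A B : κ → Finset ι) (g : κ → ℕ → ℂ) :
    ∃ c, Bd (Fintype.card ι) c (skel A B g : R n) := by
  rw [skel_eq]
  exact ⟨_, Bd.sum Finset.univ _ _ fun p _ => (posMon_Bd p).smul _⟩

theorem skel_update (A B : κ → Finset ι) (h : κ → ℕ → ℂ) (e0 : κ) (k : ℕ → ℂ) :
    (skel A B (Function.update h e0 k) : R n) = ∑ p : ι → Fin n,
      ((∏ e ∈ Finset.univ.erase e0, h e (loc (A e) p - loc (B e) p)) *
        k (loc (A e0) p - loc (B e0) p)) • posMon p := by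
  rw [skel_eq]
  refine Finset.sum_congr rfl fun p _ => ?_
  congr 1
  rw [← Finset.prod_erase_mul Finset.univ _ (Finset.mem_univ e0), Function.update_self]
  congr 1
  refine Finset.prod_congr rfl fun e he => ?_
  rw [Function.update_of_ne (Finset.ne_of_mem_erase he)]

/-- admissible exponent of an edge -/
def AdmExp (β φ : ℝ) (b : ℂ) : Prop :=
  ∃ a y : ℝ, β + |y| / 4 ≤ a ∧ b = (a : ℂ) + Complex.I * ((y + φ : ℝ) : ℂ)

theorem AdmExp.re_nonneg {β φ : ℝ} {b : ℂ} (h : AdmExp β φ b) (hβ : 0 ≤ β) : 0 ≤ b.re := by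
  obtain ⟨a, y, h1, h2⟩ := h
  have : b.re = a := by rw [h2]; simp
  rw [this]
  exact le_trans (by positivity) h1

theorem norm_exp_neg_mul_nat_le {b : ℂ} (hb : 0 ≤ b.re) (d : ℕ) : ‖cexp (-(b * d))‖ ≤ 1 := by
  rw [Complex.norm_exp]
  apply Real.exp_le_one_iff.mpr
  have h3 : (0 : ℝ) ≤ d := Nat.cast_nonneg d
  have e : (-(b * (d : ℂ))).re = -(b.re * d) := by
    rw [Complex.neg_re, Complex.mul_re, Complex.natCast_re, Complex.natCast_im]
    ring
  rw [e]
  have := mul_nonneg hb h3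
  linarith

/-- one edge: `N (dev (skel … g e0 …)) ≤ mass * sup`. -/
theorem skel_step {D : ℕ} (E : PE n D) (x : Fin n → Bool) (A B : κ → Finset ι)
    (hD : Fintype.card ι ≤ D) (h : κ → ℕ → ℂ) (e0 : κ) {β φ m : ℝ} (hβ : 0 ≤ β)
    (hk : KerRep (h e0) β φ m) {C : ℝ} (hC0 : 0 ≤ C)
    (hC : ∀ b : ℂ, AdmExp β φ b →
      E.N (dev x (skel A B (Function.update h e0 (fun d : ℕ => cexp (-(b * (d : ℂ))))) : R n)) ≤ C) :
    E.N (dev x (skel A B h : R n)) ≤ m * C := by
  obtain ⟨w, hw, hm, a, ha, hab, hg⟩ := hk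
  set bb : ℝ → ℂ := fun y => ((a y : ℝ) : ℂ) + Complex.I * ((y + φ : ℝ) : ℂ) with hbb
  have hbbm : Measurable bb := by
    have h1 : Measurable fun y : ℝ => ((a y : ℝ) : ℂ) := Complex.measurable_ofReal.comp ha
    have h2 : Continuous fun y : ℝ => Complex.I * ((y + φ : ℝ) : ℂ) := by fun_prop
    exact h1.add h2.measurable
  have hadm : ∀ y, AdmExp β φ (bb y) := fun y => ⟨a y, y, hab y, rfl⟩
  have hre : ∀ y, 0 ≤ (bb y).re := fun y => (hadm y).re_nonneg hβ
  set F : ℝ → R n := fun y => w y • skel A B (Function.update h e0 (fun d : ℕ => cexp (-(bb y * (d : ℂ)))))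
    with hF
  -- coefficient functions
  set c0 : (ι → Fin n) → ℂ := fun p => ∏ e ∈ Finset.univ.erase e0, h e (loc (A e) p - loc (B e) p)
    with hc0
  set dl : (ι → Fin n) → ℕ := fun p => loc (A e0) p - loc (B e0) p with hdl
  have hint1 : ∀ p, Integrable (fun y : ℝ => w y * cexp (-(bb y * (dl p : ℂ)))) := by
    intro p
    have hmeas : Measurable fun y : ℝ => cexp (-(bb y * (dl p : ℂ))) :=
      Complex.measurable_exp.comp ((hbbm.mul_const _).neg)
    refine Integrable.mono hw (hw.aestronglyMeasurable.mul hmeas.aestronglyMeasurable) ?_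
    refine Filter.Eventually.of_forall fun y => ?_
    rw [norm_mul]
    calc ‖w y‖ * _ ≤ ‖w y‖ * 1 :=
        mul_le_mul_of_nonneg_left (norm_exp_neg_mul_nat_le (hre y) _) (norm_nonneg _)
      _ = ‖w y‖ := mul_one _
  have hFsum : ∀ y, F y = ∑ p : ι → Fin n,
      (c0 p * (w y * cexp (-(bb y * (dl p : ℂ))))) • (posMon p : R n) := by
    intro y
    rw [hF]
    simp only
    rw [skel_update, Finset.smul_sum]
    refine Finset.sum_congr rfl fun p _ => ?_
    rw [smul_smul]
    congr 1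
    ring
  have hFint : Integrable F := by
    have e : F = fun y => ∑ p : ι → Fin n,
      (c0 p * (w y * cexp (-(bb y * (dl p : ℂ))))) • (posMon p : R n) := funext hFsum
    rw [e]
    refine integrable_finsetSum _ fun p _ => ?_
    exact ((hint1 p).const_mul (c0 p)).smul_const _
  have hval : (skel A B h : R n) = ∫ y, F y := by
    have e : F = fun y => ∑ p : ι → Fin n,
      (c0 p * (w y * cexp (-(bb y * (dl p : ℂ))))) • (posMon p : R n) := funext hFsum
    rw [e, integral_finsetSum _ fun p _ => ((hint1 p).const_mul (c0 p)).smul_const _]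
    have h0 : (skel A B h : R n) = skel A B (Function.update h e0 (h e0)) := by
      rw [Function.update_eq_self]
    rw [h0, skel_update]
    refine Finset.sum_congr rfl fun p _ => ?_
    rw [integral_smul_const, integral_const_mul, hg]
    congr 2
    refine integral_congr_ae (Filter.Eventually.of_forall fun y => ?_)
    show w y * _ = w y * _
    congr 2
    simp only [hbb, hdl]
    ring
  rw [hval, dev_integral x hFint]
  have hdevF : ∀ y, dev x (F y) = w y •
      dev x (skel A B (Function.update h e0 (fun d : ℕ => cexp (-(bb y * (d : ℂ)))))) := by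
    intro y
    rw [hF]
    exact dev_smul x _ _
  have hNF : ∀ y, E.N (dev x (F y)) ≤ ‖w y‖ * C := by
    intro y
    rw [hdevF, E.N_smul]
    exact mul_le_mul_of_nonneg_left (hC _ (hadm y)) (norm_nonneg _)
  have hdevint : Integrable (fun y => dev x (F y)) := by
    have e : (fun y => dev x (F y)) = fun y => ∑ p : ι → Fin n,
      (c0 p * (w y * cexp (-(bb y * (dl p : ℂ))))) • dev x (posMon p : R n) := by
      funext y
      rw [hFsum, dev_sum]
      exact Finset.sum_congr rfl fun p _ => dev_smul x _ _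
    rw [e]
    refine integrable_finsetSum _ fun p _ => ?_
    exact ((hint1 p).const_mul (c0 p)).smul_const _
  have hdeg : ∀ y, ∃ c, Bd D c (dev x (F y)) := by
    intro y
    obtain ⟨c, hc⟩ := skel_Bd (n := n) A B (Function.update h e0 (fun d : ℕ => cexp (-(bb y * (d : ℂ)))))
    exact ⟨_, ((hc.smul (w y)).dev x).mono_deg hD⟩
  refine (E.N_integral_le hdevint hdeg (hw.norm.mul_const C)
    (Filter.Eventually.of_forall hNF)).trans ?_
  rw [integral_mul_const]
  exact mul_le_mul_of_nonneg_right hm hC0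

/-- **the integral step** -/
theorem skel_integral {D : ℕ} (E : PE n D) (x : Fin n → Bool) (A B : κ → Finset ι)
    (g : κ → ℕ → ℂ) (β φ m : κ → ℝ) (hβ : ∀ e, 0 ≤ β e)
    (hg : ∀ e, KerRep (g e) (β e) (φ e) (m e)) (hD : Fintype.card ι ≤ D) (C : ℝ)
    (hC : ∀ b : κ → ℂ, (∀ e, AdmExp (β e) (φ e) (b e)) →
      E.N (dev x (skel A B (fun e (d : ℕ) => cexp (-(b e * (d : ℂ)))) : R n)) ≤ C) :
    E.N (dev x (skel A B g : R n)) ≤ (∏ e, m e) * C := by
  have hC0 : 0 ≤ C := by
    refine (E.N_nonneg _).trans (hC (fun e => ((β e : ℝ) : ℂ) + Complex.I * ((0 + φ e : ℝ) : ℂ)) ?_)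
    intro e
    exact ⟨β e, 0, by simp, rfl⟩
  have hm0 : ∀ e, 0 ≤ m e := by
    intro e
    obtain ⟨w, -, hm, -⟩ := hg e
    exact le_trans (integral_nonneg fun y => norm_nonneg _) hm
  have key : ∀ s : Finset κ, ∀ h : κ → ℕ → ℂ, (∀ e ∈ s, h e = g e) →
      (∀ e, e ∉ s → ∃ b : ℂ, AdmExp (β e) (φ e) b ∧ h e = fun d : ℕ => cexp (-(b * (d : ℂ)))) →
      E.N (dev x (skel A B h : R n)) ≤ (∏ e ∈ s, m e) * C := by
    intro s
    induction s using Finset.induction_on with
    | empty =>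
      intro h _ hh
      choose b hb1 hb2 using fun e => hh e (Finset.notMem_empty e)
      have : h = fun e (d : ℕ) => cexp (-(b e * (d : ℂ))) := by
        funext e
        rw [hb2 e]
      rw [this, Finset.prod_empty, one_mul]
      exact hC b hb1
    | insert e0 s he0 ih =>
      intro h h1 h2
      rw [Finset.prod_insert he0, mul_assoc]
      have hk : KerRep (h e0) (β e0) (φ e0) (m e0) := by
        rw [h1 e0 (Finset.mem_insert_self _ _)]
        exact hg e0
      refine skel_step E x A B hD h e0 (hβ e0) hk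
        (mul_nonneg (Finset.prod_nonneg fun e _ => hm0 e) hC0) ?_
      intro b hb
      refine ih _ ?_ ?_
      · intro e he
        have hne : e ≠ e0 := fun hh => he0 (hh ▸ he)
        rw [Function.update_of_ne hne]
        exact h1 e (Finset.mem_insert_of_mem he)
      · intro e he
        by_cases hee : e = e0
        · subst hee
          exact ⟨b, hb, by rw [Function.update_self]⟩
        · rw [Function.update_of_ne hee]
          exact h2 e (fun hh => (Finset.mem_insert.mp hh).elim hee he)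
  have := key Finset.univ g (fun e _ => rfl) (fun e he => absurd (Finset.mem_univ e) he)
  simpa using this

/-- degree of a pure statistic -/
theorem Pure_Bd {l : ℕ} (ζ : Fin l → ℂ) : ∃ c, Bd l c (Pure ζ : R n) := by
  unfold Pure
  refine ⟨∑ u ∈ (Fintype.piFinset (fun _ : Fin l => Finset.range n)).filter
    (fun u => StrictMono u), ‖∏ j : Fin l,
      ζ j ^ (if h : (j : ℕ) = 0 then u j else u j - u ⟨j - 1, by omega⟩ - 1)‖ * 1,
    Bd.sum _ _ _ fun u _ => ?_⟩
  refine Bd.smul ?_ _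
  have h := Bd.prod (Finset.univ : Finset (Fin l)) (fun _ => 1) (fun _ => (1 : ℝ))
    (fun j => (xv (u j) : R n)) (fun j _ => Bd.xv _ le_rfl)
  simpa using h

theorem AdmExp.good {q lam r β φ : ℝ} {b : ℂ} (h : AdmExp β φ b) (hq0 : 0 ≤ q) (hq : q ≤ 1 / 24)
    (hlam : 0 ≤ lam) (hf : |φ| ≤ 2 * r)
    (hmin : min (12 * q * r) (16 * q * lam * r ^ 2) ≤ β) : GoodExp q lam b := by
  obtain ⟨a, y, h1, h2⟩ := h
  obtain ⟨U, V, h3, h4⟩ := edge_rule (f := -φ) (y := y) hq0 hq hlam (by rwa [abs_neg]) hmin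
  refine ⟨U, V, ?_, ?_⟩
  · rw [h3, h2]
    simp
    ring
  · have : b.re = a := by rw [h2]; simp
    rw [this]
    linarith

omit [DecidableEq κ] in
/-- skeleton sums with admissible exponential weights are known. -/
theorem skel_exp_known {D : ℕ} (E : PE n D) (x : Fin n → Bool) (A B : κ → Finset ι)
    (hAB : ∀ e, B e ⊆ A e) {q : ℝ} (hq0 : 0 ≤ q) (hq : q ≤ 1 / 8) (lam : κ → ℝ)
    (hlam : ∀ e, 0 < lam e) (hsum : ∑ e, 1 / lam e ≤ 1) (b : κ → ℂ)
    (hb : ∀ e, GoodExp q (lam e) (b e)) {K : ℕ} (hK : Fintype.card ι ≤ K)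
    (hD : Fintype.card ι ≤ D) {ε : ℝ} (hP : PureKnown E x (1 - q) K ε) :
    E.N (dev x (skel A B (fun e (d : ℕ) => cexp (-(b e * (d : ℂ)))) : R n)) ≤
      ((Fintype.card ι : ℝ) ^ (Fintype.card ι)) * ε := by
  have hb0 : ∀ e, 0 ≤ (b e).re := fun e => (hb e).re_nonneg hq0 (hlam e).le
  have hZ : ∀ T : Finset κ, Complex.exp (-∑ e ∈ T, b e) ∈ {z : ℂ | ‖z - q‖ ≤ 1 - q} := by
    intro T
    show ‖_ - _‖ ≤ _
    rw [← Finset.sum_neg_distrib, Complex.exp_sum]
    refine prod_exp_mem_disc T hq0 hq lam b (fun i _ => hlam i) ?_ (fun i _ => hb i)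
    refine le_trans (Finset.sum_le_sum_of_subset_of_nonneg (Finset.subset_univ T)
      fun i _ _ => ?_) hsum
    have := hlam i
    positivity
  obtain ⟨J, hJ, l, c, ζ, hcard, hl, hc, hζ, heq⟩ := skel_exp (n := n) A B hAB b hb0 _ hZ
  rw [heq, dev_sum]
  have h1 : ∀ s : J, E.N (dev x (c s • Pure (ζ s))) ≤ ε := by
    intro s
    rw [dev_smul, E.N_smul]
    have h2 : E.N (dev x (Pure (ζ s))) ≤ ε := by
      refine hP (l s) ((hl s).trans hK) (ζ s) ?_
      intro j
      have h3 := hζ s j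
      have h4 : ‖ζ s j - (q : ℂ)‖ ≤ 1 - q := h3
      have h5 : ((1 - (1 - q) : ℝ) : ℂ) = (q : ℂ) := by push_cast; ring
      rw [h5]
      exact h4
    calc ‖c s‖ * E.N (dev x (Pure (ζ s))) ≤ 1 * ε :=
        mul_le_mul (hc s) h2 (E.N_nonneg _) zero_le_one
      _ = ε := one_mul _
  have hε : 0 ≤ ε := by
    refine (E.N_nonneg _).trans (hP 0 (Nat.zero_le _) (fun j => j.elim0) (fun j => j.elim0))
  have hdeg : ∀ s ∈ (Finset.univ : Finset J), ∃ k, Bd D k (dev x (c s • Pure (ζ s))) := by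
    intro s _
    obtain ⟨k, hk⟩ := Pure_Bd (n := n) (ζ s)
    exact ⟨_, ((hk.smul (c s)).dev x).mono_deg ((hl s).trans hD)⟩
  choose! k hk using hdeg
  refine (E.N_sum_le Finset.univ k _ hk).trans ?_
  refine (Finset.sum_le_sum fun s _ => h1 s).trans ?_
  rw [Finset.sum_const, nsmul_eq_mul]
  apply mul_le_mul_of_nonneg_right _ hε
  rw [Finset.card_univ]
  exact_mod_cast hcard

/-- **core of AccessStatement**: skeleton sums whose edge kernels are superpositions of damped
exponentials obeying the RULE are known. -/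
theorem access_core {D : ℕ} (E : PE n D) (x : Fin n → Bool) (A B : κ → Finset ι)
    (hAB : ∀ e, B e ⊆ A e) {q : ℝ} (hq0 : 0 ≤ q) (hq : q ≤ 1 / 24)
    (g : κ → ℕ → ℂ) (lam r β φ m : κ → ℝ) (hlam : ∀ e, 0 < lam e) (hsum : ∑ e, 1 / lam e ≤ 1)
    (hβ : ∀ e, 0 ≤ β e) (hf : ∀ e, |φ e| ≤ 2 * r e)
    (hmin : ∀ e, min (12 * q * r e) (16 * q * lam e * r e ^ 2) ≤ β e)
    (hg : ∀ e, KerRep (g e) (β e) (φ e) (m e)) {K : ℕ} (hK : Fintype.card ι ≤ K)
    (hD : Fintype.card ι ≤ D) {ε : ℝ} (hP : PureKnown E x (1 - q) K ε) :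
    E.N (dev x (skel A B g : R n)) ≤
      (∏ e, m e) * (((Fintype.card ι : ℝ) ^ (Fintype.card ι)) * ε) := by
  refine skel_integral E x A B g β φ m hβ hg hD _ fun b hb => ?_
  exact skel_exp_known E x A B hAB hq0 (by linarith) lam hlam hsum b
    (fun e => (hb e).good hq0 hq (hlam e).le (hf e) (hmin e)) hK hD hP

end

end Crest.Agent.R300U
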