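import Crest.Agent.R300.U.AccSkel
import Crest.Agent.R300.U.Calc
/-!
Row 300, AccessStatement: codes as skeleton sums (owner helper862).
-/
set_option autoImplicit false

namespace Crest.Agent.R300U

open scoped BigOperators

/-- `Φ M` is the skeleton sum restricted to position maps with location `M`. -/
def Rep {n : ℕ} {ι κ : Type} [Fintype ι] [DecidableEq ι] [Fintype κ] (Φ : ℕ → R n)
    (A B : κ → Finset ι) (g : κ → ℕ → ℂ) : Prop :=
  ∀ M, Φ M = ∑ p : ι → Fin n,
    (if loc Finset.univ p = M then ∏ e, g e (loc (A e) p - loc (B e) p) else 0) •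
      ∏ i, (xv (p i : ℕ) : R n)

theorem star_prod_xv {n : ℕ} {ι : Type} [Fintype ι] (p : ι → Fin n) :
    star (∏ i, (xv (p i : ℕ) : R n)) = ∏ i, (xv (p i : ℕ) : R n) := by
  rw [← starRingEnd_apply, map_prod]
  refine Finset.prod_congr rfl (fun i _ => ?_)
  rw [starRingEnd_apply, star_xv]

/-- conj or not, for numbers -/
noncomputable def cjn (b : Bool) (z : ℂ) : ℂ := if b then star z else z

theorem cjn_mul (b : Bool) (z w : ℂ) : cjn b (z * w) = cjn b z * cjn b w := by
  unfold cjn; split_ifs <;> simp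

theorem cjn_zero (b : Bool) : cjn b 0 = 0 := by
  unfold cjn; split_ifs <;> simp

theorem cjn_prod {κ : Type} (s : Finset κ) (b : Bool) (z : κ → ℂ) :
    cjn b (∏ e ∈ s, z e) = ∏ e ∈ s, cjn b (z e) := by
  unfold cjn; split_ifs
  · rw [← starRingEnd_apply, map_prod]; rfl
  · rfl

theorem cj_sum_smul {n : ℕ} {ι : Type} [Fintype ι] (b : Bool) (s : Finset (ι → Fin n))
    (w : (ι → Fin n) → ℂ) :
    cj b (∑ p ∈ s, w p • ∏ i, (xv (p i : ℕ) : R n)) =
      ∑ p ∈ s, cjn b (w p) • ∏ i, (xv (p i : ℕ) : R n) := by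
  unfold cj cjn
  split_ifs
  · rw [star_sum]
    refine Finset.sum_congr rfl (fun p _ => ?_)
    rw [star_smul, star_prod_xv]
  · rfl

theorem rep_leaf {n : ℕ} : Rep (n := n) (fun M => xv M) (fun _ : Empty => (∅ : Finset Unit))
    (fun _ => ∅) (fun _ _ => 0) := by
  intro M
  have h1 : ∀ p : Unit → Fin n, loc Finset.univ p = (p () : ℕ) := by
    intro p; simp [loc]
  by_cases hM : M < n
  · rw [Finset.sum_eq_single (fun _ => (⟨M, hM⟩ : Fin n))]
    · rw [if_pos (h1 _)]
      simp
    · intro p _ hp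
      rw [if_neg]
      · simp
      · rw [h1]
        intro h
        apply hp
        funext i
        cases i
        exact Fin.ext h
    · simp
  · rw [Finset.sum_eq_zero]
    · funext x
      simp [xv, hM]
    · intro p _
      rw [if_neg]
      · simp
      · rw [h1]
        have := (p ()).2
        omega

/-- child edges and inherited edges of a node -/
def nodeA {ι κ : Type} [Fintype ι] (k : ℕ) (A : κ → Finset ι) :
    (Fin k ⊕ Fin k × κ) → Finset (Fin k × ι)
  | Sum.inl _ => Finset.univ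
  | Sum.inr (a, e) => (A e).map (Function.Embedding.sectR a ι)

def nodeB {ι κ : Type} [Fintype ι] (k : ℕ) (B : κ → Finset ι) :
    (Fin k ⊕ Fin k × κ) → Finset (Fin k × ι)
  | Sum.inl a => Finset.univ.map (Function.Embedding.sectR a ι)
  | Sum.inr (a, e) => (B e).map (Function.Embedding.sectR a ι)

noncomputable def nodeG {κ : Type} (k : ℕ) (flag : Fin k → Bool) (E : Fin k → ℕ → ℂ)
    (g : κ → ℕ → ℂ) : (Fin k ⊕ Fin k × κ) → ℕ → ℂ
  | Sum.inl a => E a
  | Sum.inr (a, e) => fun d => cjn (flag a) (g e d)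

theorem loc_sectR {n k : ℕ} {ι : Type} (a : Fin k) (A : Finset ι) (P : Fin k × ι → Fin n) :
    loc (A.map (Function.Embedding.sectR a ι)) P = loc A (fun i => P (a, i)) := by
  unfold loc
  rw [Finset.sup_map]
  rfl

theorem loc_univ_prod {n k : ℕ} {ι : Type} [Fintype ι] (P : Fin k × ι → Fin n) :
    loc Finset.univ P = Finset.univ.sup (fun a : Fin k => loc Finset.univ (fun i => P (a, i))) := by
  unfold loc
  rw [← Finset.univ_product_univ, Finset.sup_product_left]

theorem rep_node {n k : ℕ} {ι κ : Type} [Fintype ι] [DecidableEq ι] [Fintype κ] (hk : 0 < k)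
    {Φ : ℕ → R n} {A B : κ → Finset ι} {g : κ → ℕ → ℂ} (hΦ : Rep Φ A B g) (flag : Fin k → Bool)
    (E : Fin k → ℕ → ℂ) :
    Rep (fun M => ∑ d ∈ (Fintype.piFinset (fun _ : Fin k => Finset.range (M + 1))).filter
        (fun d => ∃ a, d a = 0), ∏ a : Fin k, (E a (d a) • cj (flag a) (Φ (M - d a))))
      (nodeA k A) (nodeB k B) (nodeG k flag E g) := by
  classical
  intro M
  have e1 : ∀ d : Fin k → ℕ, ∏ a : Fin k, (E a (d a) • cj (flag a) (Φ (M - d a))) =
      ∑ Q : Fin k → ι → Fin n, ∏ a, ((E a (d a) * (if loc Finset.univ (Q a) = M - d a then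
        cjn (flag a) (∏ e, g e (loc (A e) (Q a) - loc (B e) (Q a))) else 0)) •
        ∏ i, (xv (Q a i : ℕ) : R n)) := by
    intro d
    have e2 : ∀ a : Fin k, E a (d a) • cj (flag a) (Φ (M - d a)) =
        ∑ p : ι → Fin n, (E a (d a) * (if loc Finset.univ p = M - d a then
        cjn (flag a) (∏ e, g e (loc (A e) p - loc (B e) p)) else 0)) •
        ∏ i, (xv (p i : ℕ) : R n) := by
      intro a
      rw [hΦ, cj_sum_smul, Finset.smul_sum]
      refine Finset.sum_congr rfl (fun p _ => ?_)
      rw [smul_smul]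
      split_ifs
      · rfl
      · rw [cjn_zero]
    rw [Finset.prod_congr rfl (fun a _ => e2 a), Finset.prod_univ_sum, Fintype.piFinset_univ]
  simp only [e1]
  rw [Finset.sum_comm]
  rw [← (Equiv.curry (Fin k) ι (Fin n)).sum_comp]
  refine Finset.sum_congr rfl (fun P _ => ?_)
  set Q : Fin k → ι → Fin n := Equiv.curry (Fin k) ι (Fin n) P with hQ
  have hX : ∏ i, (xv (P i : ℕ) : R n) = ∏ a, ∏ i, (xv (Q a i : ℕ) : R n) := by
    rw [Fintype.prod_prod_type]
    rfl
  have hloc : loc Finset.univ P = Finset.univ.sup (fun a : Fin k => loc Finset.univ (Q a)) :=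
    loc_univ_prod P
  have hG : ∏ e, nodeG k flag E g e (loc (nodeA k A e) P - loc (nodeB k B e) P) =
      ∏ a, (E a (loc Finset.univ P - loc Finset.univ (Q a)) *
        cjn (flag a) (∏ e, g e (loc (A e) (Q a) - loc (B e) (Q a)))) := by
    rw [Fintype.prod_sum_type, Fintype.prod_prod_type, ← Finset.prod_mul_distrib]
    refine Finset.prod_congr rfl (fun a _ => ?_)
    rw [cjn_prod]
    congr 1
    · simp only [nodeG, nodeA, nodeB, loc_sectR]
      rfl
    · refine Finset.prod_congr rfl (fun e _ => ?_)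
      simp only [nodeG, nodeA, nodeB, loc_sectR]
      rfl
  have hprod : ∀ (w : Fin k → ℂ), ∏ a, (w a • ∏ i, (xv (Q a i : ℕ) : R n)) =
      (∏ a, w a) • ∏ a, ∏ i, (xv (Q a i : ℕ) : R n) := by
    intro w
    rw [Finset.prod_smul]
  simp only [hprod]
  rw [← Finset.sum_smul, hX, hG]
  congr 1
  split_ifs with h
  · -- the unique term
    rw [Finset.sum_eq_single (fun a => M - loc Finset.univ (Q a))]
    · refine Finset.prod_congr rfl (fun a _ => ?_)
      have hle : loc Finset.univ (Q a) ≤ M := by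
        rw [← h, hloc]
        exact Finset.le_sup (f := fun a : Fin k => loc Finset.univ (Q a)) (Finset.mem_univ a)
      dsimp only
      rw [if_pos (by omega), h]
    · intro d hd hne
      rw [Finset.mem_filter, Fintype.mem_piFinset] at hd
      obtain ⟨a, ha⟩ := Function.ne_iff.mp hne
      apply Finset.prod_eq_zero (Finset.mem_univ a)
      have h1 := hd.1 a
      rw [Finset.mem_range] at h1
      rw [if_neg (by omega), mul_zero]
    · intro hnot
      exfalso
      apply hnot
      rw [Finset.mem_filter, Fintype.mem_piFinset]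
      refine ⟨fun a => Finset.mem_range.mpr (by omega), ?_⟩
      have : Nonempty (Fin k) := ⟨⟨0, hk⟩⟩
      obtain ⟨a, _, ha⟩ := Finset.exists_mem_eq_sup Finset.univ Finset.univ_nonempty
        (fun a : Fin k => loc Finset.univ (Q a))
      refine ⟨a, ?_⟩
      rw [← hloc, h] at ha
      dsimp only at ha ⊢
      omega
  · apply Finset.sum_eq_zero
    intro d hd
    rw [Finset.mem_filter, Fintype.mem_piFinset] at hd
    by_contra hne
    apply h
    have h2 : ∀ a, loc Finset.univ (Q a) = M - d a := by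
      intro a
      by_contra h3
      apply hne
      apply Finset.prod_eq_zero (Finset.mem_univ a)
      rw [if_neg h3, mul_zero]
    rw [hloc]
    apply le_antisymm
    · apply Finset.sup_le
      intro a _
      rw [h2]; omega
    · obtain ⟨a, ha⟩ := hd.2
      have h3 := h2 a
      rw [ha, Nat.sub_zero] at h3
      rw [← h3]
      exact Finset.le_sup (f := fun a : Fin k => loc Finset.univ (Q a)) (Finset.mem_univ a)

/-- root edges and inherited edges -/
def rootA {ι κ : Type} [Fintype ι] (k : ℕ) (A : κ → Finset ι) :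
    (Fin k ⊕ Fin k × κ) → Finset (Fin k × ι)
  | Sum.inl a => Finset.univ.map (Function.Embedding.sectR a ι)
  | Sum.inr (a, e) => (A e).map (Function.Embedding.sectR a ι)

def rootB {ι κ : Type} [Fintype ι] (k : ℕ) (B : κ → Finset ι) :
    (Fin k ⊕ Fin k × κ) → Finset (Fin k × ι)
  | Sum.inl _ => ∅
  | Sum.inr (a, e) => (B e).map (Function.Embedding.sectR a ι)

theorem loc_lt {n : ℕ} {ι : Type} [Fintype ι] [Nonempty ι] (p : ι → Fin n) :
    loc Finset.univ p < n := by
  unfold loc
  rw [Finset.sup_lt_iff]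
  · intro i _; exact (p i).2
  · obtain ⟨i⟩ := ‹Nonempty ι›
    exact lt_of_le_of_lt (Nat.zero_le _) (p i).2

theorem skel_root {n k : ℕ} {ι κ : Type} [Fintype ι] [DecidableEq ι] [Nonempty ι] [Fintype κ]
    {Φ : ℕ → R n} {A B : κ → Finset ι} {g : κ → ℕ → ℂ} (hΦ : Rep Φ A B g) (flag : Fin k → Bool)
    (E : Fin k → ℕ → ℂ) :
    ∏ a : Fin k, cj (flag a) (∑ u ∈ Finset.range n, E a u • Φ u) =
      skel (rootA k A) (rootB k B) (nodeG k flag (fun a u => cjn (flag a) (E a u)) g) := by
  classical
  have e1 : ∀ a : Fin k, cj (flag a) (∑ u ∈ Finset.range n, E a u • Φ u) =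
      ∑ p : ι → Fin n, cjn (flag a) (E a (loc Finset.univ p) *
        ∏ e, g e (loc (A e) p - loc (B e) p)) • ∏ i, (xv (p i : ℕ) : R n) := by
    intro a
    rw [← cj_sum_smul]
    congr 1
    have e2 : ∀ u, E a u • Φ u = ∑ p : ι → Fin n, (E a u * (if loc Finset.univ p = u then
        ∏ e, g e (loc (A e) p - loc (B e) p) else 0)) • ∏ i, (xv (p i : ℕ) : R n) := by
      intro u
      rw [hΦ, Finset.smul_sum]
      refine Finset.sum_congr rfl (fun p _ => ?_)
      rw [smul_smul]
    simp only [e2]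
    rw [Finset.sum_comm]
    refine Finset.sum_congr rfl (fun p _ => ?_)
    rw [← Finset.sum_smul]
    congr 1
    rw [Finset.sum_eq_single (loc Finset.univ p)]
    · rw [if_pos rfl]
    · intro u _ hu
      rw [if_neg (Ne.symm hu), mul_zero]
    · intro h
      exact absurd (Finset.mem_range.mpr (loc_lt p)) h
  rw [Finset.prod_congr rfl (fun a _ => e1 a), Finset.prod_univ_sum, Fintype.piFinset_univ]
  unfold skel
  rw [← (Equiv.curry (Fin k) ι (Fin n)).sum_comp]
  refine Finset.sum_congr rfl (fun P _ => ?_)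
  rw [Finset.prod_smul, Fintype.prod_prod_type]
  congr 1
  rw [Fintype.prod_sum_type, Fintype.prod_prod_type, ← Finset.prod_mul_distrib]
  refine Finset.prod_congr rfl (fun a _ => ?_)
  rw [cjn_mul, cjn_prod]
  congr 1
  · simp only [nodeG, rootA, rootB, loc_sectR]
    congr 2
  · refine Finset.prod_congr rfl (fun e _ => ?_)
    simp only [nodeG, rootA, rootB, loc_sectR]
    rfl

end Crest.Agent.R300U
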