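import Crest.Agent.R300.U.AccCode
import Crest.Agent.R300.U.Kernel1D
/-!
Row 300: AccessStatement (owner helper862).
-/
set_option autoImplicit false

namespace Crest.Agent.R300U

open scoped BigOperators
open MeasureTheory

theorem Bd_Pure {n l D : ℕ} (hl : l ≤ D) (ζ : Fin l → ℂ) : ∃ c, Bd D c (Pure ζ : R n) := by
  have key : ∀ u : Fin l → ℕ, Bd D (‖∏ j : Fin l,
      ζ j ^ (if h : (j : ℕ) = 0 then u j else u j - u ⟨j - 1, by omega⟩ - 1)‖ * ∏ _j : Fin l, (1 : ℝ))
      ((∏ j : Fin l, ζ j ^ (if h : (j : ℕ) = 0 then u j else u j - u ⟨j - 1, by omega⟩ - 1)) •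
        ∏ j : Fin l, (xv (u j) : R n)) := by
    intro u
    have h := Bd.prod (Finset.univ : Finset (Fin l)) (fun _ => 1) (fun _ => 1)
      (fun j => (xv (u j) : R n)) (fun j _ => Bd.xv _ le_rfl)
    exact (h.mono_deg (by simpa using hl)).smul _
  exact ⟨_, Bd.sum _ _ _ (fun u _ => key u)⟩

/-- exponential skeletons are known -/
theorem skel_exp_pure_known {n D : ℕ} (E : PE n D) (x : Fin n → Bool) {q b : ℝ} {K : ℕ}
    (hKD : K ≤ D) (hPK : PureKnown E x (1 - q) K (Real.exp (-b)))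
    {ι κ : Type} [Fintype ι] [DecidableEq ι] [Fintype κ]
    (A B : κ → Finset ι) (hAB : ∀ e, B e ⊆ A e) (bb : κ → ℂ) (hb : ∀ e, 0 ≤ (bb e).re)
    (hZ : ∀ T : Finset κ, ‖Complex.exp (-∑ e ∈ T, bb e) - q‖ ≤ 1 - q)
    (hι : Fintype.card ι ≤ K) :
    (∃ c, Bd D c (skel A B (fun e d => Complex.exp (-(bb e * d))) : R n)) ∧
    E.N (dev x (skel A B (fun e d => Complex.exp (-(bb e * d))))) ≤
      (K : ℝ) ^ K * Real.exp (-b) := by
  obtain ⟨J, _, l, c, ζ, hJ, hl, hc, hζ, hskel⟩ := skel_exp (n := n) A B hAB bb hb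
    {z : ℂ | ‖z - q‖ ≤ 1 - q} hZ
  have hlD : ∀ s, l s ≤ D := fun s => ((hl s).trans hι).trans hKD
  choose cc hcc using fun s => Bd_Pure (n := n) (hlD s) (ζ s)
  rw [hskel]
  refine ⟨⟨_, Bd.sum _ _ _ (fun s _ => (hcc s).smul (c s))⟩, ?_⟩
  rw [dev_sum]
  refine (E.N_sum_le _ _ _ (fun s _ => ((hcc s).smul (c s)).dev x)).trans ?_
  have h1 : ∀ s ∈ Finset.univ, E.N (dev x (c s • (Pure (ζ s) : R n))) ≤ Real.exp (-b) := by
    intro s _
    rw [dev_smul, E.N_smul]
    have h2 : E.N (dev x (Pure (ζ s))) ≤ Real.exp (-b) := by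
      apply hPK (l s) ((hl s).trans hι) (ζ s)
      intro j
      have h3 : ‖ζ s j - q‖ ≤ 1 - q := hζ s j
      have h4 : ((1 - (1 - q) : ℝ) : ℂ) = (q : ℂ) := by push_cast; ring
      rw [h4]
      exact h3
    calc ‖c s‖ * E.N (dev x (Pure (ζ s))) ≤ 1 * Real.exp (-b) :=
          mul_le_mul (hc s) h2 (E.N_nonneg _) zero_le_one
      _ = _ := one_mul _
  refine (Finset.sum_le_card_nsmul _ _ _ h1).trans ?_
  rw [nsmul_eq_mul]
  apply mul_le_mul_of_nonneg_right _ (Real.exp_pos _).le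
  have h2 : Fintype.card ι ^ Fintype.card ι ≤ K ^ K := by
    rcases Nat.eq_zero_or_pos (Fintype.card ι) with h0 | h0
    · rw [h0, pow_zero]
      rcases Nat.eq_zero_or_pos K with h1 | h1
      · rw [h1, pow_zero]
      · exact Nat.one_le_pow _ _ h1
    · calc Fintype.card ι ^ Fintype.card ι ≤ K ^ Fintype.card ι := Nat.pow_le_pow_left hι _
        _ ≤ K ^ K := Nat.pow_le_pow_right (h0.trans_le hι) hι
  have h3 : (Finset.univ : Finset J).card ≤ K ^ K := by
    rw [Finset.card_univ]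
    exact hJ.trans h2
  exact_mod_cast h3

/-- superposition: skeletons whose kernels are superpositions of exponentials -/
theorem skel_superpose {n D : ℕ} (E : PE n D) (x : Fin n → Bool) {ι κ : Type} [Fintype ι]
    [DecidableEq ι] [Fintype κ] (A B : κ → Finset ι) (g : κ → ℕ → ℂ) (β φ mass : κ → ℝ)
    (hg : ∀ e, KerRep (g e) (β e) (φ e) (mass e)) (hβ : ∀ e, 0 ≤ β e) {G : ℝ}
    (hexp : ∀ bb : κ → ℂ, (∀ e, ∃ y : ℝ, β e + |y| / 4 ≤ (bb e).re ∧ (bb e).im = y + φ e) →
      (∃ c, Bd D c (skel A B (fun e d => Complex.exp (-(bb e * d))) : R n)) ∧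
      E.N (dev x (skel A B (fun e d => Complex.exp (-(bb e * d))))) ≤ G) :
    E.N (dev x (skel A B g)) ≤ (∏ e, mass e) * G := by
  classical
  choose w hw hm a ha hab hrep using hg
  -- the family of exponents
  set bb : (κ → ℝ) → κ → ℂ := fun y e => ((a e (y e) : ℝ) : ℂ) + Complex.I * ((y e + φ e : ℝ) : ℂ)
    with hbb
  have hbre : ∀ y e, (bb y e).re = a e (y e) := by
    intro y e
    simp [hbb]
  have hbim : ∀ y e, (bb y e).im = y e + φ e := by
    intro y e
    simp [hbb]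
  have hknown := fun y => hexp (bb y) (fun e => ⟨y e, by rw [hbre]; exact hab e (y e), hbim y e⟩)
  have hG0 : 0 ≤ G := (E.N_nonneg _).trans (hknown 0).2
  -- the integrand
  set F : (κ → ℝ) → R n := fun y => (∏ e, w e (y e)) •
    skel A B (fun e d => Complex.exp (-(bb y e * d))) with hF
  -- expansion of the integrand
  have hF2 : ∀ y, F y = ∑ p : ι → Fin n, (∏ e, (w e (y e) *
      Complex.exp (-(((a e (y e) : ℝ) : ℂ) + Complex.I * ((y e + φ e : ℝ) : ℂ)) *
        ((loc (A e) p - loc (B e) p : ℕ) : ℂ)))) • ∏ i, (xv (p i : ℕ) : R n) := by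
    intro y
    rw [hF]
    simp only [skel]
    rw [Finset.smul_sum]
    refine Finset.sum_congr rfl (fun p _ => ?_)
    rw [smul_smul, ← Finset.prod_mul_distrib]
    congr 1
    refine Finset.prod_congr rfl (fun e _ => ?_)
    rw [hbb, neg_mul]
  -- integrability of the one-dimensional factors
  have hint1 : ∀ e (d : ℕ), Integrable (fun y : ℝ => w e y *
      Complex.exp (-(((a e y : ℝ) : ℂ) + Complex.I * ((y + φ e : ℝ) : ℂ)) * (d : ℂ))) := by
    intro e d
    refine Integrable.mul_bdd (c := 1) (hw e) ?_ ?_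
    · have h1 : Measurable (fun y : ℝ => ((a e y : ℝ) : ℂ)) :=
        Complex.measurable_ofReal.comp (ha e)
      have h2 : Measurable (fun y : ℝ => ((y + φ e : ℝ) : ℂ)) :=
        Complex.measurable_ofReal.comp (measurable_id.add_const _)
      have h3 : Measurable (fun y : ℝ => Complex.exp (-(((a e y : ℝ) : ℂ) +
          Complex.I * ((y + φ e : ℝ) : ℂ)) * (d : ℂ))) :=
        Complex.measurable_exp.comp (((h1.add (h2.const_mul _)).neg).mul_const _)
      exact h3.aestronglyMeasurable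
    · refine Filter.Eventually.of_forall (fun y => ?_)
      rw [Complex.norm_exp]
      apply Real.exp_le_one_iff.mpr
      have e1 : (-(((a e y : ℝ) : ℂ) + Complex.I * ((y + φ e : ℝ) : ℂ)) * (d : ℂ)).re =
          -(a e y) * d := by
        have : (-(((a e y : ℝ) : ℂ) + Complex.I * ((y + φ e : ℝ) : ℂ)) * (d : ℂ)) =
          ((-(a e y) * d : ℝ) : ℂ) + ((-(y + φ e) * d : ℝ) : ℂ) * Complex.I := by
          push_cast; ring
        rw [this, Complex.add_re, Complex.ofReal_re, Complex.re_ofReal_mul]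
        simp
      rw [e1]
      have h2 : 0 ≤ a e y := le_trans (add_nonneg (hβ e) (by positivity)) (hab e y)
      have h3 : (0 : ℝ) ≤ d := Nat.cast_nonneg d
      nlinarith
  have hint2 : ∀ p : ι → Fin n, Integrable (fun y : κ → ℝ => (∏ e, (w e (y e) *
      Complex.exp (-(((a e (y e) : ℝ) : ℂ) + Complex.I * ((y e + φ e : ℝ) : ℂ)) *
        ((loc (A e) p - loc (B e) p : ℕ) : ℂ)))) • ∏ i, (xv (p i : ℕ) : R n)) := by
    intro p
    have h := Integrable.fintype_prod (𝕜 := ℂ) (μ := fun _ : κ => (volume : Measure ℝ))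
      (f := fun e (y : ℝ) => w e y * Complex.exp (-(((a e y : ℝ) : ℂ) +
        Complex.I * ((y + φ e : ℝ) : ℂ)) * ((loc (A e) p - loc (B e) p : ℕ) : ℂ)))
      (fun e => hint1 e _)
    exact h.smul_const _
  have hFint : Integrable F := by
    have : F = fun y => ∑ p : ι → Fin n, (∏ e, (w e (y e) *
      Complex.exp (-(((a e (y e) : ℝ) : ℂ) + Complex.I * ((y e + φ e : ℝ) : ℂ)) *
        ((loc (A e) p - loc (B e) p : ℕ) : ℂ)))) • ∏ i, (xv (p i : ℕ) : R n) := by
      funext y; exact hF2 y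
    rw [this]
    exact integrable_finsetSum _ (fun p _ => hint2 p)
  have hFval : ∫ y, F y = (skel A B g : R n) := by
    have e1 : ∫ y, F y = ∫ y : κ → ℝ, ∑ p : ι → Fin n, (∏ e, (w e (y e) *
      Complex.exp (-(((a e (y e) : ℝ) : ℂ) + Complex.I * ((y e + φ e : ℝ) : ℂ)) *
        ((loc (A e) p - loc (B e) p : ℕ) : ℂ)))) • ∏ i, (xv (p i : ℕ) : R n) := by
      congr 1; funext y; exact hF2 y
    rw [e1, integral_finsetSum _ (fun p _ => hint2 p)]
    unfold skel
    refine Finset.sum_congr rfl (fun p _ => ?_)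
    rw [integral_smul_const]
    congr 1
    rw [integral_fintype_prod_volume_eq_prod (fun e (y : ℝ) => w e y *
      Complex.exp (-(((a e y : ℝ) : ℂ) +
        Complex.I * ((y + φ e : ℝ) : ℂ)) * ((loc (A e) p - loc (B e) p : ℕ) : ℂ)))]
    refine Finset.prod_congr rfl (fun e _ => ?_)
    rw [hrep e]
  rw [← hFval, dev_integral x hFint]
  have hdevint : Integrable (fun y => dev x (F y)) := by
    have h1 : ∀ P : R n, dev x P = P - cst (P x) := fun P => rfl
    simp only [h1]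
    refine hFint.sub ?_
    have h2 : ∀ z : ℂ, (cst z : R n) = z • 1 := fun z => cst_eq_smul z
    simp only [h2]
    refine Integrable.smul_const ?_ _
    exact (ContinuousLinearMap.proj (R := ℂ) x : (R n) →L[ℂ] ℂ).integrable_comp hFint
  have hgint : Integrable (fun y : κ → ℝ => (∏ e, ‖w e (y e)‖) * G) := by
    have h := Integrable.fintype_prod (𝕜 := ℝ) (μ := fun _ : κ => (volume : Measure ℝ))
      (f := fun e (y : ℝ) => ‖w e y‖) (fun e => (hw e).norm)
    exact h.mul_const G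
  refine (E.N_integral_le hdevint ?_ hgint (Filter.Eventually.of_forall ?_)).trans ?_
  · intro y
    obtain ⟨⟨c, hc⟩, _⟩ := hknown y
    exact ⟨_, (hc.smul (∏ e, w e (y e))).dev x⟩
  · intro y
    show E.N (dev x (F y)) ≤ _
    rw [hF, dev_smul, E.N_smul, norm_prod]
    exact mul_le_mul_of_nonneg_left (hknown y).2 (Finset.prod_nonneg fun _ _ => norm_nonneg _)
  · rw [integral_mul_const]
    apply mul_le_mul_of_nonneg_right _ hG0
    rw [integral_fintype_prod_volume_eq_prod (fun e (y : ℝ) => ‖w e y‖)]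
    exact Finset.prod_le_prod (fun e _ => integral_nonneg fun _ => norm_nonneg _)
      (fun e _ => hm e)

/-- log-mass per edge -/
noncomputable def lmass (s : Sched) (n : ℕ) (j : ℕ) : ℝ :=
  1 + 2 * s.β j ^ 2 / s.τ j + 600 * s.A j + if j = 0 then s.β 0 * n + n ^ 2 * s.τ 0 else 0

/-- the kernel class used in the access theorem -/
def AKer (s : Sched) (n : ℕ) (j : ℕ) (g : ℕ → ℂ) : Prop :=
  ∃ φ : ℝ, |φ| ≤ 2 * s.r j ∧ KerRep g (s.β j) φ (Real.exp (lmass s n j))

theorem KerRep.mono {g : ℕ → ℂ} {β φ m m' : ℝ} (h : KerRep g β φ m) (hm : m ≤ m') :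
    KerRep g β φ m' := by
  obtain ⟨w, h1, h2, h3⟩ := h
  exact ⟨w, h1, h2.trans hm, h3⟩

theorem two_le_exp_one : (2 : ℝ) ≤ Real.exp 1 := by
  have := Real.add_one_le_exp (1 : ℝ)
  linarith

theorem aker_class (s : Sched) (n : ℕ)
    (hs : ∀ j ≤ s.h, 0 < s.τ j ∧ 1 ≤ s.A j ∧ 0 ≤ s.β j ∧ 0 ≤ s.r j) : KerClass s (AKer s n) := by
  constructor
  · rintro j g ⟨φ, h1, h2⟩
    exact ⟨-φ, by rwa [abs_neg], h2.conj⟩
  · intro j hj1 hjh ρ f hρ hf
    obtain ⟨hτ, hA, hβ, hr⟩ := hs j hjh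
    refine ⟨-f, by rwa [abs_neg], (kerRep_child hτ ρ f).mono ?_⟩
    have h1 : (s.β j + max ρ 0) ^ 2 / s.τ j ≤ 2 * s.β j ^ 2 / s.τ j + 600 * s.A j := by
      have h2 : max ρ 0 ≤ 12 * Real.sqrt (2 * s.A j * s.τ j) :=
        max_le hρ (by positivity)
      have h3 : (max ρ 0) ^ 2 ≤ 144 * (2 * s.A j * s.τ j) := by
        have h4 : (max ρ 0) ^ 2 ≤ (12 * Real.sqrt (2 * s.A j * s.τ j)) ^ 2 :=
          pow_le_pow_left₀ (le_max_right _ _) h2 2
        rw [mul_pow, Real.sq_sqrt (by positivity)] at h4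
        linarith
      rw [div_add' _ _ _ hτ.ne', div_le_div_iff_of_pos_right hτ]
      have h5 : 0 ≤ s.A j * s.τ j := by positivity
      nlinarith [sq_nonneg (s.β j - max ρ 0)]
    have h6 : lmass s n j = 1 + (2 * s.β j ^ 2 / s.τ j + 600 * s.A j) := by
      unfold lmass
      rw [if_neg (by omega)]
      ring
    rw [h6, Real.exp_add 1]
    exact mul_le_mul two_le_exp_one (Real.exp_le_exp.mpr h1) (Real.exp_pos _).le
      (Real.exp_pos _).le

theorem aker_root (s : Sched) {n t : ℕ} (ht : t ≤ n)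
    (hs : 0 < s.τ 0 ∧ 1 ≤ s.A 0 ∧ 0 ≤ s.β 0 ∧ 0 ≤ s.r 0) {ν : ℝ} (hν : |ν| ≤ s.r 0) :
    AKer s n 0 (fun u : ℕ => Complex.exp (-(s.τ 0 * ((u : ℝ) - t) ^ 2 / 2 : ℝ) +
      Complex.I * ν * ((u : ℂ) - t))) := by
  obtain ⟨hτ, hA, hβ, hr⟩ := hs
  refine ⟨-ν, by rw [abs_neg]; linarith, (kerRep_root hτ hβ ν ht).mono ?_⟩
  have h6 : lmass s n 0 = 1 + (2 * s.β 0 ^ 2 / s.τ 0 + s.β 0 * n + n ^ 2 * s.τ 0 + 600 * s.A 0) := by
    unfold lmass
    rw [if_pos rfl]
    ring
  rw [h6, Real.exp_add 1]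
  refine mul_le_mul two_le_exp_one (Real.exp_le_exp.mpr ?_) (Real.exp_pos _).le
      (Real.exp_pos _).le
  linarith

/-- level counting of sums over edges -/
theorem sum_lev_le {κ : Type} [Fintype κ] (h : ℕ) (lev : κ → ℕ) (hlev : ∀ e, lev e ≤ h)
    (hcnt : ∀ i, (Finset.univ.filter (fun e => lev e = i)).card ≤ 4 ^ (i + 1)) (M : ℕ → ℝ)
    (hM : ∀ i ≤ h, 0 ≤ M i) :
    ∑ e, M (lev e) ≤ ∑ i ∈ Finset.range (h + 1), (4 : ℝ) ^ (i + 1) * M i := by
  classical
  rw [← Finset.sum_fiberwise_of_maps_to (s := Finset.univ) (t := Finset.range (h + 1)) (g := lev)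
    (fun e _ => Finset.mem_range.mpr (Nat.lt_succ_of_le (hlev e)))]
  refine Finset.sum_le_sum (fun i hi => ?_)
  have h1 : ∑ e ∈ Finset.univ.filter (fun e => lev e = i), M (lev e) =
      ∑ e ∈ Finset.univ.filter (fun e => lev e = i), M i := by
    refine Finset.sum_congr rfl (fun e he => ?_)
    rw [(Finset.mem_filter.mp he).2]
  rw [h1, Finset.sum_const, nsmul_eq_mul]
  apply mul_le_mul_of_nonneg_right _ (hM i (by rw [Finset.mem_range] at hi; omega))
  exact_mod_cast hcnt i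

theorem access : AccessStatement := by
  intro n D E x t q s c b hq0 hq ht hD hs hadm hPK hcost k hk2 hk4 flag ν hν _
  have hs' : ∀ j ≤ s.h, 0 < s.τ j ∧ 1 ≤ s.A j ∧ 0 ≤ s.β j ∧ 0 ≤ s.r j := fun j hj =>
    ⟨(hs j hj).1, (hs j hj).2.1, (hs j hj).2.2.1, (hs j hj).2.2.2.1⟩
  obtain ⟨ι, κ, _, _, _, _, A, B, g, lev, hcard, hBA, hlev, hcnt, hg, hrep⟩ :=
    top_rep (aker_class s n hs') hadm (by omega) hk4 flag
      (fun a u => Complex.exp (-(s.τ 0 * ((u : ℝ) - t) ^ 2 / 2 : ℝ) +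
        Complex.I * (ν a) * ((u : ℂ) - t)))
      (fun a => aker_root s ht (hs' 0 (Nat.zero_le _)) (hν a))
  have hPr : (Pr c t (s.τ 0) flag ν : R n) = skel A B g := hrep n
  rw [hPr]
  choose φ hφ hker using hg
  have hnn : ∀ i ≤ s.h, 0 ≤ lmass s n i := by
    intro i hi
    obtain ⟨h1, h2, h3, h4⟩ := hs' i hi
    have h5 : 0 ≤ (if i = 0 then s.β 0 * n + n ^ 2 * s.τ 0 else 0 : ℝ) := by
      split_ifs with h0
      · subst h0; positivity
      · exact le_rfl
    unfold lmass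
    have : 0 ≤ 2 * s.β i ^ 2 / s.τ i := by positivity
    linarith
  have hKD : 4 ^ (s.h + 1) ≤ D := by omega
  have hexp : ∀ bb : κ → ℂ, (∀ e, ∃ y : ℝ, s.β (lev e) + |y| / 4 ≤ (bb e).re ∧
      (bb e).im = y + φ e) →
      (∃ c, Bd D c (skel A B (fun e d => Complex.exp (-(bb e * d))) : R n)) ∧
      E.N (dev x (skel A B (fun e d => Complex.exp (-(bb e * d))))) ≤
        ((4 ^ (s.h + 1) : ℕ) : ℝ) ^ (4 ^ (s.h + 1)) * Real.exp (-b) := by
    intro bb hbb
    apply skel_exp_pure_known E x hKD hPK A B hBA bb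
    · intro e
      obtain ⟨y, h1, h2⟩ := hbb e
      have := (hs' (lev e) (hlev e)).2.2.1
      have h3 := abs_nonneg y
      linarith
    · intro T
      have h1 := prod_exp_mem_disc T hq0.le (by linarith : q ≤ 1 / 8)
        (fun e => ((s.h : ℝ) + 1) * 4 ^ (lev e + 1)) bb (fun e _ => by positivity) ?_ ?_
      · rw [← Complex.exp_sum, Finset.sum_neg_distrib] at h1
        exact h1
      · calc ∑ e ∈ T, 1 / (((s.h : ℝ) + 1) * 4 ^ (lev e + 1))
            ≤ ∑ e, 1 / (((s.h : ℝ) + 1) * 4 ^ (lev e + 1)) :=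
              Finset.sum_le_sum_of_subset_of_nonneg (Finset.subset_univ _)
                (fun e _ _ => by positivity)
          _ ≤ ∑ i ∈ Finset.range (s.h + 1), (4 : ℝ) ^ (i + 1) *
                (1 / (((s.h : ℝ) + 1) * 4 ^ (i + 1))) :=
              sum_lev_le s.h lev hlev hcnt (fun i => 1 / (((s.h : ℝ) + 1) * 4 ^ (i + 1)))
                (fun i _ => by positivity)
          _ = ∑ i ∈ Finset.range (s.h + 1), 1 / ((s.h : ℝ) + 1) := by
              refine Finset.sum_congr rfl (fun i _ => ?_)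
              field_simp
          _ = 1 := by
              rw [Finset.sum_const, Finset.card_range, nsmul_eq_mul]
              push_cast
              field_simp
          _ ≤ 1 := le_rfl
      · intro e _
        obtain ⟨y, h1, h2⟩ := hbb e
        obtain ⟨U, V, h3, h4⟩ := edge_rule (y := y) (f := -φ e) hq0.le hq
          (lam := ((s.h : ℝ) + 1) * 4 ^ (lev e + 1)) (by positivity)
          (by rw [abs_neg]; exact hφ e) (hs (lev e) (hlev e)).2.2.2.2
        exact ⟨U, V, by rw [h3, h2]; ring, h4.trans h1⟩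
    · exact hcard
  have h1 := skel_superpose E x A B g (fun e => s.β (lev e)) φ
    (fun e => Real.exp (lmass s n (lev e))) hker
    (fun e => (hs' (lev e) (hlev e)).2.2.1) hexp
  refine h1.trans ?_
  -- the masses
  rw [← Real.exp_sum]
  have h2 := sum_lev_le s.h lev hlev hcnt (lmass s n) hnn
  have h3 : ∑ i ∈ Finset.range (s.h + 1), (4 : ℝ) ^ (i + 1) * lmass s n i ≤
      4 * (s.β 0 * n + n ^ 2 * s.τ 0) + ∑ j ∈ Finset.range (s.h + 1), (4 : ℝ) ^ (j + 1) *
      (2 + 2 * s.β j ^ 2 / s.τ j + 600 * s.A j) := by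
    have h4 : ∀ i, (4 : ℝ) ^ (i + 1) * lmass s n i =
        (4 : ℝ) ^ (i + 1) * (if i = 0 then s.β 0 * n + n ^ 2 * s.τ 0 else 0) +
        (4 : ℝ) ^ (i + 1) * (1 + 2 * s.β i ^ 2 / s.τ i + 600 * s.A i) := by
      intro i; unfold lmass; ring
    simp only [h4]
    rw [Finset.sum_add_distrib]
    apply add_le_add
    · rw [Finset.sum_eq_single 0]
      · simp
      · intro i _ hi
        rw [if_neg hi, mul_zero]
      · intro h
        exact absurd (Finset.mem_range.mpr (by omega)) h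
    · refine Finset.sum_le_sum (fun i _ => ?_)
      apply mul_le_mul_of_nonneg_left _ (by positivity)
      linarith
  have hcodes : ∀ (c : Code) (j : ℕ), Adm s j c → 1 ≤ j → ∀ nd ∈ c, 0 < nd.τ ∧ 1 ≤ nd.k := by
    intro c
    induction c with
    | nil => intro j _ _ nd hnd; cases hnd
    | cons nd' c ih =>
      intro j hj hj1 nd hnd
      obtain ⟨a1, a2, a3, a4, a5, a6⟩ := hj
      have hle := Adm.le a6
      rcases List.mem_cons.mp hnd with h | h
      · subst h
        refine ⟨?_, by omega⟩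
        rw [a3]
        exact (hs' j (by omega)).1
      · exact ih (j + 1) a6 (by omega) nd h
  have h5 : 1 ≤ nrm c := one_le_nrm (hcodes c 1 hadm le_rfl)
  have h6 : 1 ≤ (nrm c * Wt (s.τ 0)) ^ k := by
    apply one_le_pow₀
    calc (1 : ℝ) = 1 * 1 := (one_mul 1).symm
      _ ≤ nrm c * Wt (s.τ 0) := mul_le_mul h5 one_le_Wt zero_le_one (by linarith)
  have h7 : ((4 ^ (s.h + 1) : ℕ) : ℝ) ^ (4 ^ (s.h + 1)) =
      Real.exp ((4 : ℝ) ^ (s.h + 1) * Real.log ((4 : ℝ) ^ (s.h + 1))) := by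
    rw [mul_comm, Real.exp_mul, Real.exp_log (by positivity)]
    push_cast
    rw [← Real.rpow_natCast]
    push_cast
    rfl
  have h8 : ∑ j ∈ Finset.range (s.h + 1), (4 : ℝ) ^ (j + 1) *
      (2 + 2 * s.β j ^ 2 / s.τ j + 600 * s.A j) ≤ ∑ j ∈ Finset.range (s.h + 1), (4 : ℝ) ^ (j + 1) *
      (10 + 2 * s.β j ^ 2 / s.τ j + 600 * s.A j + 10 * |Real.log (s.τ j)|) := by
    refine Finset.sum_le_sum (fun i _ => ?_)
    apply mul_le_mul_of_nonneg_left _ (by positivity)
    have := abs_nonneg (Real.log (s.τ i))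
    linarith
  have h9 : (4 : ℝ) ^ (s.h + 1) * Real.log ((4 : ℝ) ^ (s.h + 1)) ≤
      100 * ((s.h : ℝ) + 1) * (4 : ℝ) ^ (s.h + 1) := by
    rw [Real.log_pow, mul_comm]
    apply mul_le_mul_of_nonneg_right _ (by positivity)
    have h10 : Real.log 4 ≤ 4 - 1 := Real.log_le_sub_one_of_pos (by norm_num)
    push_cast
    have h11 : (0 : ℝ) ≤ (s.h : ℝ) + 1 := by positivity
    nlinarith
  rw [h7, ← Real.exp_add, ← Real.exp_add]
  calc Real.exp _ ≤ Real.exp (-s.A 0) * 1 := by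
        rw [mul_one]
        apply Real.exp_le_exp.mpr
        unfold Sched.cost at hcost
        linarith
    _ ≤ _ := mul_le_mul_of_nonneg_left h6 (Real.exp_pos _).le

end Crest.Agent.R300U
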