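import Crest.Agent.R300.U.Calc
import Crest.Agent.R300.ChainCore

/-!
# Row 300, upper bound: the L² chain for windowed transforms
-/

set_option autoImplicit false

namespace Crest.Agent.R300U

namespace Ch

open Crest.Agent

variable {n D : ℕ}

theorem mono_eq (S : Finset (Fin n)) : (mono S : R n) = R300.mon S := by
  funext x
  rw [R300.mon_eq_ite]
  unfold mono
  split_ifs <;> rfl

theorem bd {d : ℕ} {c : ℝ} {P : R n} (h : Bd d c P) : R300.Bd d c P := by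
  obtain ⟨a, h1, h2, h3⟩ := h
  refine ⟨a, fun S hS => ⟨Finset.subset_univ _, ?_⟩, ?_, h2⟩
  · by_contra hc
    exact hS (h1 S (by omega))
  · rw [h3]
    exact Finset.sum_congr rfl fun S _ => by rw [mono_eq]

theorem bd' {d : ℕ} {c : ℝ} {P : R n} (h : R300.Bd d c P) : Bd d c P := by
  obtain ⟨a, h1, h2, h3⟩ := h
  refine ⟨a, fun S hS => ?_, h3, ?_⟩
  · by_contra hc
    have := (h1 S hc).2
    omega
  · rw [h2]
    exact Finset.sum_congr rfl fun S _ => by rw [mono_eq]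

/-- the pseudo-expectation in the sense of `R300.PE`. -/
noncomputable def pe (E : PE n D) : R300.PE (Fin n) D :=
  ⟨E.L, E.one, E.herm, fun P ⟨c, hc⟩ => E.pos P c (bd' hc)⟩

theorem pe_N (E : PE n D) (P : R n) : (pe E).N P = E.N P := rfl

theorem dv_eq (x : Fin n → Bool) (P : R n) : R300.PE.dv x P = dev x P := rfl

end Ch

section

variable {n D : ℕ} (E : PE n D) (x : Fin n → Bool) (t : ℕ) (c : Code) (τ r η A : ℝ)

/-- normalised transform -/
noncomputable def Vn (c : Code) (t : ℕ) (τ ν : ℝ) : R n :=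
  (((nrm c * Wt τ)⁻¹ : ℝ) : ℂ) • V c t τ ν

variable {c τ}

theorem nrmWt_pos (hc : ∀ nd ∈ c, 0 < nd.τ ∧ 1 ≤ nd.k) : 0 < nrm c * Wt τ :=
  mul_pos (nrm_pos hc) Wt_pos

theorem Vn_Bd (hc : ∀ nd ∈ c, 0 < nd.τ ∧ 1 ≤ nd.k) (hτ : 0 < τ) (ν : ℝ) :
    Bd (leaves c) 1 (Vn c t τ ν : R n) := by
  have hW : 0 < nrm c * Wt τ := nrmWt_pos hc
  have := (V_Bd (n := n) hc t hτ ν).smul (((nrm c * Wt τ)⁻¹ : ℝ) : ℂ)
  refine this.mono_mass ?_
  rw [Complex.norm_real, Real.norm_eq_abs, abs_of_pos (inv_pos.2 hW), inv_mul_cancel₀ hW.ne']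

theorem norm_Vn (hc : ∀ nd ∈ c, 0 < nd.τ ∧ 1 ≤ nd.k) (ν : ℝ) :
    ‖(Vn c t τ ν : R n) x‖ = ‖(V c t τ ν : R n) x‖ / (nrm c * Wt τ) := by
  have hW : 0 < nrm c * Wt τ := nrmWt_pos hc
  unfold Vn
  rw [Pi.smul_apply, norm_smul, Complex.norm_real, Real.norm_eq_abs, abs_of_pos (inv_pos.2 hW)]
  ring

theorem dev_V_eq_Vn (hc : ∀ nd ∈ c, 0 < nd.τ ∧ 1 ≤ nd.k) (ν : ℝ) :
    E.N (dev x (V c t τ ν)) = (nrm c * Wt τ) * E.N (dev x (Vn c t τ ν)) := by
  have hW : 0 < nrm c * Wt τ := nrmWt_pos hc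
  have e : (Vn c t τ ν : R n) = (((nrm c * Wt τ)⁻¹ : ℝ) : ℂ) • V c t τ ν := rfl
  rw [e, dev_smul, E.N_smul, Complex.norm_real, Real.norm_eq_abs, abs_of_pos (inv_pos.2 hW),
    ← mul_assoc, mul_inv_cancel₀ hW.ne', one_mul]

variable {E x t r η A}

theorem prod2 (hc : ∀ nd ∈ c, 0 < nd.τ ∧ 1 ≤ nd.k) (h : ProdKnown E x t c τ r η A) {a b : ℝ}
    (ha : |a| ≤ r) (hb : |b| ≤ r) (hab : |a - b| ≤ η) :
    E.N (dev x (Vn c t τ a * star (Vn c t τ b))) ≤ Real.exp (-A) := by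
  have hW : 0 < nrm c * Wt τ := nrmWt_pos hc
  set W := nrm c * Wt τ with hWdef
  have h2 := h 2 le_rfl (by norm_num) ![false, true] ![a, b]
    (by intro i; fin_cases i <;> simpa) (by
      simpa [tot, Fin.sum_univ_two, sub_eq_add_neg] using hab)
  have e1 : (Pr c t τ ![false, true] ![a, b] : R n) = V c t τ a * star (V c t τ b) := by
    simp [Pr, Fin.prod_univ_two, cj]
  rw [e1] at h2
  have e2 : (Vn c t τ a * star (Vn c t τ b) : R n)
      = (((W⁻¹) ^ 2 : ℝ) : ℂ) • (V c t τ a * star (V c t τ b)) := by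
    funext y
    simp only [Vn, Pi.mul_apply, Pi.star_apply, Pi.smul_apply, smul_eq_mul, star_mul', ← hWdef]
    have : star (((W⁻¹ : ℝ)) : ℂ) = ((W⁻¹ : ℝ) : ℂ) := Complex.conj_ofReal _
    rw [this]
    push_cast
    ring
  rw [e2, dev_smul, E.N_smul, Complex.norm_real, Real.norm_eq_abs, abs_of_pos (by positivity)]
  calc (W⁻¹) ^ 2 * E.N (dev x (V c t τ a * star (V c t τ b)))
      ≤ (W⁻¹) ^ 2 * (Real.exp (-A) * W ^ 2) := mul_le_mul_of_nonneg_left h2 (by positivity)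
    _ = Real.exp (-A) := by field_simp

theorem prod3 (hc : ∀ nd ∈ c, 0 < nd.τ ∧ 1 ≤ nd.k) (h : ProdKnown E x t c τ r η A) {a b e : ℝ}
    (ha : |a| ≤ r) (hb : |b| ≤ r) (he : |e| ≤ r) (hab : |a - b + e| ≤ η) :
    E.N (dev x (Vn c t τ a * star (Vn c t τ b) * Vn c t τ e)) ≤ Real.exp (-A) := by
  have hW : 0 < nrm c * Wt τ := nrmWt_pos hc
  set W := nrm c * Wt τ with hWdef
  have h2 := h 3 (by norm_num) (by norm_num) ![false, true, false] ![a, b, e]
    (by intro i; fin_cases i <;> simpa) (by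
      simpa [tot, Fin.sum_univ_three, sub_eq_add_neg] using hab)
  have e1 : (Pr c t τ ![false, true, false] ![a, b, e] : R n)
      = V c t τ a * star (V c t τ b) * V c t τ e := by
    simp [Pr, Fin.prod_univ_three, cj]
  rw [e1] at h2
  have e2 : (Vn c t τ a * star (Vn c t τ b) * Vn c t τ e : R n)
      = (((W⁻¹) ^ 3 : ℝ) : ℂ) • (V c t τ a * star (V c t τ b) * V c t τ e) := by
    funext y
    simp only [Vn, Pi.mul_apply, Pi.star_apply, Pi.smul_apply, smul_eq_mul, star_mul', ← hWdef]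
    have : star (((W⁻¹ : ℝ)) : ℂ) = ((W⁻¹ : ℝ) : ℂ) := Complex.conj_ofReal _
    rw [this]
    push_cast
    ring
  rw [e2, dev_smul, E.N_smul, Complex.norm_real, Real.norm_eq_abs, abs_of_pos (by positivity)]
  calc (W⁻¹) ^ 3 * E.N (dev x (V c t τ a * star (V c t τ b) * V c t τ e))
      ≤ (W⁻¹) ^ 3 * (Real.exp (-A) * W ^ 3) := mul_le_mul_of_nonneg_left h2 (by positivity)
    _ = Real.exp (-A) := by field_simp

theorem prod4 (hc : ∀ nd ∈ c, 0 < nd.τ ∧ 1 ≤ nd.k) (h : ProdKnown E x t c τ r η A)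
    {a b e f : ℝ} (ha : |a| ≤ r) (hb : |b| ≤ r) (he : |e| ≤ r) (hf : |f| ≤ r)
    (hab : |a - b - e + f| ≤ η) :
    E.N (dev x (Vn c t τ a * star (Vn c t τ b) * (star (Vn c t τ e) * Vn c t τ f)))
      ≤ Real.exp (-A) := by
  have hW : 0 < nrm c * Wt τ := nrmWt_pos hc
  set W := nrm c * Wt τ with hWdef
  have h2 := h 4 (by norm_num) le_rfl ![false, true, true, false] ![a, b, e, f]
    (by intro i; fin_cases i <;> simpa) (by
      simpa [tot, Fin.sum_univ_four, sub_eq_add_neg] using hab)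
  have e1 : (Pr c t τ ![false, true, true, false] ![a, b, e, f] : R n)
      = V c t τ a * star (V c t τ b) * (star (V c t τ e) * V c t τ f) := by
    simp [Pr, Fin.prod_univ_four, cj, mul_assoc]
  rw [e1] at h2
  have e2 : (Vn c t τ a * star (Vn c t τ b) * (star (Vn c t τ e) * Vn c t τ f) : R n)
      = (((W⁻¹) ^ 4 : ℝ) : ℂ) • (V c t τ a * star (V c t τ b) *
        (star (V c t τ e) * V c t τ f)) := by
    funext y
    simp only [Vn, Pi.mul_apply, Pi.star_apply, Pi.smul_apply, smul_eq_mul, star_mul', ← hWdef]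
    have : star (((W⁻¹ : ℝ)) : ℂ) = ((W⁻¹ : ℝ) : ℂ) := Complex.conj_ofReal _
    rw [this]
    push_cast
    ring
  rw [e2, dev_smul, E.N_smul, Complex.norm_real, Real.norm_eq_abs, abs_of_pos (by positivity)]
  calc (W⁻¹) ^ 4 * E.N (dev x (V c t τ a * star (V c t τ b) * (star (V c t τ e) * V c t τ f)))
      ≤ (W⁻¹) ^ 4 * (Real.exp (-A) * W ^ 4) := mul_le_mul_of_nonneg_left h2 (by positivity)
    _ = Real.exp (-A) := by field_simp

end

/-- The chain in L². -/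
theorem chain_bound {n D : ℕ} (E : PE n D) (x : Fin n → Bool) (t : ℕ) (c : Code)
    (τ r η A g : ℝ) (hc : ∀ nd ∈ c, 0 < nd.τ ∧ 1 ≤ nd.k) (hD : 6 * leaves c ≤ D) (hτ : 0 < τ)
    (hη : 0 < η) (hg : 0 ≤ g) (h : ProdKnown E x t c τ r η A) (k : ℕ)
    (hp : ∀ j ≤ k, ∃ y : ℝ, |y| ≤ r ∧ |y + j * η| ≤ r ∧
      Real.exp (-g) * (nrm c * Wt τ) ^ 2 ≤
        ‖(V c t τ y : R n) x‖ * ‖(V c t τ (y + j * η) : R n) x‖)
    {ν : ℝ} (hν : |ν| ≤ r) (hk : |(|ν|) - k * η| ≤ η) :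
    E.N (dev x (V c t τ ν)) ≤ 4 * (k + 2) * Real.exp (-A + 3 * g) * (nrm c * Wt τ) *
      max (‖(V c t τ ν : R n) x‖ / (nrm c * Wt τ)) (Real.exp (-g)) := by
  have hW : 0 < nrm c * Wt τ := nrmWt_pos hc
  have hp' : ∀ j : ℕ, ∃ y : ℝ, j ≤ k → |y| ≤ r ∧ |y + j * η| ≤ r ∧
      Real.exp (-g) * (nrm c * Wt τ) ^ 2 ≤
        ‖(V c t τ y : R n) x‖ * ‖(V c t τ (y + j * η) : R n) x‖ := by
    intro j
    by_cases hj : j ≤ k
    · obtain ⟨y, hy⟩ := hp j hj
      exact ⟨y, fun _ => hy⟩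
    · exact ⟨0, fun h => absurd h hj⟩
  choose y hy using hp'
  set m := leaves c with hm
  set ϱ := Real.exp (-g) with hϱ
  have hϱ0 : 0 < ϱ := Real.exp_pos _
  have hϱ1 : ϱ ≤ 1 := Real.exp_le_one_iff.2 (by linarith)
  set ε := Real.exp (-A) with hε
  have hε0 : 0 ≤ ε := (Real.exp_pos _).le
  have hbd : ∀ ν, Crest.Agent.R300.Bd m 1 (Vn c t τ ν : R n) := fun ν => Ch.bd (Vn_Bd t hc hτ ν)
  set F : ℕ → R n := fun j => Vn c t τ (y j + j * η) * star (Vn c t τ (y j)) with hF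
  have hFbd : ∀ j ≤ k, Crest.Agent.R300.Bd (2 * m) 1 (F j) := by
    intro j _
    have := (hbd (y j + j * η)).mul (hbd (y j)).star
    rw [mul_one, ← two_mul] at this
    exact this
  have hFx : ∀ j ≤ k, ϱ ≤ ‖F j x‖ := by
    intro j hj
    have h1 := (hy j hj).2.2
    simp only [hF, Pi.mul_apply, Pi.star_apply, norm_mul, norm_star]
    rw [norm_Vn x t hc, norm_Vn x t hc, div_mul_div_comm, le_div_iff₀ (by positivity), ← pow_two]
    rw [mul_comm ‖(V c t τ (y j + j * η) : R n) x‖]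
    exact h1
  have hchain := (Ch.pe E).ratio_chain (m := m) hD (x := x) (F := F) (k := k) (ε := ε) (ϱ := ϱ)
    hFbd hε0 hϱ0 hϱ1 hFx
    (by
      have h1 := hy 0 (Nat.zero_le _)
      exact prod2 hc h h1.2.1 h1.1 (by simpa using hη.le))
    (by
      intro j hj
      have h1 := hy j hj
      have h2 := prod4 hc h h1.2.1 h1.1 h1.2.1 h1.1 (by
        rw [show y j + j * η - y j - (y j + j * η) + y j = 0 by ring]
        simpa using hη.le)
      have e : star (F j) * F j = Vn c t τ (y j + j * η) * star (Vn c t τ (y j)) *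
          (star (Vn c t τ (y j + j * η)) * Vn c t τ (y j)) := by
        simp only [hF, star_mul', star_star]
        ring
      rw [Ch.dv_eq, Ch.pe_N, e]
      exact h2)
    (by
      intro j hj
      have h1 := hy j hj.le
      have h1' := hy (j + 1) hj
      have h2 := prod4 hc h h1'.2.1 h1'.1 h1.2.1 h1.1 (by
        rw [show y (j + 1) + ((j + 1 : ℕ) : ℝ) * η - y (j + 1) - (y j + j * η) + y j = η by
          push_cast; ring]
        rw [abs_of_pos hη])
      have e : F (j + 1) * star (F j) =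
          Vn c t τ (y (j + 1) + ((j + 1 : ℕ) : ℝ) * η) * star (Vn c t τ (y (j + 1))) *
          (star (Vn c t τ (y j + j * η)) * Vn c t τ (y j)) := by
        simp only [hF, star_mul', star_star]
      rw [Ch.dv_eq, Ch.pe_N, e]
      exact h2) k le_rfl
  have hyk := hy k le_rfl
  have h4k : E.N (dev x (star (F k) * F k)) ≤ ε := by
    have h2 := prod4 hc h hyk.2.1 hyk.1 hyk.2.1 hyk.1 (by
      rw [show y k + k * η - y k - (y k + k * η) + y k = 0 by ring]
      simpa using hη.le)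
    have e : star (F k) * F k = Vn c t τ (y k + k * η) * star (Vn c t τ (y k)) *
        (star (Vn c t τ (y k + k * η)) * Vn c t τ (y k)) := by
      simp only [hF, star_mul', star_star]
      ring
    rw [e]
    exact h2
  have hrec : E.N (dev x (Vn c t τ ν)) ≤
      2 * ε / ϱ ^ 2 + ‖(Vn c t τ ν : R n) x‖ * ((2 * k + 1) * (ε / ϱ ^ 3)) := by
    rcases le_or_gt 0 ν with hpos | hneg
    · refine (Ch.pe E).recover (m := m) hD (x := x) (V := Vn c t τ ν) (F := F k) (hbd ν)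
        (hFbd k le_rfl) hε0 hϱ0 (hFx k le_rfl) h4k ?_ hchain
      have h3 := prod3 hc h hν hyk.2.1 hyk.1 (by
        rw [abs_of_nonneg hpos] at hk
        rwa [show ν - (y k + k * η) + y k = ν - k * η by ring])
      have e : Vn c t τ ν * star (F k) =
          Vn c t τ ν * star (Vn c t τ (y k + k * η)) * Vn c t τ (y k) := by
        simp only [hF, star_mul', star_star]
        ring
      rw [Ch.dv_eq, Ch.pe_N, e]
      exact h3
    · have hstar : (Ch.pe E).N ((star (F k) x)⁻¹ • star (F k) - 1) ≤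
          (2 * k + 1) * (ε / ϱ ^ 3) := by
        rw [R300.PE.star_ratio]
        exact hchain
      refine (Ch.pe E).recover (m := m) hD (x := x) (V := Vn c t τ ν) (F := star (F k)) (hbd ν)
        (hFbd k le_rfl).star hε0 hϱ0 ?_ ?_ ?_ hstar
      · rw [Pi.star_apply, norm_star]
        exact hFx k le_rfl
      · rw [star_star, mul_comm]
        exact h4k
      · rw [star_star]
        have h3 := prod3 hc h hν hyk.1 hyk.2.1 (by
          rw [abs_of_neg hneg] at hk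
          rw [show ν - y k + (y k + k * η) = -(-ν - k * η) by ring, abs_neg]
          exact hk)
        have e : Vn c t τ ν * F k =
            Vn c t τ ν * star (Vn c t τ (y k)) * Vn c t τ (y k + k * η) := by
          simp only [hF]
          ring
        rw [Ch.dv_eq, Ch.pe_N, e]
        exact h3
  set M := max (‖(V c t τ ν : R n) x‖ / (nrm c * Wt τ)) ϱ with hM
  have hM1 : ‖(Vn c t τ ν : R n) x‖ ≤ M := by
    rw [norm_Vn x t hc]
    exact le_max_left _ _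
  have hM2 : ϱ ≤ M := le_max_right _ _
  have hM0 : 0 < M := lt_of_lt_of_le hϱ0 hM2
  have e3 : ε / ϱ ^ 3 = Real.exp (-A + 3 * g) := by
    rw [hε, hϱ, ← Real.exp_nat_mul, ← Real.exp_sub]
    congr 1
    push_cast
    ring
  have h5 : 2 * ε / ϱ ^ 2 ≤ 2 * (ε / ϱ ^ 3) * M := by
    have : 2 * ε / ϱ ^ 2 = 2 * (ε / ϱ ^ 3) * ϱ := by field_simp
    rw [this]
    exact mul_le_mul_of_nonneg_left hM2 (by positivity)
  have h6 : ‖(Vn c t τ ν : R n) x‖ * ((2 * k + 1) * (ε / ϱ ^ 3)) ≤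
      M * ((2 * k + 1) * (ε / ϱ ^ 3)) :=
    mul_le_mul_of_nonneg_right hM1 (by positivity)
  rw [dev_V_eq_Vn E x t hc]
  have h7 : E.N (dev x (Vn c t τ ν)) ≤ 4 * (k + 2) * (ε / ϱ ^ 3) * M := by
    have h8 : 0 ≤ (ε / ϱ ^ 3) * M := by positivity
    have hk0 : (0 : ℝ) ≤ k := Nat.cast_nonneg k
    nlinarith [mul_nonneg hk0 h8]
  rw [e3] at h7
  calc (nrm c * Wt τ) * E.N (dev x (Vn c t τ ν))
      ≤ (nrm c * Wt τ) * (4 * (k + 2) * Real.exp (-A + 3 * g) * M) :=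
        mul_le_mul_of_nonneg_left h7 hW.le
    _ = 4 * (k + 2) * Real.exp (-A + 3 * g) * (nrm c * Wt τ) * M := by ring

/-- Bound from the modulus relation alone. -/
theorem trivial_bound {n D : ℕ} (E : PE n D) (x : Fin n → Bool) (t : ℕ) (c : Code)
    (τ r η A : ℝ) (hc : ∀ nd ∈ c, 0 < nd.τ ∧ 1 ≤ nd.k) (hD : 6 * leaves c ≤ D) (hτ : 0 < τ)
    (hη : 0 < η) (hA : 0 ≤ A) (h : ProdKnown E x t c τ r η A) {ν : ℝ} (hν : |ν| ≤ r) :
    E.N (dev x (V c t τ ν)) ≤ 3 * (nrm c * Wt τ) *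
      max (‖(V c t τ ν : R n) x‖ / (nrm c * Wt τ)) (Real.exp (-A / 3)) := by
  have hW : 0 < nrm c * Wt τ := nrmWt_pos hc
  have hbd : Crest.Agent.R300.Bd (leaves c) 1 (Vn c t τ ν : R n) := Ch.bd (Vn_Bd t hc hτ ν)
  have h2 := prod2 hc h hν hν (by simpa using hη.le)
  have h3 : (Ch.pe E).N (R300.PE.dv x (star (Vn c t τ ν : R n) * Vn c t τ ν)) ≤
      Real.exp (-A) := by
    rw [mul_comm]
    exact h2
  have h4 := (Ch.pe E).crude (m := leaves c) (by omega) (x := x) hbd h3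
  rw [Ch.dv_eq, Ch.pe_N] at h4
  have h5 : Real.sqrt (Real.exp (-A)) ≤ Real.exp (-A / 3) := by
    rw [Real.sqrt_le_left (Real.exp_pos _).le, ← Real.exp_nat_mul]
    apply Real.exp_le_exp.2
    push_cast
    linarith
  rw [dev_V_eq_Vn E x t hc]
  set M := max (‖(V c t τ ν : R n) x‖ / (nrm c * Wt τ)) (Real.exp (-A / 3)) with hM
  have hM1 : ‖(Vn c t τ ν : R n) x‖ ≤ M := by
    rw [norm_Vn x t hc]
    exact le_max_left _ _
  have hM2 : Real.exp (-A / 3) ≤ M := le_max_right _ _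
  have h6 : E.N (dev x (Vn c t τ ν)) ≤ 3 * M := by linarith
  calc (nrm c * Wt τ) * E.N (dev x (Vn c t τ ν)) ≤ (nrm c * Wt τ) * (3 * M) :=
        mul_le_mul_of_nonneg_left h6 hW.le
    _ = 3 * (nrm c * Wt τ) * M := by ring

end Crest.Agent.R300U
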