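import Crest.Agent.Lib.PT.ListFns2
import Crest.Agent.Lib.PT.ArithRat
import Crest.Prelude.Def_TraceDecoder

/-!
# Row 300, machine side of S0457: parsing of `decoderInput`

`pN w`, `pP w`, `pM w`, `pT w` : word length (binary), retention probability, number of traces
(unary), list of the traces.  All total functions of the bit string `w`, all polynomial time, and
correct on `decoderInput n p τ`.
-/

set_option autoImplicit false

namespace Crest.Agent.R300U.DecParse

open Crest.Agent.Lib.PT

/-! ### reading one number -/

/-- value of a bit list -/
def val (x : List Bool) : ℕ := x.foldr (fun b n => Nat.bit b n) 0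

theorem val_bits (n : ℕ) : val n.bits = n := by
  unfold val
  induction n using Nat.binaryRec' with
  | zero => simp
  | bit b n h ih => rw [Nat.bits_append_bit n b h]; simp [ih]

/-- read one number -/
def rd (w : List Bool) : ℕ := val (fst w)

/-- what remains after one number -/
def rs (w : List Bool) : List Bool := (snd w).tail

theorem natCode_append (n : ℕ) (r : List Bool) :
    Crest.Enc.natCode n ++ r = pair n.bits (false :: r) := by
  unfold Crest.Enc.natCode pair
  rw [List.flatMap]
  simp

theorem rd_natCode (n : ℕ) (r : List Bool) : rd (Crest.Enc.natCode n ++ r) = n := by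
  rw [rd, natCode_append, core_fst_pair, val_bits]

theorem rs_natCode (n : ℕ) (r : List Bool) : rs (Crest.Enc.natCode n ++ r) = r := by
  rw [rs, natCode_append, core_snd_pair]
  rfl

theorem length_rs (w : List Bool) : (rs w).length ≤ w.length := by
  unfold rs
  rw [List.length_tail]
  have := length_snd w
  omega

theorem ptf_rd : PTF rd := by
  unfold rd val
  exact PTF.ofBits (PT.toPTF_list PT.fst)

theorem ptf_rs : PTF rs := by
  unfold rs
  exact PTF.tail (PT.toPTF_list PT.snd)

/-! ### the list of traces -/

/-- length of the string at the head (capped) -/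
def tlen (w : List Bool) : ℕ := min (rd w) w.length

/-- read one string -/
def rstr (w : List Bool) : List Bool := (rs w).take (tlen w)

/-- what remains after one string -/
def rrest (w : List Bool) : List Bool := (rs w).drop (tlen w)

theorem ptu_tlen : PTU tlen := PTF.natMinUn ptf_rd (PTU.length PTF.id)

theorem ptf_rstr : PTF rstr := PTF.take ptu_tlen ptf_rs

theorem ptf_rrest : PTF rrest := PTF.drop ptu_tlen ptf_rs

theorem length_split (w : List Bool) : (rstr w).length + (rrest w).length ≤ w.length := by
  unfold rstr rrest
  have := length_rs w
  rw [List.length_take, List.length_drop]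
  omega

/-- one step of the parser: move one string from the input to the output -/
def tstep (s : List Bool × List (List Bool)) : List Bool × List (List Bool) :=
  (rrest s.1, rstr s.1 :: s.2)

theorem ptf_tstep : PTF tstep := by
  unfold tstep
  have h1 := ptf_rrest
  have h2 := ptf_rstr
  fun_prop

theorem tstep_size (w : List Bool) (i : ℕ) :
    3 * (tstep^[i] (w, [])).1.length * 2 + sz (tstep^[i] (w, [])).2 ≤ 6 * w.length + i := by
  induction i with
  | zero => simp; omega
  | succ i ih =>
    rw [Function.iterate_succ_apply']
    set s := tstep^[i] (w, [])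
    have h := length_split s.1
    simp only [tstep, sz_cons, sz_listBool]
    omega

/-- the first `k` strings of the input `w` -/
def strs (k : ℕ) (w : List Bool) : List (List Bool) := (tstep^[k] (w, [])).2.reverse

theorem ptf_strs {γ : Type} [PTCode γ] {k : γ → ℕ} {w : γ → List Bool} (hk : PTU k) (hw : PTF w) :
    PTF (fun c => strs (k c) (w c)) := by
  have h : PTF (fun c => (tstep)^[k c] (w c, [])) := by
    refine PTF.iterate' (f := fun (_ : γ) (s : List Bool × List (List Bool)) => tstep s) hk
      (PTF.comp ptf_tstep PTF.snd) (PTF.prodMk hw (PTF.const _))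
      (B := fun c => 6 * sz (w c) + 1 + (6 * sz (w c) + k c)) ?_ ?_
    · have h1 := hw.sz
      have h2 := hk.pb
      fun_prop
    · intro c i hi
      have h1 := tstep_size (w c) i
      have h2 : sz (w c) = 3 * (w c).length := sz_listBool _
      show sz (tstep^[i] (w c, [])) ≤ _
      rw [sz_prod, sz_listBool]
      omega
  unfold strs
  exact PTF.reverse (PTF.comp PTF.snd h)

/-- code of one string -/
def strCode (t : List Bool) : List Bool := Crest.Enc.natCode t.length ++ t

theorem natCode_length (n : ℕ) : 2 ≤ (Crest.Enc.natCode n).length := by
  unfold Crest.Enc.natCode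
  simp

theorem tlen_strCode (t r : List Bool) : tlen (strCode t ++ r) = t.length := by
  unfold tlen strCode
  rw [List.append_assoc, rd_natCode]
  apply min_eq_left
  simp only [List.length_append]
  omega

theorem rstr_strCode (t r : List Bool) : rstr (strCode t ++ r) = t := by
  unfold rstr
  rw [tlen_strCode, strCode, List.append_assoc, rs_natCode, List.take_left']
  rfl

theorem rrest_strCode (t r : List Bool) : rrest (strCode t ++ r) = r := by
  unfold rrest
  rw [tlen_strCode, strCode, List.append_assoc, rs_natCode, List.drop_left']
  rfl

theorem tstep_iter (l : List (List Bool)) (r : List Bool) (acc : List (List Bool)) :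
    tstep^[l.length] ((l.map strCode).flatten ++ r, acc) = (r, l.reverse ++ acc) := by
  induction l generalizing acc with
  | nil => simp
  | cons t l ih =>
    rw [List.length_cons, Function.iterate_succ_apply]
    have : tstep (((t :: l).map strCode).flatten ++ r, acc)
        = ((l.map strCode).flatten ++ r, t :: acc) := by
      simp only [tstep, List.map_cons, List.flatten_cons, List.append_assoc]
      rw [rstr_strCode, rrest_strCode]
    rw [this, ih]
    simp

theorem strs_correct (l : List (List Bool)) (r : List Bool) :
    strs l.length ((l.map strCode).flatten ++ r) = l := by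
  unfold strs
  rw [tstep_iter]
  simp

/-! ### the whole input -/

/-- the word length -/
def pN (w : List Bool) : ℕ := rd w

/-- the remaining input after the word length -/
def w1 (w : List Bool) : List Bool := rs w

/-- after the sign of `p` -/
def w2 (w : List Bool) : List Bool := (w1 w).tail

/-- after the numerator -/
def w3 (w : List Bool) : List Bool := rs (w2 w)

/-- after the denominator -/
def w4 (w : List Bool) : List Bool := rs (w3 w)

/-- after the number of traces -/
def w5 (w : List Bool) : List Bool := rs (w4 w)

/-- the retention probability -/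
def pP (w : List Bool) : ℚ :=
  mkRat (Arith.mkInt ((w1 w).headD false) (rd (w2 w))) (rd (w3 w))

/-- the number of traces -/
def pM (w : List Bool) : ℕ := min (rd (w4 w)) w.length

/-- the list of the traces -/
def pT (w : List Bool) : List (List Bool) := strs (pM w) (w5 w)

theorem ptf_pN : PTF pN := ptf_rd
theorem ptf_w1 : PTF w1 := ptf_rs
theorem ptf_w2 : PTF w2 := PTF.tail ptf_w1
theorem ptf_w3 : PTF w3 := PTF.comp (g := rs) ptf_rs ptf_w2
theorem ptf_w4 : PTF w4 := PTF.comp (g := rs) ptf_rs ptf_w3
theorem ptf_w5 : PTF w5 := PTF.comp (g := rs) ptf_rs ptf_w4

theorem ptf_pP : PTF pP := by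
  unfold pP
  refine PTF.ratMk (PTF.intMk ?_ (PTF.comp ptf_rd ptf_w2)) (PTF.comp ptf_rd ptf_w3)
  exact PTF.of_eq (PTF.optionGetD (PTF.head? ptf_w1) (PTF.const false))
    (fun w => by rw [List.headD_eq_head?_getD])

theorem ptu_pM : PTU pM := PTF.natMinUn (PTF.comp ptf_rd ptf_w4) (PTU.length PTF.id)

theorem ptf_pT : PTF pT := ptf_strs ptu_pM ptf_w5

/-- the word length in unary, capped by the input length -/
theorem ptu_pN : PTU (fun w => min (pN w) w.length) := PTF.natMinUn ptf_pN (PTU.length PTF.id)

theorem length_flatten_strCode (l : List (List Bool)) :
    l.length ≤ ((l.map strCode).flatten).length := by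
  induction l with
  | nil => simp
  | cons t l ih =>
    simp only [List.map_cons, List.flatten_cons, List.length_append, List.length_cons]
    have := natCode_length t.length
    unfold strCode
    simp only [List.length_append]
    unfold strCode at ih
    omega

section correct

variable {n : ℕ} {p : ℚ} {m : ℕ} {τ : Fin m → List Bool}

theorem traceListCode_eq (l : List (List Bool)) :
    Crest.TraceRecon.traceListCode l = Crest.Enc.natCode l.length ++ (l.map strCode).flatten := rfl

theorem decoderInput_eq : Crest.TraceRecon.decoderInput n p τ =
    Crest.Enc.natCode n ++ (decide (p.num < 0) :: (Crest.Enc.natCode p.num.natAbs ++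
      (Crest.Enc.natCode p.den ++ (Crest.Enc.natCode (List.ofFn τ).length ++
        (((List.ofFn τ).map strCode).flatten ++ []))))) := by
  unfold Crest.TraceRecon.decoderInput Crest.Enc.ratCode
  rw [traceListCode_eq]
  simp [List.append_assoc]

theorem pN_correct : pN (Crest.TraceRecon.decoderInput n p τ) = n := by
  rw [decoderInput_eq, pN, rd_natCode]

theorem w1_correct : w1 (Crest.TraceRecon.decoderInput n p τ) =
    (decide (p.num < 0) :: (Crest.Enc.natCode p.num.natAbs ++
      (Crest.Enc.natCode p.den ++ (Crest.Enc.natCode (List.ofFn τ).length ++
        (((List.ofFn τ).map strCode).flatten ++ []))))) := by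
  rw [decoderInput_eq, w1, rs_natCode]

theorem w2_correct : w2 (Crest.TraceRecon.decoderInput n p τ) =
    (Crest.Enc.natCode p.num.natAbs ++
      (Crest.Enc.natCode p.den ++ (Crest.Enc.natCode (List.ofFn τ).length ++
        (((List.ofFn τ).map strCode).flatten ++ [])))) := by
  rw [w2, w1_correct]; rfl

theorem w3_correct : w3 (Crest.TraceRecon.decoderInput n p τ) =
      (Crest.Enc.natCode p.den ++ (Crest.Enc.natCode (List.ofFn τ).length ++
        (((List.ofFn τ).map strCode).flatten ++ []))) := by
  rw [w3, w2_correct, rs_natCode]

theorem w4_correct : w4 (Crest.TraceRecon.decoderInput n p τ) =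
      (Crest.Enc.natCode (List.ofFn τ).length ++
        (((List.ofFn τ).map strCode).flatten ++ [])) := by
  rw [w4, w3_correct, rs_natCode]

theorem w5_correct : w5 (Crest.TraceRecon.decoderInput n p τ) =
        (((List.ofFn τ).map strCode).flatten ++ []) := by
  rw [w5, w4_correct, rs_natCode]

theorem pP_correct : pP (Crest.TraceRecon.decoderInput n p τ) = p := by
  rw [pP, w1_correct, w2_correct, w3_correct, rd_natCode, rd_natCode]
  simp only [List.headD_cons]
  have : Arith.mkInt (decide (p.num < 0)) p.num.natAbs = p.num := by
    unfold Arith.mkInt
    split_ifs with h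
    · have h' : p.num < 0 := by simpa using h
      omega
    · have h' : ¬ p.num < 0 := by simpa using h
      omega
  rw [this, Rat.mkRat_self]

theorem le_length_decoderInput : m ≤ (Crest.TraceRecon.decoderInput n p τ).length := by
  rw [decoderInput_eq]
  have h := length_flatten_strCode (List.ofFn τ)
  rw [List.length_ofFn] at h
  simp only [List.length_append, List.length_cons]
  omega

theorem pM_correct : pM (Crest.TraceRecon.decoderInput n p τ) = m := by
  rw [pM, w4_correct, rd_natCode, List.length_ofFn]
  exact min_eq_left le_length_decoderInput

theorem pT_correct : pT (Crest.TraceRecon.decoderInput n p τ) = List.ofFn τ := by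
  rw [pT, pM_correct, w5_correct]
  have h := strs_correct (List.ofFn τ) []
  rwa [List.length_ofFn] at h

end correct

end Crest.Agent.R300U.DecParse
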