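import Mathlib
import Crest.Agent.R300.Contour

/-!
# Row 300, upper bound: the one-dimensional contour kernel

`exp(-τ d²/2 + (ρ + i f) d)` is, simultaneously for all `d ∈ ℕ`, a superposition of exponentials
`exp(-(s₀ + |y|/4 + i (y - f)) d)` with a complex weight `w` of mass `≤ (6/5) exp(β'²/τ)`.
-/

set_option autoImplicit false

namespace Crest.Agent.R300U

open MeasureTheory Complex
open Crest.Agent.R300.Contour

/-- the weight of `kernel_rep` -/
noncomputable def kw (tau b : ℝ) (y : ℝ) : ℂ :=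
  ((1 / Real.sqrt (2 * Real.pi * tau) : ℝ) : ℂ) *
    (gf (1 / (2 * Real.pi * tau)) 0 0 (ctr b (1/4) y) * dctr (1/4) y)

theorem norm_dctr_le (y : ℝ) : ‖dctr (1/4) y‖ ≤ Real.sqrt 17 / 4 := by
  have h : ‖dctr (1/4) y‖ ^ 2 ≤ 17 / 16 := by
    rw [← Complex.normSq_eq_norm_sq, dctr]
    rw [Complex.normSq_apply]
    have e1 : ((1:ℂ) - I * (((1/4 : ℝ) : ℂ) * ((Real.sign y : ℝ) : ℂ))).re = 1 := by
      rw [← Complex.ofReal_mul]
      simp
    have e2 : ((1:ℂ) - I * (((1/4 : ℝ) : ℂ) * ((Real.sign y : ℝ) : ℂ))).im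
        = -((1/4) * Real.sign y) := by
      rw [← Complex.ofReal_mul]
      simp
    rw [e1, e2]
    have hs : Real.sign y * Real.sign y ≤ 1 := by
      rcases lt_trichotomy y 0 with h | h | h
      · rw [Real.sign_of_neg h]; norm_num
      · rw [h, Real.sign_zero]; norm_num
      · rw [Real.sign_of_pos h]; norm_num
    nlinarith
  have h0 : 0 ≤ Real.sqrt 17 / 4 := by positivity
  have h17 : (Real.sqrt 17 / 4) ^ 2 = 17 / 16 := by
    rw [div_pow, Real.sq_sqrt (by norm_num)]; norm_num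
  exact le_of_sq_le_sq (by rw [h17]; exact h) h0

theorem norm_gf_ctr (tau b y : ℝ) (htau : 0 < tau) :
    ‖gf (1 / (2 * Real.pi * tau)) 0 0 (ctr b (1/4) y)‖
      = Real.exp (((b + |y| / 4) ^ 2 - y ^ 2) / (2 * tau)) := by
  unfold gf
  rw [Complex.norm_exp]
  congr 1
  have hpi := Real.pi_pos
  have e : ((Real.pi : ℂ) * ((1 / (2 * Real.pi * tau) : ℝ) : ℂ) * (ctr b (1/4) y + 0) ^ 2
      - 2 * (Real.pi : ℂ) * ctr b (1/4) y * 0)
      = ((1 / (2 * tau) : ℝ) : ℂ) * (((b + |y| / 4 : ℝ) : ℂ) + (y : ℂ) * I) ^ 2 := by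
    have h1 : (Real.pi : ℂ) * ((1 / (2 * Real.pi * tau) : ℝ) : ℂ) = ((1 / (2 * tau) : ℝ) : ℂ) := by
      rw [← Complex.ofReal_mul]
      congr 1
      field_simp
    rw [h1]
    unfold ctr
    push_cast
    ring
  rw [e, Complex.re_ofReal_mul, sq, Complex.mul_re]
  simp only [Complex.add_re, Complex.add_im, Complex.ofReal_re, Complex.ofReal_im, Complex.mul_re,
    Complex.mul_im, Complex.I_re, Complex.I_im]
  ring

theorem norm_kw_le (tau b y : ℝ) (htau : 0 < tau) :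
    ‖kw tau b y‖ ≤ (1 / Real.sqrt (2 * Real.pi * tau)) * (Real.sqrt 17 / 4) *
      Real.exp (b ^ 2 / tau) * Real.exp (-(7 / (16 * tau)) * y ^ 2) := by
  unfold kw
  rw [norm_mul, norm_mul, Complex.norm_real, Real.norm_eq_abs, abs_of_nonneg (by positivity),
    norm_gf_ctr tau b y htau]
  suffices hexp : Real.exp (((b + |y| / 4) ^ 2 - y ^ 2) / (2 * tau))
      ≤ Real.exp (b ^ 2 / tau) * Real.exp (-(7 / (16 * tau)) * y ^ 2) by
    have h2 := mul_le_mul hexp (norm_dctr_le y) (norm_nonneg _) (by positivity)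
    have h3 := mul_le_mul_of_nonneg_left h2
      (by positivity : (0:ℝ) ≤ 1 / Real.sqrt (2 * Real.pi * tau))
    refine h3.trans (le_of_eq ?_)
    ring
  rw [← Real.exp_add]
  apply Real.exp_le_exp.mpr
  have h : (b + |y| / 4) ^ 2 - y ^ 2 ≤ 2 * b ^ 2 - (7/8) * y ^ 2 := by
    have := sq_nonneg (b - |y| / 4)
    have h2 := sq_abs y
    nlinarith
  have e : b ^ 2 / tau + -(7 / (16 * tau)) * y ^ 2 = (2 * b ^ 2 - (7/8) * y ^ 2) / (2 * tau) := by
    field_simp
    ring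
  rw [e]
  exact div_le_div_of_nonneg_right h (by positivity)

set_option linter.unusedVariables false in
theorem kernel_rep (tau beta rho f : ℝ) (htau : 0 < tau) (hbeta : 0 ≤ beta) :
    ∃ w : ℝ → ℂ, Integrable w ∧
      (∫ y, ‖w y‖) ≤ 6/5 * Real.exp ((beta + max rho 0)^2/tau) ∧
      ∀ d : ℕ, Complex.exp (-(tau * (d:ℝ)^2/2 : ℝ) + ((rho:ℂ) + Complex.I * f) * (d:ℂ))
        = ∫ y : ℝ, w y * Complex.exp (-(((beta + max rho 0 - rho + |y|/4 : ℝ) : ℂ)
            + Complex.I * ((y - f : ℝ):ℂ)) * (d:ℂ)) := by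
  set b : ℝ := beta + max rho 0 with hb
  have hpi := Real.pi_pos
  have hA : 0 < 1 / (2 * Real.pi * tau) := by positivity
  have h2pt : 0 < 2 * Real.pi * tau := by positivity
  have hint : Integrable (kw tau b) := by
    have := (kink hA 0 0 b (κ := 1/4) (by norm_num) (by norm_num)).1
    exact this.const_mul _
  refine ⟨kw tau b, hint, ?_, ?_⟩
  · have hg : Integrable (fun y : ℝ => (1 / Real.sqrt (2 * Real.pi * tau)) * (Real.sqrt 17 / 4) *
      Real.exp (b ^ 2 / tau) * Real.exp (-(7 / (16 * tau)) * y ^ 2)) :=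
      (integrable_exp_neg_mul_sq (by positivity)).const_mul _
    have h1 : (∫ y, ‖kw tau b y‖) ≤ ∫ y : ℝ, (1 / Real.sqrt (2 * Real.pi * tau)) *
        (Real.sqrt 17 / 4) * Real.exp (b ^ 2 / tau) * Real.exp (-(7 / (16 * tau)) * y ^ 2) :=
      integral_mono hint.norm hg (fun y => norm_kw_le tau b y htau)
    refine h1.trans ?_
    rw [integral_const_mul, integral_gaussian]
    have e1 : Real.sqrt (Real.pi / (7 / (16 * tau)))
        = Real.sqrt (8 / 7) * Real.sqrt (2 * Real.pi * tau) := by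
      rw [← Real.sqrt_mul (by norm_num)]
      congr 1
      field_simp
      ring
    rw [e1]
    have hs : Real.sqrt (2 * Real.pi * tau) ≠ 0 := (Real.sqrt_pos.mpr h2pt).ne'
    have e2 : 1 / Real.sqrt (2 * Real.pi * tau) * (Real.sqrt 17 / 4) * Real.exp (b ^ 2 / tau) *
        (Real.sqrt (8 / 7) * Real.sqrt (2 * Real.pi * tau))
        = (Real.sqrt 17 / 4 * Real.sqrt (8/7)) * Real.exp (b ^ 2 / tau) := by
      field_simp
    rw [e2]
    apply mul_le_mul_of_nonneg_right _ (Real.exp_pos _).le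
    have h3 : (Real.sqrt 17 / 4 * Real.sqrt (8/7)) ^ 2 ≤ (6/5) ^ 2 := by
      rw [mul_pow, div_pow, Real.sq_sqrt (by norm_num), Real.sq_sqrt (by norm_num)]
      norm_num
    exact le_of_sq_le_sq h3 (by norm_num)
  · intro d
    have hk := (kink hA 0 ((d:ℂ) / (2 * Real.pi)) b (κ := 1/4) (by norm_num) (by norm_num)).2
    have hpiC : (Real.pi : ℂ) ≠ 0 := by exact_mod_cast hpi.ne'
    have htC : (tau : ℂ) ≠ 0 := by exact_mod_cast htau.ne'
    have hs : Real.sqrt (2 * Real.pi * tau) ≠ 0 := (Real.sqrt_pos.mpr h2pt).ne'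
    -- pointwise identity
    have hpt : ∀ y : ℝ, kw tau b y * Complex.exp (-(((b - rho + |y|/4 : ℝ) : ℂ)
            + Complex.I * ((y - f : ℝ):ℂ)) * (d:ℂ))
        = (((1 / Real.sqrt (2 * Real.pi * tau) : ℝ) : ℂ) *
            Complex.exp (((rho:ℂ) + Complex.I * f) * (d:ℂ))) *
          (gf (1 / (2 * Real.pi * tau)) 0 ((d:ℂ) / (2 * Real.pi)) (ctr b (1/4) y) * dctr (1/4) y) := by
      intro y
      unfold kw gf
      have e : Complex.exp (((rho:ℂ) + Complex.I * f) * (d:ℂ)) *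
          Complex.exp ((Real.pi : ℂ) * ((1 / (2 * Real.pi * tau) : ℝ) : ℂ) * (ctr b (1/4) y + 0) ^ 2
            - 2 * (Real.pi : ℂ) * ctr b (1/4) y * ((d:ℂ) / (2 * Real.pi)))
          = Complex.exp ((Real.pi : ℂ) * ((1 / (2 * Real.pi * tau) : ℝ) : ℂ) * (ctr b (1/4) y + 0) ^ 2
            - 2 * (Real.pi : ℂ) * ctr b (1/4) y * 0) *
            Complex.exp (-(((b - rho + |y|/4 : ℝ) : ℂ)
            + Complex.I * ((y - f : ℝ):ℂ)) * (d:ℂ)) := by
        rw [← Complex.exp_add, ← Complex.exp_add]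
        congr 1
        have e3 : 2 * (Real.pi : ℂ) * ctr b (1/4) y * ((d:ℂ) / (2 * Real.pi))
            = ctr b (1/4) y * d := by
          field_simp
        rw [e3]
        unfold ctr
        push_cast
        ring
      linear_combination (((1 / Real.sqrt (2 * Real.pi * tau) : ℝ) : ℂ) * dctr (1/4) y) * (-e)
    simp_rw [hpt]
    rw [integral_const_mul, hk]
    have e4 : Real.sqrt (1 / (2 * Real.pi * tau)) = 1 / Real.sqrt (2 * Real.pi * tau) := by
      rw [Real.sqrt_div zero_le_one, Real.sqrt_one]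
    have e5 : ((1 / Real.sqrt (2 * Real.pi * tau) : ℝ) : ℂ) *
        ((1 / Real.sqrt (1 / (2 * Real.pi * tau)) : ℝ) : ℂ) = 1 := by
      rw [← Complex.ofReal_mul, e4]
      rw [one_div_one_div, one_div, inv_mul_cancel₀ hs, Complex.ofReal_one]
    have e6 : (2 * (Real.pi:ℂ) * 0 * ((d:ℂ) / (2 * Real.pi))
        - (Real.pi:ℂ) * ((d:ℂ) / (2 * Real.pi)) ^ 2 / ((1 / (2 * Real.pi * tau) : ℝ) : ℂ))
        = -((tau * (d:ℝ)^2/2 : ℝ) : ℂ) := by
      push_cast
      field_simp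
      ring
    rw [e6, Complex.exp_add]
    linear_combination (-(Complex.exp (-((tau * (d:ℝ)^2/2 : ℝ) : ℂ)) *
      Complex.exp (((rho:ℂ) + Complex.I * f) * (d:ℂ)))) * e5

end Crest.Agent.R300U
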