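import Crest.Agent.R300.U.LevelJensen

/-!
# Row 300, upper bound: assembly of `LevelStepStatement` and `FinalStepStatement`
-/

set_option autoImplicit false

open Complex Finset
open scoped Real

namespace Crest.Agent.R300U

open Crest.Agent.R300

/-- the L² chain: statement -/
def ChainBound : Prop :=
  ∀ (n D : ℕ) (E : PE n D) (x : Fin n → Bool) (t : ℕ) (c : Code) (τ r η A g : ℝ),
    (∀ nd ∈ c, 0 < nd.τ ∧ 1 ≤ nd.k) → 6 * leaves c ≤ D → 0 < τ → 0 < η → 0 ≤ g →
    ProdKnown E x t c τ r η A → ∀ k : ℕ,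
    (∀ j ≤ k, ∃ y : ℝ, |y| ≤ r ∧ |y + j * η| ≤ r ∧ Real.exp (-g) * (nrm c * Wt τ) ^ 2
      ≤ ‖(V c t τ y : R n) x‖ * ‖(V c t τ (y + j * η) : R n) x‖) →
    ∀ ν : ℝ, |ν| ≤ r → |(|ν|) - k * η| ≤ η →
      E.N (dev x (V c t τ ν)) ≤ 4 * (k + 2) * Real.exp (-A + 3 * g) * (nrm c * Wt τ) *
        max (‖(V c t τ ν : R n) x‖ / (nrm c * Wt τ)) (Real.exp (-g))

/-- the trivial bound from `V conj V`: statement -/
def TrivialBound : Prop :=
  ∀ (n D : ℕ) (E : PE n D) (x : Fin n → Bool) (t : ℕ) (c : Code) (τ r η A : ℝ),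
    (∀ nd ∈ c, 0 < nd.τ ∧ 1 ≤ nd.k) → 6 * leaves c ≤ D → 0 < τ → 0 < η → 0 ≤ A →
    ProdKnown E x t c τ r η A →
    ∀ ν : ℝ, |ν| ≤ r →
      E.N (dev x (V c t τ ν)) ≤ 3 * (nrm c * Wt τ) *
        max (‖(V c t τ ν : R n) x‖ / (nrm c * Wt τ)) (Real.exp (-(A / 3)))

theorem levelStep_of (hCB : ChainBound) (hTB : TrivialBound) : LevelStepStatement := by
  refine ⟨16, 3, by norm_num, by norm_num, ?_⟩
  intro n D E x t c τ r A σ₁ σ₂ hc hD hP hτ hr _ hProd hσ1 hσ2 s hs1 hs2 hs3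
  have hsτ : 0 < Real.sqrt τ := Real.sqrt_pos.2 hτ
  have hΛ0 : 0 < nrm c * Wt τ := mul_pos (nrm_pos hc) Wt_pos
  have hσ : 0 < -s.re := by linarith
  have hrη : 0 < r / Real.sqrt τ := div_pos hr hsτ
  have hlog : 0 ≤ Real.log (1 + r / Real.sqrt τ) := Real.log_nonneg (by linarith)
  have hDl : leaves c ≤ D := by omega
  rcases lt_or_ge A 0 with hA | hA
  · have h1 : E.N (Udev x c t τ s) ≤ 2 * (nrm c * Wt τ) :=
      E.N_le_of_Bd (Udev_Bd hc x t hτ (by linarith)) hDl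
    refine h1.trans (mul_le_mul_of_nonneg_right ?_ hΛ0.le)
    have h2 : (2 : ℝ) ≤ Real.exp 3 := by
      have := Real.add_one_le_exp (3 : ℝ)
      linarith
    refine h2.trans (Real.exp_le_exp.2 ?_)
    linarith
  · have hs : s = -((-s.re : ℝ) : ℂ) + Complex.I * (s.im : ℝ) := by
      rw [mul_comm]
      push_cast
      rw [neg_neg]
      exact (Complex.re_add_im s).symm
    have hre : |s.re| ≤ ‖s‖ := Complex.abs_re_le_norm s
    have key := vector_level E x t c τ hc hDl hP hτ (A := A) (r := r) (η := Real.sqrt τ) hA hsτ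
      (fun k g hg hp ν hν hk => hCB n D E x t c τ r (Real.sqrt τ) A g hc hD hτ hsτ hg hProd k hp ν hν hk)
      (fun ν hν => hTB n D E x t c τ r (Real.sqrt τ) A hc hD hτ hsτ hA hProd ν hν)
      (σ := -s.re) (y := s.im) hσ (by nlinarith [sq_nonneg s.re]) (by
        rw [abs_le] at hre
        rw [le_div_iff₀ (by norm_num)] at hσ2
        linarith [hre.1])
    rw [← hs] at key
    refine key.trans (mul_le_mul_of_nonneg_right ?_ hΛ0.le)
    have e1 : Real.exp (-(3 / 20 * A - 3 - 4 * Real.log (1 + r / Real.sqrt τ)))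
        = Real.exp 3 * (1 + r / Real.sqrt τ) ^ 4 * Real.exp (-(3 / 20 * A)) := by
      have h4 : (1 + r / Real.sqrt τ) ^ 4 = Real.exp (4 * Real.log (1 + r / Real.sqrt τ)) := by
        rw [mul_comm, Real.exp_mul, Real.exp_log (by linarith)]
        norm_cast
      rw [h4, ← Real.exp_add, ← Real.exp_add]
      congr 1
      ring
    rw [e1]
    refine mul_le_mul_of_nonneg_right ?_ (Real.exp_pos _).le
    have h8 : (8 : ℝ) ≤ Real.exp 3 := by
      have h1 := Real.exp_one_gt_d9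
      have h2 : Real.exp 3 = Real.exp 1 ^ 3 := by
        rw [← Real.exp_nat_mul]; norm_num
      rw [h2]
      have : (2 : ℝ) ^ 3 ≤ Real.exp 1 ^ 3 := pow_le_pow_left₀ (by norm_num) (by linarith) 3
      linarith
    have h1 : (1 + r / Real.sqrt τ) ≤ (1 + r / Real.sqrt τ) ^ 4 :=
      le_self_pow₀ (by linarith) (by norm_num)
    exact mul_le_mul h8 h1 (by linarith) (Real.exp_pos _).le

theorem finalStep_of (hCB : ChainBound) (hTB : TrivialBound) : FinalStepStatement := by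
  refine ⟨3, by norm_num, ?_⟩
  intro n D E x t τ A hD ht hP hτ hProd
  have hsτ : 0 < Real.sqrt τ := Real.sqrt_pos.2 hτ
  have hc : ∀ nd ∈ ([] : Code), 0 < nd.τ ∧ 1 ≤ nd.k := by simp
  have hlv : leaves [] = 1 := rfl
  have hnrm : nrm [] = 1 := rfl
  have hval : (val [] t : R n) = xv t := val_nil t
  have hW : 0 < Wt τ := Wt_pos
  have hpi := Real.pi_pos
  have hrη : 0 < π / Real.sqrt τ := div_pos hpi hsτ
  have hlog : 0 ≤ Real.log (1 + π / Real.sqrt τ) := Real.log_nonneg (by linarith)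
  rcases lt_or_ge A 0 with hA | hA
  · have h1 : E.N (dev x (xv t)) ≤ 2 * 1 :=
      E.N_le_of_Bd ((Bd.xv t le_rfl).dev x) (by omega)
    have h2 : (2 : ℝ) ≤ Real.exp 3 := by
      have := Real.add_one_le_exp (3 : ℝ)
      linarith
    have h3 : Real.exp 3 ≤ Real.exp (-((3 / 20) * A - 3 - 4 * Real.log (1 + π / Real.sqrt τ))) := by
      refine Real.exp_le_exp.2 ?_
      linarith
    have h4 := one_le_Wt (τ := τ)
    have h5 : 0 < Real.exp (-((3 / 20) * A - 3 - 4 * Real.log (1 + π / Real.sqrt τ))) :=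
      Real.exp_pos _
    nlinarith
  · have key := vector_final E x t [] τ hc (by rw [hlv]; omega) hP ht hτ (A := A)
      (η := Real.sqrt τ) hA hsτ
      (fun k g hg hp ν hν hk => hCB n D E x t [] τ π (Real.sqrt τ) A g hc (by rw [hlv]; omega)
        hτ hsτ hg hProd k hp ν hν hk)
      (fun ν hν => hTB n D E x t [] τ π (Real.sqrt τ) A hc (by rw [hlv]; omega) hτ hsτ hA hProd ν hν)
    rw [hval, hnrm, one_mul] at key
    refine key.trans ?_
    rw [mul_comm]
    refine mul_le_mul_of_nonneg_left ?_ hW.le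
    have e1 : Real.exp (-(3 / 20 * A - 3 - 4 * Real.log (1 + π / Real.sqrt τ)))
        = Real.exp 3 * (1 + π / Real.sqrt τ) ^ 4 * Real.exp (-(3 / 20 * A)) := by
      have h4 : (1 + π / Real.sqrt τ) ^ 4 = Real.exp (4 * Real.log (1 + π / Real.sqrt τ)) := by
        rw [mul_comm, Real.exp_mul, Real.exp_log (by linarith)]
        norm_cast
      rw [h4, ← Real.exp_add, ← Real.exp_add]
      congr 1
      ring
    rw [e1]
    have h6 : Real.exp (-(A / 6)) ≤ Real.exp (-(3 / 20 * A)) := Real.exp_le_exp.2 (by linarith)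
    have h8 : (8 : ℝ) ≤ Real.exp 3 := by
      have h1 := Real.exp_one_gt_d9
      have h2 : Real.exp 3 = Real.exp 1 ^ 3 := by
        rw [← Real.exp_nat_mul]; norm_num
      rw [h2]
      have : (2 : ℝ) ^ 3 ≤ Real.exp 1 ^ 3 := pow_le_pow_left₀ (by norm_num) (by linarith) 3
      linarith
    have h1 : (1 + π / Real.sqrt τ) ≤ (1 + π / Real.sqrt τ) ^ 4 :=
      le_self_pow₀ (by linarith) (by norm_num)
    have h9 : 8 * (1 + π / Real.sqrt τ) ≤ Real.exp 3 * (1 + π / Real.sqrt τ) ^ 4 :=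
      mul_le_mul h8 h1 (by linarith) (Real.exp_pos _).le
    exact mul_le_mul h9 h6 (Real.exp_pos _).le (by positivity)

end Crest.Agent.R300U
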