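import Crest.Agent.R300.An4

/-!
# Row 300, upper bound: the level step, scalar part

`exists_aG` chooses the functions `a` and `G` of the averaging inequality;
`scalar_level`, `scalar_final` are the level step and the last step for scalar exponential sums.
-/

set_option autoImplicit false

open MeasureTheory Complex Set Filter Topology
open scoped Real

namespace Crest.Agent.R300U

open Crest.Agent.R300

/-- choice of `a` and `G` -/
theorem exists_aG {v : ℝ → ℝ} (hv : Continuous v) (hv1 : ∀ ν, v ν ≤ 1)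
    {A r η : ℝ} (hA : 0 ≤ A) (hη : 0 < η) :
    ∃ (a : ℝ → ℝ) (G : ℕ → ℝ), Continuous a ∧ (∀ x, 0 ≤ a x) ∧ (∀ x, a x ≤ A / 3) ∧
      (∀ x, Real.exp (-a x) = max (v x) (Real.exp (-(A / 3)))) ∧
      Monotone G ∧ (∀ k, 0 ≤ G k) ∧ (∀ k, G k ≤ A / 3) ∧
      (∀ k : ℕ, ∃ k' ≤ k, ∀ x : ℝ, |x| ≤ r → |x + k' * η| ≤ r → G k ≤ a x + a (x + k' * η)) ∧
      (∀ k : ℕ, (k : ℝ) * η ≤ r → G k < A / 3 → ∀ j ≤ k, ∃ y : ℝ, |y| ≤ r ∧ |y + j * η| ≤ r ∧
        Real.exp (-G k) ≤ v y * v (y + j * η)) := by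
  have he0 : 0 < Real.exp (-(A / 3)) := Real.exp_pos _
  set w : ℝ → ℝ := fun ν => max (v ν) (Real.exp (-(A / 3))) with hw
  have hw0 : ∀ ν, 0 < w ν := fun ν => lt_of_lt_of_le he0 (le_max_right _ _)
  have hwc : Continuous w := hv.max continuous_const
  set a : ℝ → ℝ := fun ν => -Real.log (w ν) with ha
  have hac : Continuous a := (hwc.log fun ν => (hw0 ν).ne').neg
  have hw1 : ∀ ν, w ν ≤ 1 := fun ν => max_le (hv1 ν) (Real.exp_le_one_iff.2 (by linarith))
  have ha0 : ∀ x, 0 ≤ a x := fun x => by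
    have := Real.log_nonpos (hw0 x).le (hw1 x)
    simp only [ha]; linarith
  have ha1 : ∀ x, a x ≤ A / 3 := fun x => by
    have := Real.log_le_log he0 (le_max_right (v x) (Real.exp (-(A / 3))))
    rw [Real.log_exp] at this
    simp only [ha, hw]; linarith
  have hae : ∀ x, Real.exp (-a x) = max (v x) (Real.exp (-(A / 3))) := fun x => by
    simp only [ha, neg_neg]
    exact Real.exp_log (hw0 x)
  -- best pairs
  have hbest : ∀ k : ℕ, (k : ℝ) * η ≤ 2 * r → ∃ y : ℝ, |y| ≤ r ∧ |y + k * η| ≤ r ∧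
      ∀ x : ℝ, |x| ≤ r → |x + k * η| ≤ r → a y + a (y + k * η) ≤ a x + a (x + k * η) := by
    intro k hk
    have hk0 : (0 : ℝ) ≤ k * η := by positivity
    have hne : (Icc (-r) (r - k * η)).Nonempty := nonempty_Icc.2 (by linarith)
    have hcont : ContinuousOn (fun x => a x + a (x + k * η)) (Icc (-r) (r - k * η)) :=
      (hac.add (hac.comp (continuous_id.add continuous_const))).continuousOn
    obtain ⟨y, hy, hmin⟩ := isCompact_Icc.exists_isMinOn hne hcont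
    refine ⟨y, abs_le.2 ⟨hy.1, by linarith [hy.2]⟩,
      abs_le.2 ⟨by linarith [hy.1], by linarith [hy.2]⟩, ?_⟩
    intro x hx1 hx2
    rw [abs_le] at hx1 hx2
    exact hmin ⟨hx1.1, by linarith [hx2.2]⟩
  classical
  set g : ℕ → ℝ := fun k =>
    if h : (k : ℝ) * η ≤ 2 * r then
      min (a (hbest k h).choose + a ((hbest k h).choose + k * η)) (A / 3) else 0 with hg
  have hg0 : ∀ k, 0 ≤ g k := by
    intro k
    simp only [hg]
    split_ifs with h
    · exact le_min (add_nonneg (ha0 _) (ha0 _)) (by linarith)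
    · exact le_refl _
  have hg1 : ∀ k, g k ≤ A / 3 := by
    intro k
    simp only [hg]
    split_ifs with h
    · exact min_le_right _ _
    · linarith
  set G : ℕ → ℝ := fun k => (Finset.range (k + 1)).sup' ⟨0, by simp⟩ g with hG
  have hGm : Monotone G := by
    intro k l hkl
    simp only [hG]
    refine Finset.sup'_mono g (fun i hi => ?_) _
    rw [Finset.mem_range] at hi ⊢
    omega
  have hle : ∀ k, ∀ j ≤ k, g j ≤ G k := fun k j hj =>
    Finset.le_sup' g (Finset.mem_range.2 (by omega))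
  refine ⟨a, G, hac, ha0, ha1, hae, hGm, ?_, ?_, ?_, ?_⟩
  · intro k
    exact (hg0 0).trans (hle k 0 (Nat.zero_le _))
  · intro k
    exact Finset.sup'_le _ _ fun j _ => hg1 j
  · intro k
    obtain ⟨k', hk', he⟩ := Finset.exists_mem_eq_sup' (⟨0, by simp⟩ : (Finset.range (k + 1)).Nonempty) g
    refine ⟨k', by rw [Finset.mem_range] at hk'; omega, ?_⟩
    intro x hx1 hx2
    simp only [hG]
    rw [he]
    simp only [hg]
    split_ifs with h
    · exact (min_le_left _ _).trans ((hbest k' h).choose_spec.2.2 x hx1 hx2)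
    · exact add_nonneg (ha0 _) (ha0 _)
  · intro k hk hlt j hj
    have hj' : (j : ℝ) ≤ k := by exact_mod_cast hj
    have hr0 : (0 : ℝ) ≤ r := le_trans (by positivity) hk
    have h : (j : ℝ) * η ≤ 2 * r := by
      have := mul_le_mul_of_nonneg_right hj' hη.le
      linarith
    have hs := (hbest j h).choose_spec
    set y := (hbest j h).choose with hy
    refine ⟨y, hs.1, hs.2.1, ?_⟩
    have h1 : g j < A / 3 := (hle k j hj).trans_lt hlt
    have h2 : g j = min (a y + a (y + j * η)) (A / 3) := by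
      simp only [hg]
      rw [dif_pos h]
    have h3 : a y + a (y + j * η) < A / 3 := by
      rcases min_lt_iff.1 (h2 ▸ h1) with h4 | h4
      · exact h4
      · exact absurd h4 (lt_irrefl _)
    have h4 : a y + a (y + j * η) ≤ G k := by
      have := hle k j hj
      rw [h2, min_eq_left h3.le] at this
      exact this
    have h5 : ∀ z, a z < A / 3 → v z = Real.exp (-a z) := by
      intro z hz
      rw [hae z]
      refine (max_eq_left ?_).symm
      by_contra hcon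
      push Not at hcon
      have := hae z
      rw [max_eq_right hcon.le] at this
      have := Real.exp_injective this
      linarith
    rw [h5 y (by linarith [ha0 (y + j * η)]), h5 (y + j * η) (by linarith [ha0 y]),
      ← Real.exp_add]
    apply Real.exp_le_exp.2
    linarith

/-- from the chain bounds to the hypothesis of the averaging inequality -/
theorem bound_of_chain {v : ℝ → ℝ} (hv : Continuous v) (hv1 : ∀ ν, v ν ≤ 1)
    {A r η : ℝ} (hA : 0 ≤ A) (hr : 0 < r) (hη : 0 < η) {Nd : ℝ → ℝ}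
    (h_chain : ∀ (k : ℕ) (g : ℝ), 0 ≤ g →
      (∀ j ≤ k, ∃ y : ℝ, |y| ≤ r ∧ |y + j * η| ≤ r ∧ Real.exp (-g) ≤ v y * v (y + j * η)) →
      ∀ ν : ℝ, |ν| ≤ r → |(|ν|) - k * η| ≤ η →
        Nd ν ≤ 4 * (k + 2) * Real.exp (-A + 3 * g) * max (v ν) (Real.exp (-g)))
    (h_triv : ∀ ν : ℝ, |ν| ≤ r → Nd ν ≤ 3 * max (v ν) (Real.exp (-(A / 3)))) :
    ∃ (a : ℝ → ℝ) (G : ℕ → ℝ), Measurable a ∧ (∀ x, 0 ≤ a x) ∧ (∀ x, a x ≤ A / 3) ∧
      Monotone G ∧ (∀ k, 0 ≤ G k) ∧ (∀ k, G k ≤ A / 3) ∧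
      (∀ k : ℕ, ∃ k' ≤ k, ∀ x : ℝ, |x| ≤ r → |x + k' * η| ≤ r → G k ≤ a x + a (x + k' * η)) ∧
      (∀ ν : ℝ, |ν| ≤ r →
        Nd ν ≤ (8 * (1 + r / η)) * Real.exp (-(2 / 3 * A - 2 * G ⌊|ν| / η⌋₊ + a ν))) := by
  obtain ⟨a, G, hac, ha0, ha1, hae, hGm, hG0, hG1, hpair, hbest⟩ :=
    exists_aG hv hv1 (r := r) hA hη
  refine ⟨a, G, hac.measurable, ha0, ha1, hGm, hG0, hG1, hpair, ?_⟩
  intro ν hν
  set k : ℕ := ⌊|ν| / η⌋₊ with hk
  have hdiv0 : 0 ≤ |ν| / η := div_nonneg (abs_nonneg _) hη.le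
  have hk1 : (k : ℝ) * η ≤ |ν| := by
    have := Nat.floor_le hdiv0
    rwa [le_div_iff₀ hη] at this
  have hk2 : |ν| < (k + 1) * η := by
    have := Nat.lt_floor_add_one (|ν| / η)
    rwa [div_lt_iff₀ hη] at this
  have hkr : (k : ℝ) ≤ r / η := by
    rw [le_div_iff₀ hη]; linarith
  have hrη : 0 < r / η := div_pos hr hη
  have hexp : Real.exp (-(2 / 3 * A - 2 * G k + a ν))
      = Real.exp (-(2 / 3 * A) + 2 * G k) * max (v ν) (Real.exp (-(A / 3))) := by
    rw [← hae ν, ← Real.exp_add]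
    congr 1
    ring
  rw [hexp]
  have hmax0 : 0 ≤ max (v ν) (Real.exp (-(A / 3))) := (Real.exp_pos _).le.trans (le_max_right _ _)
  rcases lt_or_eq_of_le (hG1 k) with hlt | heq
  · have h1 := h_chain k (G k) (hG0 k) (hbest k (by linarith) hlt) ν hν (by
      rw [abs_le]; constructor <;> linarith)
    have h2 : Real.exp (-A + 3 * G k) * max (v ν) (Real.exp (-G k))
        ≤ Real.exp (-(2 / 3 * A) + 2 * G k) * max (v ν) (Real.exp (-(A / 3))) := by
      have e1 : Real.exp (-A + 3 * G k)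
          = Real.exp (-(2 / 3 * A) + 2 * G k) * Real.exp (G k - A / 3) := by
        rw [← Real.exp_add]; congr 1; ring
      rw [e1, mul_assoc]
      refine mul_le_mul_of_nonneg_left ?_ (Real.exp_pos _).le
      rcases le_total (v ν) (Real.exp (-G k)) with h | h
      · rw [max_eq_right h, ← Real.exp_add]
        refine le_trans (le_of_eq ?_) (le_max_right _ _)
        congr 1; ring
      · rw [max_eq_left h]
        have hv0 : 0 ≤ v ν := (Real.exp_pos _).le.trans h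
        have : Real.exp (G k - A / 3) ≤ 1 := Real.exp_le_one_iff.2 (by linarith)
        exact (mul_le_of_le_one_left hv0 this).trans (le_max_left _ _)
    calc Nd ν ≤ 4 * (k + 2) * Real.exp (-A + 3 * G k) * max (v ν) (Real.exp (-G k)) := h1
      _ = 4 * (k + 2) * (Real.exp (-A + 3 * G k) * max (v ν) (Real.exp (-G k))) := by ring
      _ ≤ 4 * (k + 2) * (Real.exp (-(2 / 3 * A) + 2 * G k) * max (v ν) (Real.exp (-(A / 3)))) :=
          mul_le_mul_of_nonneg_left h2 (by positivity)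
      _ ≤ (8 * (1 + r / η)) *
          (Real.exp (-(2 / 3 * A) + 2 * G k) * max (v ν) (Real.exp (-(A / 3)))) := by
          refine mul_le_mul_of_nonneg_right ?_ (mul_nonneg (Real.exp_pos _).le hmax0)
          linarith
  · have h1 := h_triv ν hν
    have e1 : Real.exp (-(2 / 3 * A) + 2 * G k) = 1 := by
      rw [heq, Real.exp_eq_one_iff]; ring
    rw [e1, one_mul]
    refine h1.trans (mul_le_mul_of_nonneg_right ?_ hmax0)
    linarith

/-- level step for scalar exponential sums -/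
theorem scalar_level {v : ℝ → ℝ} (hv : Continuous v) (hv1 : ∀ ν, v ν ≤ 1)
    {A r η : ℝ} (hA : 0 ≤ A) (hη : 0 < η) {Nd : ℝ → ℝ}
    (h_chain : ∀ (k : ℕ) (g : ℝ), 0 ≤ g →
      (∀ j ≤ k, ∃ y : ℝ, |y| ≤ r ∧ |y + j * η| ≤ r ∧ Real.exp (-g) ≤ v y * v (y + j * η)) →
      ∀ ν : ℝ, |ν| ≤ r → |(|ν|) - k * η| ≤ η →
        Nd ν ≤ 4 * (k + 2) * Real.exp (-A + 3 * g) * max (v ν) (Real.exp (-g)))
    (h_triv : ∀ ν : ℝ, |ν| ≤ r → Nd ν ≤ 3 * max (v ν) (Real.exp (-(A / 3))))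
    {N : ℕ} {c : ℕ → ℂ} (h_all : ∀ ν : ℝ, ‖expSum N c (I * ν)‖ ≤ 2)
    (h_le : ∀ ν : ℝ, |ν| ≤ r → ‖expSum N c (I * ν)‖ ≤ Nd ν)
    {σ y : ℝ} (hσ : 0 < σ) (hy : y ^ 2 ≤ 7 * σ ^ 2) (hR : 16 * σ ≤ r) :
    ‖expSum N c (-σ + I * y)‖ ≤ (8 * (1 + r / η)) * Real.exp (-(3 / 20 * A)) := by
  have hr : 0 < r := by linarith
  obtain ⟨a, G, ham, ha0, ha1, hGm, hG0, hG1, hpair, hb⟩ :=
    bound_of_chain hv hv1 hA hr hη h_chain h_triv
  have hrη : 0 < r / η := div_pos hr hη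
  refine levelG_halfplane (by linarith) hA hσ hy hR hη ham ha0 ha1 hGm hG0 hG1 hpair ?_ ?_
  · intro ν
    exact (h_all ν).trans (by linarith)
  · intro ν hν
    exact (h_le ν hν).trans (hb ν hν)

/-- last step for scalar exponential sums -/
theorem scalar_final {v : ℝ → ℝ} (hv : Continuous v) (hv1 : ∀ ν, v ν ≤ 1)
    {A η : ℝ} (hA : 0 ≤ A) (hη : 0 < η) {Nd : ℝ → ℝ}
    (h_chain : ∀ (k : ℕ) (g : ℝ), 0 ≤ g →
      (∀ j ≤ k, ∃ y : ℝ, |y| ≤ π ∧ |y + j * η| ≤ π ∧ Real.exp (-g) ≤ v y * v (y + j * η)) →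
      ∀ ν : ℝ, |ν| ≤ π → |(|ν|) - k * η| ≤ η →
        Nd ν ≤ 4 * (k + 2) * Real.exp (-A + 3 * g) * max (v ν) (Real.exp (-g)))
    (h_triv : ∀ ν : ℝ, |ν| ≤ π → Nd ν ≤ 3 * max (v ν) (Real.exp (-(A / 3))))
    {N : ℕ} (hN : 0 < N) {c : ℕ → ℂ}
    (h_le : ∀ ν : ℝ, |ν| ≤ π → ‖expSum N c (I * ν)‖ ≤ Nd ν) :
    ‖c 0‖ ≤ (8 * (1 + π / η)) * Real.exp (-(A / 6)) := by
  have hr : 0 < π := Real.pi_pos
  obtain ⟨a, G, ham, ha0, ha1, hGm, hG0, hG1, hpair, hb⟩ :=
    bound_of_chain hv hv1 hA hr hη h_chain h_triv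
  have hrη : 0 < π / η := div_pos hr hη
  refine levelG_final hN (by linarith) hA hη ham ha0 ha1 hGm hG0 hG1 hpair ?_
  intro ν hν
  exact (h_le ν hν).trans (hb ν hν)

end Crest.Agent.R300U
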