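import Crest.Agent.R300.U.LevelAsm
import Crest.Agent.R300.U.Chain

/-!
# Row 300, upper bound: `LevelStepStatement` and `FinalStepStatement`
-/

set_option autoImplicit false

namespace Crest.Agent.R300U

theorem chainBound : ChainBound := by
  intro n D E x t c τ r η A g hc hD hτ hη hg hProd k hp ν hν hk
  exact chain_bound E x t c τ r η A g hc hD hτ hη hg hProd k hp hν hk

theorem trivialBound : TrivialBound := by
  intro n D E x t c τ r η A hc hD hτ hη hA hProd ν hν
  have := trivial_bound E x t c τ r η A hc hD hτ hη hA hProd hν
  rwa [neg_div] at this

theorem levelStep : LevelStepStatement := levelStep_of chainBound trivialBound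

theorem finalStep : FinalStepStatement := finalStep_of chainBound trivialBound

end Crest.Agent.R300U
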