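import Crest.Agent.R300.U.Calc
import Crest.Agent.R300.U.LevelCore
import Crest.Agent.R300.U.Iface

/-!
# Row 300, upper bound: vector-valued Jensen inequality and assembly of the level step
-/

set_option autoImplicit false

open Complex Finset
open scoped Real

namespace Crest.Agent.R300U

open Crest.Agent.R300

variable {n D : ℕ} (E : PE n D) (x : Fin n → Bool) (t : ℕ) (c : Code) (τ : ℝ)

/-- coefficients of the scalar exponential sum obtained by testing against `h` -/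
noncomputable def tcoef (h : R n) (z : ℂ) (m : ℕ) : ℂ :=
  z * (E.L (star h * dev x (val c (t + m))) * Complex.exp (-(τ * (m : ℝ) ^ 2 / 2 : ℝ)))

theorem expSum_tcoef (h : R n) (z : ℂ) (s : ℂ) :
    expSum (n - t) (tcoef E x t c τ h z) s = z * E.L (star h * Udev x c t τ s) := by
  unfold expSum tcoef Udev
  rw [Finset.sum_Ico_eq_sum_range, Finset.mul_sum, map_sum, Finset.mul_sum]
  refine Finset.sum_congr rfl fun m _ => ?_
  rw [mul_smul_comm, map_smul, smul_eq_mul]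
  have e1 : ((t + m : ℕ) : ℝ) - t = m := by push_cast; ring
  have e2 : ((t + m : ℕ) : ℂ) - t = m := by push_cast; ring
  rw [e1, e2, Complex.exp_add]
  ring

/-- the one-sided deviation on the imaginary axis is bounded by the deviation of `V`. -/
theorem N_Udev_le_dev_V (hc : ∀ nd ∈ c, 0 < nd.τ ∧ 1 ≤ nd.k) (hD : leaves c ≤ D)
    (hP : Prefix E x t) (ht : t ≤ n) (hτ : 0 < τ) (ν : ℝ) :
    E.N (Udev x c t τ (Complex.I * ν)) ≤ E.N (dev x (V c t τ ν)) := by
  set S : R n := ∑ u ∈ Finset.range t, Complex.exp (-(τ * ((u : ℝ) - t) ^ 2 / 2 : ℝ) +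
        Complex.I * ν * ((u : ℂ) - t)) • dev x (val c u) with hS
  have h1 : Udev x c t τ (Complex.I * ν) = dev x (V c t τ ν) - S := by
    rw [dev_V_eq x c ht τ ν, ← hS]
    ring
  have hterm : ∀ u ∈ Finset.range t, Bd D (‖Complex.exp (-(τ * ((u : ℝ) - t) ^ 2 / 2 : ℝ) +
        Complex.I * ν * ((u : ℂ) - t))‖ * (2 * nrm c)) (Complex.exp (-(τ * ((u : ℝ) - t) ^ 2 / 2 : ℝ) +
        Complex.I * ν * ((u : ℂ) - t)) • dev x (val c u)) := fun u _ =>
    (((val_Bd hc u).dev x).mono_deg hD).smul _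
  have hSB := Bd.sum _ _ _ hterm
  have hS0 : E.N S = 0 := by
    refine le_antisymm ?_ (E.N_nonneg _)
    refine (E.N_sum_le _ _ _ hterm).trans (le_of_eq ?_)
    refine Finset.sum_eq_zero fun u hu => ?_
    rw [E.N_smul, (Kn.val hP c (Finset.mem_range.1 hu)).N_dev hD, mul_zero]
  rw [h1]
  refine (E.N_sub_le (((V_Bd hc t hτ ν).dev x).mono_deg hD) hSB).trans ?_
  rw [hS0, add_zero]

theorem continuous_V_apply (y : Fin n → Bool) : Continuous fun ν : ℝ => (V c t τ ν : R n) y := by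
  unfold V
  simp only [Finset.sum_apply, Pi.smul_apply, smul_eq_mul]
  fun_prop

/-- vector-valued level step from the chain bounds -/
theorem vector_level (hc : ∀ nd ∈ c, 0 < nd.τ ∧ 1 ≤ nd.k) (hD : leaves c ≤ D)
    (hP : Prefix E x t) (hτ : 0 < τ) {A r η : ℝ} (hA : 0 ≤ A) (hη : 0 < η)
    (h_chain : ∀ (k : ℕ) (g : ℝ), 0 ≤ g →
      (∀ j ≤ k, ∃ y : ℝ, |y| ≤ r ∧ |y + j * η| ≤ r ∧ Real.exp (-g) * (nrm c * Wt τ) ^ 2
        ≤ ‖V c t τ y x‖ * ‖V c t τ (y + j * η) x‖) →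
      ∀ ν : ℝ, |ν| ≤ r → |(|ν|) - k * η| ≤ η →
        E.N (dev x (V c t τ ν)) ≤ 4 * (k + 2) * Real.exp (-A + 3 * g) * (nrm c * Wt τ) *
          max (‖V c t τ ν x‖ / (nrm c * Wt τ)) (Real.exp (-g)))
    (h_triv : ∀ ν : ℝ, |ν| ≤ r → E.N (dev x (V c t τ ν)) ≤ 3 * (nrm c * Wt τ) *
      max (‖V c t τ ν x‖ / (nrm c * Wt τ)) (Real.exp (-(A / 3))))
    {σ y : ℝ} (hσ : 0 < σ) (hy : y ^ 2 ≤ 7 * σ ^ 2) (hR : 16 * σ ≤ r) :
    E.N (Udev x c t τ (-σ + Complex.I * y)) ≤
      (8 * (1 + r / η)) * Real.exp (-(3 / 20 * A)) * (nrm c * Wt τ) := by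
  have hr : 0 < r := by linarith
  have hrη : 0 < r / η := div_pos hr hη
  set Λ : ℝ := nrm c * Wt τ with hΛ
  have hΛ0 : 0 < Λ := mul_pos (nrm_pos hc) Wt_pos
  rcases le_or_gt n t with hnt | hnt
  · have : Udev x c t τ (-σ + Complex.I * y) = 0 := by
      unfold Udev
      rw [Finset.Ico_eq_empty (by omega), Finset.sum_empty]
    rw [this, E.N_zero]
    positivity
  set H : R n := Udev x c t τ (-σ + Complex.I * y) with hH
  have hre : ∀ ν : ℝ, (Complex.I * ν).re ≤ 0 := fun ν => by simp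
  have hUB : ∀ ν : ℝ, Bd D (2 * Λ) (Udev x c t τ (Complex.I * ν) : R n) := fun ν =>
    (Udev_Bd hc x t hτ (hre ν)).mono_deg hD
  have hHB : Bd D (2 * Λ) H := by
    refine (Udev_Bd hc x t hτ ?_).mono_deg hD
    simp [hσ.le]
  rcases eq_or_lt_of_le (E.N_nonneg H) with h0 | hN
  · rw [← h0]; positivity
  set h : R n := ((1 / E.N H : ℝ) : ℂ) • H with hh
  have hhB : Bd D _ h := hHB.smul _
  have hNh : E.N h = 1 := by
    rw [hh, E.N_smul, Complex.norm_real, Real.norm_eq_abs, abs_of_pos (by positivity)]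
    field_simp
  set z : ℂ := ((1 / Λ : ℝ) : ℂ) with hz
  have hzn : ‖z‖ = 1 / Λ := by
    rw [hz, Complex.norm_real, Real.norm_eq_abs, abs_of_pos (by positivity)]
  have hbound : ∀ ν : ℝ, ‖expSum (n - t) (tcoef E x t c τ h z) (Complex.I * ν)‖
      ≤ E.N (Udev x c t τ (Complex.I * ν)) / Λ := by
    intro ν
    rw [expSum_tcoef, norm_mul, hzn, one_div, inv_mul_eq_div]
    refine div_le_div_of_nonneg_right ?_ hΛ0.le
    have := E.cauchy hhB (hUB ν)
    rwa [hNh, one_mul] at this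
  have key := scalar_level (v := fun ν => ‖V c t τ ν x‖ / Λ)
    (((continuous_V_apply t c τ x).norm).div_const _)
    (fun ν => by
      rw [div_le_one hΛ0]
      exact (V_Bd hc t hτ ν).norm_le x)
    hA hη (r := r) (Nd := fun ν => E.N (dev x (V c t τ ν)) / Λ)
    (fun k g hg hp ν hν hk => by
      rw [div_le_iff₀ hΛ0]
      refine (h_chain k g hg ?_ ν hν hk).trans (le_of_eq ?_)
      · intro j hj
        obtain ⟨y, h1, h2, h3⟩ := hp j hj
        refine ⟨y, h1, h2, ?_⟩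
        have h4 := mul_le_mul_of_nonneg_right h3 (sq_nonneg Λ)
        refine h4.trans (le_of_eq ?_)
        field_simp
      · ring)
    (fun ν hν => by
      rw [div_le_iff₀ hΛ0]
      refine (h_triv ν hν).trans (le_of_eq ?_)
      ring)
    (N := n - t) (c := tcoef E x t c τ h z)
    (fun ν => (hbound ν).trans (by
      rw [div_le_iff₀ hΛ0]
      exact E.N_le_of_Bd (hUB ν) le_rfl))
    (fun ν hν => (hbound ν).trans
      (div_le_div_of_nonneg_right (N_Udev_le_dev_V E x t c τ hc hD hP hnt.le hτ ν) hΛ0.le))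
    hσ hy hR
  have h5 : ‖expSum (n - t) (tcoef E x t c τ h z) (-σ + Complex.I * y)‖ = E.N H / Λ := by
    rw [expSum_tcoef, norm_mul, hzn, ← hH, hh, star_smul, smul_mul_assoc, map_smul,
      E.L_self_eq H, ← E.N_sq hHB, smul_eq_mul, norm_mul, Complex.norm_real]
    simp only [RCLike.star_def, Complex.conj_ofReal, Complex.norm_real, Real.norm_eq_abs]
    rw [abs_of_pos (by positivity), abs_of_nonneg (sq_nonneg _)]
    field_simp
  rw [h5, div_le_iff₀ hΛ0] at key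
  exact key

/-- last step from the chain bounds -/
theorem vector_final (hc : ∀ nd ∈ c, 0 < nd.τ ∧ 1 ≤ nd.k) (hD : leaves c ≤ D)
    (hP : Prefix E x t) (ht : t < n) (hτ : 0 < τ) {A η : ℝ} (hA : 0 ≤ A) (hη : 0 < η)
    (h_chain : ∀ (k : ℕ) (g : ℝ), 0 ≤ g →
      (∀ j ≤ k, ∃ y : ℝ, |y| ≤ π ∧ |y + j * η| ≤ π ∧ Real.exp (-g) * (nrm c * Wt τ) ^ 2
        ≤ ‖V c t τ y x‖ * ‖V c t τ (y + j * η) x‖) →
      ∀ ν : ℝ, |ν| ≤ π → |(|ν|) - k * η| ≤ η →
        E.N (dev x (V c t τ ν)) ≤ 4 * (k + 2) * Real.exp (-A + 3 * g) * (nrm c * Wt τ) *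
          max (‖V c t τ ν x‖ / (nrm c * Wt τ)) (Real.exp (-g)))
    (h_triv : ∀ ν : ℝ, |ν| ≤ π → E.N (dev x (V c t τ ν)) ≤ 3 * (nrm c * Wt τ) *
      max (‖V c t τ ν x‖ / (nrm c * Wt τ)) (Real.exp (-(A / 3)))) :
    E.N (dev x (val c t)) ≤
      (8 * (1 + π / η)) * Real.exp (-(A / 6)) * (nrm c * Wt τ) := by
  have hr : 0 < π := Real.pi_pos
  have hrη : 0 < π / η := div_pos hr hη
  set Λ : ℝ := nrm c * Wt τ with hΛ
  have hΛ0 : 0 < Λ := mul_pos (nrm_pos hc) Wt_pos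
  set H : R n := dev x (val c t) with hH
  have hre : ∀ ν : ℝ, (Complex.I * ν).re ≤ 0 := fun ν => by simp
  have hUB : ∀ ν : ℝ, Bd D (2 * Λ) (Udev x c t τ (Complex.I * ν) : R n) := fun ν =>
    (Udev_Bd hc x t hτ (hre ν)).mono_deg hD
  have hHB : Bd D (2 * nrm c) H := ((val_Bd hc t).dev x).mono_deg hD
  rcases eq_or_lt_of_le (E.N_nonneg H) with h0 | hN
  · rw [← h0]; positivity
  set h : R n := ((1 / E.N H : ℝ) : ℂ) • H with hh
  have hhB : Bd D _ h := hHB.smul _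
  have hNh : E.N h = 1 := by
    rw [hh, E.N_smul, Complex.norm_real, Real.norm_eq_abs, abs_of_pos (by positivity)]
    field_simp
  set z : ℂ := ((1 / Λ : ℝ) : ℂ) with hz
  have hzn : ‖z‖ = 1 / Λ := by
    rw [hz, Complex.norm_real, Real.norm_eq_abs, abs_of_pos (by positivity)]
  have hbound : ∀ ν : ℝ, ‖expSum (n - t) (tcoef E x t c τ h z) (Complex.I * ν)‖
      ≤ E.N (Udev x c t τ (Complex.I * ν)) / Λ := by
    intro ν
    rw [expSum_tcoef, norm_mul, hzn, one_div, inv_mul_eq_div]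
    refine div_le_div_of_nonneg_right ?_ hΛ0.le
    have := E.cauchy hhB (hUB ν)
    rwa [hNh, one_mul] at this
  have key := scalar_final (v := fun ν => ‖V c t τ ν x‖ / Λ)
    (((continuous_V_apply t c τ x).norm).div_const _)
    (fun ν => by
      rw [div_le_one hΛ0]
      exact (V_Bd hc t hτ ν).norm_le x)
    hA hη (Nd := fun ν => E.N (dev x (V c t τ ν)) / Λ)
    (fun k g hg hp ν hν hk => by
      rw [div_le_iff₀ hΛ0]
      refine (h_chain k g hg ?_ ν hν hk).trans (le_of_eq ?_)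
      · intro j hj
        obtain ⟨y, h1, h2, h3⟩ := hp j hj
        refine ⟨y, h1, h2, ?_⟩
        have h4 := mul_le_mul_of_nonneg_right h3 (sq_nonneg Λ)
        refine h4.trans (le_of_eq ?_)
        field_simp
      · ring)
    (fun ν hν => by
      rw [div_le_iff₀ hΛ0]
      refine (h_triv ν hν).trans (le_of_eq ?_)
      ring)
    (N := n - t) (by omega) (c := tcoef E x t c τ h z)
    (fun ν hν => (hbound ν).trans
      (div_le_div_of_nonneg_right (N_Udev_le_dev_V E x t c τ hc hD hP ht.le hτ ν) hΛ0.le))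
  have h5 : ‖tcoef E x t c τ h z 0‖ = E.N H / Λ := by
    unfold tcoef
    rw [add_zero, ← hH, norm_mul, hzn, norm_mul, hh, star_smul, smul_mul_assoc, map_smul,
      E.L_self_eq H, ← E.N_sq hHB, smul_eq_mul, norm_mul]
    simp only [RCLike.star_def, Complex.conj_ofReal, Complex.norm_real, Real.norm_eq_abs]
    rw [abs_of_pos (by positivity), abs_of_nonneg (sq_nonneg _)]
    simp
    field_simp
  rw [h5, div_le_iff₀ hΛ0] at key
  exact key

end Crest.Agent.R300U
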