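import Crest.Agent.R300.U.Defs

/-!
Row 300, upper bound: binomial identity `Pure ζ = p^{-l} ∑_a (∏ z_j^{gap_j a}) Tmom a` for
`ζ_j = (1-p) + p z_j` (owner helper899).
-/
set_option autoImplicit false

namespace Crest.Agent.R300U

open scoped BigOperators

/-- gaps of a tuple -/
def podGap {l : ℕ} (u : Fin l → ℕ) (j : Fin l) : ℕ :=
  if h : (j : ℕ) = 0 then u j else u j - u ⟨j - 1, by omega⟩ - 1

/-- the tuple with given gaps -/
def podSum {l : ℕ} (g : Fin l → ℕ) (j : Fin l) : ℕ :=
  (∑ i ∈ Finset.Iic j, g i) + j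

theorem podSum_zero {l : ℕ} (g : Fin l → ℕ) (j : Fin l) (h : (j : ℕ) = 0) :
    podSum g j = g j := by
  have e : Finset.Iic j = {j} := by
    ext i
    simp only [Finset.mem_Iic, Finset.mem_singleton]
    constructor
    · intro hi
      have : (i : ℕ) ≤ j := hi
      exact Fin.ext (by omega)
    · rintro rfl; exact le_rfl
  simp [podSum, e, h]

theorem podSum_succ {l : ℕ} (g : Fin l → ℕ) (j : Fin l) (h : (j : ℕ) ≠ 0) :
    podSum g j = podSum g ⟨j - 1, by omega⟩ + g j + 1 := by
  have e : Finset.Iic j = insert j (Finset.Iic (⟨j - 1, by omega⟩ : Fin l)) := by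
    ext i
    simp only [Finset.mem_Iic, Finset.mem_insert, Fin.le_def, Fin.ext_iff]
    omega
  have hn : j ∉ Finset.Iic (⟨j - 1, by omega⟩ : Fin l) := by
    simp only [Finset.mem_Iic, Fin.le_def]
    omega
  unfold podSum
  rw [e, Finset.sum_insert hn]
  simp only
  omega

theorem podGap_podSum {l : ℕ} (g : Fin l → ℕ) : podGap (podSum g) = g := by
  funext j
  unfold podGap
  by_cases h : (j : ℕ) = 0
  · rw [dif_pos h, podSum_zero g j h]
  · rw [dif_neg h, podSum_succ g j h]
    omega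

theorem podSum_strictMono {l : ℕ} (g : Fin l → ℕ) : StrictMono (podSum g) := by
  intro i j hij
  unfold podSum
  have h1 : ∑ a ∈ Finset.Iic i, g a ≤ ∑ a ∈ Finset.Iic j, g a :=
    Finset.sum_le_sum_of_subset (Finset.Iic_subset_Iic.2 hij.le)
  have h2 : (i : ℕ) < j := hij
  omega

theorem podSum_podGap {l : ℕ} {u : Fin l → ℕ} (hu : StrictMono u) : podSum (podGap u) = u := by
  have key : ∀ (k : ℕ) (j : Fin l), (j : ℕ) = k → podSum (podGap u) j = u j := by
    intro k
    induction k with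
    | zero =>
      intro j hj
      rw [podSum_zero _ _ hj]
      unfold podGap
      rw [dif_pos hj]
    | succ k ih =>
      intro j hj
      have h0 : (j : ℕ) ≠ 0 := by omega
      rw [podSum_succ _ _ h0, ih ⟨j - 1, by omega⟩ (by simp only; omega)]
      unfold podGap
      rw [dif_neg h0]
      have h1 : u ⟨j - 1, by omega⟩ < u j := hu (by
        rw [Fin.lt_def]; simp only; omega)
      omega
  funext j
  exact key j j rfl

theorem podSum_mono {l : ℕ} {g g' : Fin l → ℕ} (h : ∀ i, g i ≤ g' i) (j : Fin l) :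
    podSum g j ≤ podSum g' j := by
  unfold podSum
  have := Finset.sum_le_sum (s := Finset.Iic j) fun i _ => h i
  omega

/-- strictly increasing tuples below `n` -/
def podT (n l : ℕ) : Finset (Fin l → ℕ) :=
  (Fintype.piFinset (fun _ : Fin l => Finset.range n)).filter (fun u => StrictMono u)

theorem mem_podT {n l : ℕ} {u : Fin l → ℕ} : u ∈ podT n l ↔ (∀ j, u j < n) ∧ StrictMono u := by
  simp [podT, Fintype.mem_piFinset]

theorem card_podT_le (n l : ℕ) : (podT n l).card ≤ n ^ l := by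
  refine (Finset.card_filter_le _ _).trans ?_
  simp [Fintype.card_piFinset]

/-- binomial expansion over tuples -/
theorem pod_binom {n l : ℕ} (p : ℝ) (z : Fin l → ℂ) {u : Fin l → ℕ} (hu : u ∈ podT n l) :
    ∏ j, ((((1 - p : ℝ) : ℂ) + p * z j) ^ podGap u j) =
      ∑ a ∈ podT n l, ∏ j, ((((podGap u j).choose (podGap a j) : ℕ) : ℂ) * (p : ℂ) ^ podGap a j *
        ((1 - p : ℝ) : ℂ) ^ (podGap u j - podGap a j) * z j ^ podGap a j) := by
  obtain ⟨hun, hum⟩ := mem_podT.1 hu
  have h1 : ∀ j, ((((1 - p : ℝ) : ℂ) + p * z j) ^ podGap u j) =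
      ∑ h ∈ Finset.range (podGap u j + 1), ((((podGap u j).choose h : ℕ) : ℂ) * (p : ℂ) ^ h *
        ((1 - p : ℝ) : ℂ) ^ (podGap u j - h) * z j ^ h) := fun j => by
    rw [add_comm, add_pow]
    refine Finset.sum_congr rfl fun h _ => ?_
    rw [mul_pow]; ring
  simp only [h1]
  rw [Finset.prod_univ_sum]
  -- sum over gap vectors below `podGap u`
  symm
  have hsub : (Finset.image podSum (Fintype.piFinset fun j => Finset.range (podGap u j + 1))) ⊆
      podT n l := by
    intro a ha
    obtain ⟨g, hg, rfl⟩ := Finset.mem_image.1 ha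
    rw [Fintype.mem_piFinset] at hg
    refine mem_podT.2 ⟨fun j => ?_, podSum_strictMono g⟩
    have h2 : podSum g j ≤ podSum (podGap u) j := podSum_mono (fun i => by
      have := Finset.mem_range.1 (hg i)
      omega) j
    rw [podSum_podGap hum] at h2
    exact h2.trans_lt (hun j)
  rw [← Finset.sum_subset hsub]
  · rw [Finset.sum_image]
    · refine Finset.sum_congr rfl fun g _ => ?_
      rw [podGap_podSum]
    · intro g _ g' _ h
      rw [← podGap_podSum g, ← podGap_podSum g', h]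
  · intro a ha hna
    obtain ⟨-, ham⟩ := mem_podT.1 ha
    have h3 : ∃ j, podGap u j < podGap a j := by
      by_contra hcon
      push Not at hcon
      apply hna
      refine Finset.mem_image.2 ⟨podGap a, ?_, podSum_podGap ham⟩
      rw [Fintype.mem_piFinset]
      intro j
      rw [Finset.mem_range]
      have := hcon j
      omega
    obtain ⟨j, hj⟩ := h3
    refine Finset.prod_eq_zero (Finset.mem_univ j) ?_
    rw [Nat.choose_eq_zero_of_lt hj]
    simp

theorem Pure_eq {n l : ℕ} (ζ : Fin l → ℂ) :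
    (Pure ζ : R n) = ∑ u ∈ podT n l, (∏ j, ζ j ^ podGap u j) • ∏ j, (xv (u j) : R n) := rfl

theorem Tmom_eq {n l : ℕ} (p : ℝ) (a : Fin l → ℕ) :
    (Tmom p a : R n) = ∑ u ∈ podT n l, ((p : ℂ) ^ l * ∏ j : Fin l,
      ((((podGap u j).choose (podGap a j) : ℕ) : ℂ) * (p : ℂ) ^ podGap a j *
        ((1 - p : ℝ) : ℂ) ^ (podGap u j - podGap a j))) • ∏ j, (xv (u j) : R n) := rfl

/-- the binomial identity. -/
theorem Pure_eq_sum_Tmom {n l : ℕ} {p : ℝ} (hp : p ≠ 0) (z : Fin l → ℂ) :
    (Pure (fun j => ((1 - p : ℝ) : ℂ) + p * z j) : R n) =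
      ∑ a ∈ podT n l, (((p : ℂ) ^ l)⁻¹ * ∏ j, z j ^ podGap a j) • Tmom p a := by
  have hp' : (p : ℂ) ≠ 0 := by exact_mod_cast hp
  rw [Pure_eq]
  simp only [Tmom_eq, Finset.smul_sum, smul_smul]
  rw [Finset.sum_comm]
  refine Finset.sum_congr rfl fun u hu => ?_
  rw [pod_binom p z hu, Finset.sum_smul]
  refine Finset.sum_congr rfl fun a _ => ?_
  congr 1
  rw [Finset.prod_mul_distrib]
  field_simp

end Crest.Agent.R300U
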