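import Mathlib

/-!
Row 300, upper bound: disc geometry and three lines for `PureOfDataStatement` (owner helper899).
-/
set_option autoImplicit false

namespace Crest.Agent.R300U

open Complex Set

theorem pod_disc {p : ℝ} (hp : 0 < p) {v : ℂ} (hv : v ≠ 0) :
    ‖(1 - v⁻¹) - ((1 - p : ℝ) : ℂ)‖ ≤ p ↔ 1 / (2 * p) ≤ v.re := by
  have hv2 : 0 < normSq v := normSq_pos.2 hv
  have e1 : (1 - v⁻¹) - ((1 - p : ℝ) : ℂ) = (p * v - 1) / v := by
    push_cast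
    field_simp
    ring
  rw [e1, norm_div, div_le_iff₀ (norm_pos_iff.2 hv)]
  have h1 : ‖(p : ℂ) * v - 1‖ ^ 2 = p ^ 2 * normSq v - 2 * p * v.re + 1 := by
    rw [← normSq_eq_norm_sq, normSq_apply, normSq_apply]
    simp only [sub_re, mul_re, ofReal_re, ofReal_im, one_re, sub_im, mul_im, one_im]
    ring
  have h2 : (p * ‖v‖) ^ 2 = p ^ 2 * normSq v := by
    rw [mul_pow, normSq_eq_norm_sq]
  rw [← sq_le_sq₀ (norm_nonneg _) (by positivity), h1, h2, div_le_iff₀ (by positivity)]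
  constructor <;> intro h <;> nlinarith

/-- the deformation of the disc parameters. -/
noncomputable def podZ {l : ℕ} (ζ : Fin l → ℂ) (w : ℂ) (j : Fin l) : ℂ :=
  open Classical in if ζ j = 1 then 1 else 1 - ((1 - ζ j)⁻¹ + w)⁻¹

theorem podZ_zero {l : ℕ} (ζ : Fin l → ℂ) : podZ ζ 0 = ζ := by
  funext j
  unfold podZ
  by_cases h : ζ j = 1
  · rw [if_pos h, h]
  · rw [if_neg h, add_zero, inv_inv]
    ring

section

variable {l : ℕ} {ζ : Fin l → ℂ} {p p' : ℝ}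

theorem pod_W_re (hp' : 0 < p') (hζ : ∀ j, ‖ζ j - ((1 - p' : ℝ) : ℂ)‖ ≤ p') {j : Fin l}
    (hj : ζ j ≠ 1) : 1 / (2 * p') ≤ ((1 - ζ j)⁻¹).re := by
  have h1 : (1 - ζ j)⁻¹ ≠ 0 := inv_ne_zero (sub_ne_zero.2 (Ne.symm hj))
  rw [← pod_disc hp' h1, inv_inv]
  have e : 1 - (1 - ζ j) = ζ j := by ring
  rw [e]
  exact hζ j

theorem pod_Ww_re (hp' : 0 < p') (hζ : ∀ j, ‖ζ j - ((1 - p' : ℝ) : ℂ)‖ ≤ p') {j : Fin l}
    (hj : ζ j ≠ 1) {w : ℂ} (hw : -(1 / (2 * p') - 1 / 2) ≤ w.re) :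
    1 / 2 ≤ ((1 - ζ j)⁻¹ + w).re := by
  have := pod_W_re hp' hζ hj
  rw [add_re]
  linarith

theorem pod_ne (hp' : 0 < p') (hζ : ∀ j, ‖ζ j - ((1 - p' : ℝ) : ℂ)‖ ≤ p') {j : Fin l}
    (hj : ζ j ≠ 1) {w : ℂ} (hw : -(1 / (2 * p') - 1 / 2) ≤ w.re) :
    (1 - ζ j)⁻¹ + w ≠ 0 := by
  intro h
  have h1 := pod_Ww_re hp' hζ hj hw
  rw [h] at h1
  norm_num at h1

theorem podZ_norm_le (hp' : 0 < p') (hζ : ∀ j, ‖ζ j - ((1 - p' : ℝ) : ℂ)‖ ≤ p') {w : ℂ}
    (hw : -(1 / (2 * p') - 1 / 2) ≤ w.re) (j : Fin l) : ‖podZ ζ w j‖ ≤ 1 := by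
  unfold podZ
  by_cases hj : ζ j = 1
  · rw [if_pos hj]; simp
  · rw [if_neg hj]
    have h1 := (pod_disc one_pos (pod_ne hp' hζ hj hw)).2 (by
      have := pod_Ww_re hp' hζ hj hw
      simpa using this)
    simpa using h1

theorem podZ_disc (hp : 0 < p) (hp' : 0 < p')
    (hζ : ∀ j, ‖ζ j - ((1 - p' : ℝ) : ℂ)‖ ≤ p') {w : ℂ}
    (hw : 1 / (2 * p) - 1 / (2 * p') ≤ w.re) (hw' : -(1 / (2 * p') - 1 / 2) ≤ w.re) (j : Fin l) :
    ‖podZ ζ w j - ((1 - p : ℝ) : ℂ)‖ ≤ p := by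
  unfold podZ
  by_cases hj : ζ j = 1
  · rw [if_pos hj]
    have e : (1 : ℂ) - ((1 - p : ℝ) : ℂ) = p := by push_cast; ring
    rw [e, Complex.norm_real, Real.norm_eq_abs, abs_of_pos hp]
  · rw [if_neg hj]
    refine (pod_disc hp (pod_ne hp' hζ hj hw')).2 ?_
    have := pod_W_re hp' hζ hj
    rw [add_re]
    linarith

theorem podZ_diff (hp' : 0 < p') (hζ : ∀ j, ‖ζ j - ((1 - p' : ℝ) : ℂ)‖ ≤ p') {w : ℂ}
    (hw : -(1 / (2 * p') - 1 / 2) ≤ w.re) (j : Fin l) :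
    DifferentiableAt ℂ (fun w => podZ ζ w j) w := by
  unfold podZ
  by_cases hj : ζ j = 1
  · simp only [if_pos hj]; exact differentiableAt_const _
  · simp only [if_neg hj]
    exact (differentiableAt_const _).sub
      (((differentiableAt_const _).add differentiableAt_id).inv (pod_ne hp' hζ hj hw))

end

/-- three lines at the point `0`. -/
theorem pod_three {F : ℂ → ℂ} {t1 t2 M M0 M1 : ℝ} (ht1 : 0 < t1) (ht2 : 0 < t2)
    (hd : ∀ w : ℂ, -t1 ≤ w.re → DifferentiableAt ℂ F w)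
    (hM : ∀ w : ℂ, -t1 ≤ w.re → ‖F w‖ ≤ M)
    (hM0 : ∀ w : ℂ, w.re = -t1 → ‖F w‖ ≤ M0) (hM1 : ∀ w : ℂ, w.re = t2 → ‖F w‖ ≤ M1) :
    ‖F 0‖ ≤ M0 ^ (1 - t1 / (t1 + t2)) * M1 ^ (t1 / (t1 + t2)) := by
  have hul : -t1 < t2 := by linarith
  have hcl : closure (HadamardThreeLines.verticalStrip (-t1) t2) ⊆ {w : ℂ | -t1 ≤ w.re} := by
    refine closure_minimal ?_ (isClosed_le continuous_const continuous_re)
    intro w hw
    exact hw.1.le
  have h1 := HadamardThreeLines.norm_le_interp_of_mem_verticalClosedStrip' (f := F) (z := 0)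
    (a := M0) (b := M1) hul
    (by simp only [HadamardThreeLines.verticalClosedStrip, mem_preimage, zero_re, mem_Icc]
        constructor <;> linarith)
    (DifferentiableOn.diffContOnCl fun w hw => (hd w (hcl hw)).differentiableWithinAt)
    ⟨M, by
      rintro _ ⟨w, hw, rfl⟩
      exact hM w hw.1⟩
    (fun w hw => hM0 w hw) (fun w hw => hM1 w hw)
  have e : ((0 : ℂ).re - -t1) / (t2 - -t1) = t1 / (t1 + t2) := by
    rw [zero_re]; congr 1 <;> ring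
  rw [e] at h1
  exact h1

/-- the exponent: `t1 / (t1 + t2) ≥ (1 - p') p`. -/
theorem pod_exponent {p p' : ℝ} (hp : 0 < p) (hpp : p < p') (hp1 : p' < 1) :
    0 < 1 / (2 * p') - 1 / 2 ∧ 0 < 1 / (2 * p) - 1 / (2 * p') ∧
    (1 - p') * p ≤ (1 / (2 * p') - 1 / 2) /
      ((1 / (2 * p') - 1 / 2) + (1 / (2 * p) - 1 / (2 * p'))) ∧
    (1 / (2 * p') - 1 / 2) /
      ((1 / (2 * p') - 1 / 2) + (1 / (2 * p) - 1 / (2 * p'))) ≤ 1 := by
  have hp' : 0 < p' := hp.trans hpp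
  have h1 : 0 < 1 / (2 * p') - 1 / 2 := by
    rw [sub_pos]
    exact one_div_lt_one_div_of_lt (by positivity) (by linarith)
  have h2 : 0 < 1 / (2 * p) - 1 / (2 * p') := by
    rw [sub_pos]
    exact one_div_lt_one_div_of_lt (by positivity) (by linarith)
  refine ⟨h1, h2, ?_, ?_⟩
  · have e : (1 / (2 * p') - 1 / 2) / ((1 / (2 * p') - 1 / 2) + (1 / (2 * p) - 1 / (2 * p'))) =
        (1 - p') * p / (p' * (1 - p)) := by
      have h3 : 1 - p ≠ 0 := by linarith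
      have h4 : (1 / (2 * p') - 1 / 2) + (1 / (2 * p) - 1 / (2 * p')) = (1 - p) / (2 * p) := by
        field_simp; ring
      rw [h4]
      field_simp
    rw [e, le_div_iff₀ (mul_pos hp' (by linarith))]
    have h5 : p' * (1 - p) ≤ 1 := by nlinarith
    have h6 : 0 ≤ (1 - p') * p := mul_nonneg (by linarith) hp.le
    nlinarith
  · rw [div_le_one (by linarith)]
    linarith

end Crest.Agent.R300U
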