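import Crest.Agent.R300.U.PodA

/-!
Row 300, upper bound: the little pseudo-expectation calculus used for `PureOfDataStatement`
(owner helper899).
-/
set_option autoImplicit false

namespace Crest.Agent.R300U

open scoped BigOperators

variable {n : ℕ}

/-- polynomial of degree at most `d` -/
def Pd (d : ℕ) (P : R n) : Prop := ∃ c : ℝ, Bd d c P

theorem pd_mono {d : ℕ} (S : Finset (Fin n)) (h : S.card ≤ d) : Pd d (mono S : R n) := by
  classical
  refine ⟨1, fun T => if T = S then 1 else 0, fun T hT => ?_, ?_, ?_⟩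
  · have hne : T ≠ S := by
      rintro rfl
      omega
    simp [hne]
  · rw [Finset.sum_eq_single S]
    · simp
    · intro T _ hT; simp [hT]
    · simp
  · rw [Finset.sum_eq_single S]
    · simp
    · intro T _ hT; simp [hT]
    · simp

theorem Pd.smul {d : ℕ} {P : R n} (z : ℂ) (h : Pd d P) : Pd d (z • P) := by
  obtain ⟨c, a, h1, h2, h3⟩ := h
  refine ⟨‖z‖ * c, fun S => z * a S, fun S hS => by simp [h1 S hS], ?_, ?_⟩
  · simp only [norm_mul]
    rw [← Finset.mul_sum]
    exact mul_le_mul_of_nonneg_left h2 (norm_nonneg _)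
  · rw [h3, Finset.smul_sum]
    simp only [smul_smul]

theorem Pd.add {d : ℕ} {P Q : R n} (hP : Pd d P) (hQ : Pd d Q) : Pd d (P + Q) := by
  obtain ⟨c, a, h1, h2, h3⟩ := hP
  obtain ⟨c', a', h1', h2', h3'⟩ := hQ
  refine ⟨c + c', fun S => a S + a' S, fun S hS => by simp [h1 S hS, h1' S hS], ?_, ?_⟩
  · calc (∑ S, ‖a S + a' S‖) ≤ ∑ S, (‖a S‖ + ‖a' S‖) :=
          Finset.sum_le_sum fun S _ => norm_add_le _ _
      _ ≤ c + c' := by rw [Finset.sum_add_distrib]; exact add_le_add h2 h2'
  · rw [h3, h3', ← Finset.sum_add_distrib]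
    simp only [add_smul]

theorem pd_zero {d : ℕ} : Pd d (0 : R n) :=
  ⟨0, fun _ => 0, fun _ _ => rfl, by simp, by simp⟩

theorem pd_sum {d : ℕ} {ι : Type*} (s : Finset ι) (P : ι → R n) (h : ∀ i ∈ s, Pd d (P i)) :
    Pd d (∑ i ∈ s, P i) := by
  classical
  induction s using Finset.induction_on with
  | empty => simpa using pd_zero
  | insert i s hi ih =>
    rw [Finset.sum_insert hi]
    exact (h i (Finset.mem_insert_self i s)).add
      (ih fun j hj => h j (Finset.mem_insert_of_mem hj))

theorem pod_mono_empty : (mono ∅ : R n) = 1 := by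
  funext x; simp [mono]

theorem cst_eq (z : ℂ) : (cst z : R n) = z • mono ∅ := by
  rw [pod_mono_empty]; funext x; simp [cst]

theorem pd_cst {d : ℕ} (z : ℂ) : Pd d (cst z : R n) := by
  rw [cst_eq]; exact (pd_mono ∅ (by simp)).smul z

theorem Pd.dev {d : ℕ} {P : R n} (x : Fin n → Bool) (h : Pd d P) : Pd d (dev x P) := by
  have e : Crest.Agent.R300U.dev x P = P + (-1 : ℂ) • cst (P x) := by
    unfold Crest.Agent.R300U.dev
    rw [neg_one_smul, sub_eq_add_neg]
  rw [e]
  exact h.add ((pd_cst _).smul _)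

theorem pod_dev_smul (x : Fin n → Bool) (z : ℂ) (P : R n) : dev x (z • P) = z • dev x P := by
  funext y
  simp [dev, cst, mul_sub]

theorem pod_dev_sum (x : Fin n → Bool) {ι : Type*} (s : Finset ι) (P : ι → R n) :
    dev x (∑ i ∈ s, P i) = ∑ i ∈ s, dev x (P i) := by
  funext y
  simp [dev, cst, Finset.sum_apply, Finset.sum_sub_distrib]

/-- the product of the letters of a strictly increasing tuple is a monomial -/
theorem prod_xv_eq {l : ℕ} {u : Fin l → ℕ} (hu : u ∈ podT n l) :
    ∃ S : Finset (Fin n), S.card ≤ l ∧ (∏ j, (xv (u j) : R n)) = mono S := by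
  classical
  obtain ⟨h1, -⟩ := mem_podT.1 hu
  refine ⟨Finset.univ.image fun j : Fin l => (⟨u j, h1 j⟩ : Fin n), ?_, ?_⟩
  · exact Finset.card_image_le.trans (by simp)
  · funext x
    rw [Finset.prod_apply]
    have e : ∀ j, (xv (u j) : R n) x = if x ⟨u j, h1 j⟩ = true then 1 else 0 := fun j => by
      simp [xv, h1 j]
    simp only [e]
    unfold mono
    rw [Finset.prod_ite_zero]
    simp

theorem pd_prod_xv {l d : ℕ} (hl : l ≤ d) {u : Fin l → ℕ} (hu : u ∈ podT n l) :
    Pd d (∏ j, (xv (u j) : R n)) := by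
  obtain ⟨S, hS, e⟩ := prod_xv_eq hu
  rw [e]
  exact pd_mono S (hS.trans hl)

theorem pd_Pure {l d : ℕ} (hl : l ≤ d) (ζ : Fin l → ℂ) : Pd d (Pure ζ : R n) := by
  rw [Pure_eq]
  exact pd_sum _ _ fun u hu => (pd_prod_xv hl hu).smul _

theorem pd_Tmom {l d : ℕ} (hl : l ≤ d) (p : ℝ) (a : Fin l → ℕ) : Pd d (Tmom p a : R n) := by
  rw [Tmom_eq]
  exact pd_sum _ _ fun u hu => (pd_prod_xv hl hu).smul _

namespace PE

variable {D : ℕ} (E : PE n D)

theorem pod_nonneg {P : R n} (h : Pd D P) : 0 ≤ (E.L (star P * P)).re := by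
  obtain ⟨c, hc⟩ := h
  exact E.pos P c hc

theorem pod_N_nonneg (P : R n) : 0 ≤ E.N P := Real.sqrt_nonneg _

theorem pod_N_sq {P : R n} (h : Pd D P) : E.N P ^ 2 = (E.L (star P * P)).re :=
  Real.sq_sqrt (E.pod_nonneg h)

theorem pod_real (P : R n) : (E.L (star P * P)).im = 0 := by
  have h1 := E.herm (star P * P)
  have e : star (star P * P) = star P * P := by
    rw [star_mul', star_star, mul_comm]
  rw [e] at h1
  have h2 := congrArg Complex.im h1
  simp only [Complex.star_def, Complex.conj_im] at h2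
  linarith

theorem pod_normL {P : R n} (h : Pd D P) : ‖E.L (star P * P)‖ = E.N P ^ 2 := by
  rw [E.pod_N_sq h]
  have h1 : E.L (star P * P) = ((E.L (star P * P)).re : ℂ) :=
    Complex.ext (by simp) (by simp [E.pod_real P])
  rw [h1, Complex.norm_real, Real.norm_eq_abs, Complex.ofReal_re, abs_of_nonneg (E.pod_nonneg h)]

/-- Cauchy-Schwarz -/
theorem pod_cs {P Q : R n} (hP : Pd D P) (hQ : Pd D Q) :
    ‖E.L (star P * Q)‖ ≤ E.N P * E.N Q := by
  set A := (E.L (star P * P)).re with hA
  set B := (E.L (star Q * Q)).re with hB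
  set c := E.L (star P * Q) with hc
  have hA0 : 0 ≤ A := E.pod_nonneg hP
  have hB0 : 0 ≤ B := E.pod_nonneg hQ
  have hcc : E.L (star Q * P) = star c := by
    have h1 := E.herm (star P * Q)
    have e : star (star P * Q) = star Q * P := by
      rw [star_mul', star_star, mul_comm]
    rw [e] at h1
    exact h1
  -- the quadratic inequality
  have key : ∀ t : ℝ, 0 ≤ A - 2 * t * ‖c‖ ^ 2 + t ^ 2 * ‖c‖ ^ 2 * B := by
    intro t
    set z : ℂ := -(t : ℂ) * star c with hz
    have h1 := E.pod_nonneg (hP.add (hQ.smul z))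
    have e : star (P + z • Q) * (P + z • Q) =
        star P * P + z • (star P * Q) + (star z) • (star Q * P) + (star z * z) • (star Q * Q) := by
      funext x
      simp only [Pi.mul_apply, Pi.add_apply, Pi.smul_apply, Pi.star_apply, smul_eq_mul, star_add,
        star_mul', Complex.star_def]
      ring
    rw [e, map_add, map_add, map_add, map_smul, map_smul, map_smul, hcc, ← hc] at h1
    have hn : (star c * c : ℂ) = ((‖c‖ ^ 2 : ℝ) : ℂ) := by
      rw [Complex.star_def, ← Complex.normSq_eq_conj_mul_self, Complex.normSq_eq_norm_sq]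
    have h2 : z • c = ((-t * ‖c‖ ^ 2 : ℝ) : ℂ) := by
      rw [smul_eq_mul, hz, mul_assoc, hn]; push_cast; ring
    have h3 : star z • star c = ((-t * ‖c‖ ^ 2 : ℝ) : ℂ) := by
      have : star z * star c = star (z * c) := (star_mul' z c).symm
      rw [smul_eq_mul, this, ← smul_eq_mul, h2, Complex.star_def, Complex.conj_ofReal]
    have h4 : star z * z = ((t ^ 2 * ‖c‖ ^ 2 : ℝ) : ℂ) := by
      have e5 : star z = -(t : ℂ) * c := by
        rw [hz, star_mul', star_star, star_neg, Complex.star_def, Complex.conj_ofReal]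
      rw [e5, hz]
      have : (-(t : ℂ) * c) * (-(t : ℂ) * star c) = (t : ℂ) ^ 2 * (star c * c) := by ring
      rw [this, hn]; push_cast; ring
    rw [h2, h3, h4] at h1
    simp only [Complex.add_re, smul_eq_mul, Complex.re_ofReal_mul, Complex.ofReal_re] at h1
    rw [← hA, ← hB] at h1
    linarith
  have h5 : ‖c‖ ^ 2 ≤ A * B := by
    by_cases hc0 : ‖c‖ ^ 2 = 0
    · rw [hc0]; positivity
    have hcp : 0 < ‖c‖ ^ 2 := lt_of_le_of_ne (sq_nonneg _) (Ne.symm hc0)
    rcases hB0.eq_or_lt with hB1 | hB1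
    · exfalso
      have h6 := key ((A + 1) / ‖c‖ ^ 2)
      rw [← hB1, mul_zero, add_zero] at h6
      have e : 2 * ((A + 1) / ‖c‖ ^ 2) * ‖c‖ ^ 2 = 2 * (A + 1) := by
        rw [mul_assoc, div_mul_cancel₀ _ hc0]
      rw [e] at h6
      linarith
    · have h6 := key (1 / B)
      have e : A - 2 * (1 / B) * ‖c‖ ^ 2 + (1 / B) ^ 2 * ‖c‖ ^ 2 * B = A - ‖c‖ ^ 2 / B := by
        field_simp; ring
      rw [e, sub_nonneg, div_le_iff₀ hB1] at h6
      exact h6
  have h6 : ‖c‖ ≤ Real.sqrt (A * B) := Real.le_sqrt_of_sq_le h5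
  rw [Real.sqrt_mul hA0] at h6
  exact h6

/-- testing -/
theorem pod_N_le {Q : R n} (hQ : Pd D Q) {M : ℝ} (h : ‖E.L (star Q * Q)‖ ≤ E.N Q * M) (hM : 0 ≤ M) :
    E.N Q ≤ M := by
  rw [E.pod_normL hQ] at h
  rcases (E.pod_N_nonneg Q).eq_or_lt with h0 | h0
  · rw [← h0]; exact hM
  · rw [sq] at h
    exact le_of_mul_le_mul_left h h0

theorem pod_mono_le {S : Finset (Fin n)} (hS : S.card ≤ D) (x : Fin n → Bool) :
    E.N (dev x (mono S)) ≤ 1 := by
  have hm : (star (mono S) * mono S : R n) = mono S := by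
    funext y
    by_cases h : ∀ i ∈ S, y i = true
    · simp [mono, h]
    · simp [mono, h]
  have hP := pd_mono (n := n) (d := D) S hS
  have h0 : 0 ≤ (E.L (mono S)).re := by
    have := E.pod_nonneg hP
    rwa [hm] at this
  have hm1 : (star (1 - mono S) * (1 - mono S) : R n) = 1 - mono S := by
    have hst : (star (mono S) : R n) = mono S := by
      funext y
      simp [mono]
    have hmm : (mono S * mono S : R n) = mono S := by
      rw [hst] at hm; exact hm
    rw [star_sub, star_one, hst, mul_sub, mul_one, sub_mul, one_mul, hmm]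
    ring
  have hP1 : Pd D (1 - mono S : R n) := by
    have := (pd_cst (n := n) (d := D) 1).add (hP.smul (-1))
    have e : (cst 1 + (-1 : ℂ) • mono S : R n) = 1 - mono S := by
      rw [neg_one_smul, ← sub_eq_add_neg]; rfl
    rwa [e] at this
  have h1 : 0 ≤ 1 - (E.L (mono S)).re := by
    have := E.pod_nonneg hP1
    rw [hm1, map_sub, E.one] at this
    simpa using this
  unfold PE.N
  rw [Real.sqrt_le_one]
  by_cases hx : ∀ i ∈ S, x i = true
  · have hmx : (mono S : R n) x = 1 := by
      unfold mono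
      rw [if_pos hx]
    have e : (dev x (mono S) : R n) = (-1 : ℂ) • (1 - mono S) := by
      funext y
      simp [dev, cst, hmx]
    have e2 : star ((-1 : ℂ) • (1 - mono S) : R n) * ((-1 : ℂ) • (1 - mono S)) =
        star (1 - mono S) * (1 - mono S) := by
      funext y
      simp only [Pi.mul_apply, Pi.star_apply, Pi.smul_apply, smul_eq_mul, star_mul', star_neg,
        star_one]
      ring
    rw [e, e2, hm1, map_sub, E.one, Complex.sub_re, Complex.one_re]
    linarith
  · have hmx : (mono S : R n) x = 0 := by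
      unfold mono
      rw [if_neg hx]
    have e : (dev x (mono S) : R n) = mono S := by
      funext y
      simp [dev, cst, hmx]
    rw [e, hm]
    linarith

end PE

end Crest.Agent.R300U
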