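import Crest.Agent.R300.U.Iface
import Crest.Agent.R300.U.PodB
import Crest.Agent.R300.U.PodC

/-!
Row 300, upper bound: `PureOfDataStatement` (owner helper899), from `TFormStatement`.
-/
set_option autoImplicit false

namespace Crest.Agent.R300U

open scoped BigOperators

variable {n D : ℕ} {E : PE n D} {x : Fin n → Bool} {p p' : ℝ} {K l : ℕ} {β b : ℝ}

theorem pod_data_Tmom (hT : TFormStatement) (hd : Data E x p K β) (hl : l ≤ K) {a : Fin l → ℕ}
    (ha : a ∈ podT n l) : E.N (dev x (Tmom p a)) ≤ β := by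
  obtain ⟨h1, h2⟩ := mem_podT.1 ha
  rw [← hT n l p a h2]
  refine hd _ ?_ ?_
  · exact Finset.card_image_le.trans (by simpa using hl)
  · intro j hj
    obtain ⟨i, _, rfl⟩ := Finset.mem_image.1 hj
    exact h1 i

theorem pod_pair_le (hT : TFormStatement) (hp : 0 < p) (hβ : 0 ≤ β) (hl : l ≤ K) (hK : K ≤ D)
    (hd : Data E x p K β) {Q : R n} (hQ : Pd D Q) {ζ : Fin l → ℂ}
    (hζ : ∀ j, ‖ζ j - ((1 - p : ℝ) : ℂ)‖ ≤ p) :
    ‖E.L (star Q * dev x (Pure ζ))‖ ≤ E.N Q * ((p ^ l)⁻¹ * (n : ℝ) ^ l * β) := by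
  have hpc : (p : ℂ) ≠ 0 := by exact_mod_cast hp.ne'
  set z : Fin l → ℂ := fun j => (ζ j - ((1 - p : ℝ) : ℂ)) / p with hz
  have hz1 : ∀ j, ‖z j‖ ≤ 1 := fun j => by
    rw [hz]
    simp only
    rw [norm_div, Complex.norm_real, Real.norm_eq_abs, abs_of_pos hp, div_le_one hp]
    exact hζ j
  have e : ζ = fun j => ((1 - p : ℝ) : ℂ) + p * z j := by
    funext j
    rw [hz]
    simp only
    field_simp
    ring
  rw [e, Pure_eq_sum_Tmom hp.ne', pod_dev_sum, Finset.mul_sum, map_sum]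
  refine (norm_sum_le _ _).trans ?_
  have hN := E.pod_N_nonneg Q
  have hterm : ∀ a ∈ podT n l,
      ‖E.L (star Q * dev x ((((p : ℂ) ^ l)⁻¹ * ∏ j, z j ^ podGap a j) • Tmom p a))‖ ≤
        E.N Q * ((p ^ l)⁻¹ * β) := by
    intro a ha
    rw [pod_dev_smul, mul_smul_comm, map_smul, smul_eq_mul, norm_mul]
    have h1 : ‖((p : ℂ) ^ l)⁻¹ * ∏ j, z j ^ podGap a j‖ ≤ (p ^ l)⁻¹ := by
      rw [norm_mul, norm_inv, norm_pow, Complex.norm_real, Real.norm_eq_abs, abs_of_pos hp,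
        norm_prod]
      refine mul_le_of_le_one_right (by positivity) ?_
      refine Finset.prod_le_one (fun j _ => norm_nonneg _) fun j _ => ?_
      rw [norm_pow]
      exact pow_le_one₀ (norm_nonneg _) (hz1 j)
    have h2 : ‖E.L (star Q * dev x (Tmom p a))‖ ≤ E.N Q * β :=
      (E.pod_cs hQ ((pd_Tmom (hl.trans hK) p a).dev x)).trans
        (mul_le_mul_of_nonneg_left (pod_data_Tmom hT hd hl ha) hN)
    calc _ ≤ (p ^ l)⁻¹ * (E.N Q * β) := mul_le_mul h1 h2 (norm_nonneg _) (by positivity)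
      _ = E.N Q * ((p ^ l)⁻¹ * β) := by ring
  refine (Finset.sum_le_card_nsmul _ _ _ hterm).trans ?_
  rw [nsmul_eq_mul]
  have h3 : ((podT n l).card : ℝ) ≤ (n : ℝ) ^ l := by exact_mod_cast card_podT_le n l
  calc ((podT n l).card : ℝ) * (E.N Q * ((p ^ l)⁻¹ * β))
      ≤ (n : ℝ) ^ l * (E.N Q * ((p ^ l)⁻¹ * β)) :=
        mul_le_mul_of_nonneg_right h3 (by positivity)
    _ = E.N Q * ((p ^ l)⁻¹ * (n : ℝ) ^ l * β) := by ring

theorem pod_pair_triv (hl : l ≤ D) {Q : R n} (hQ : Pd D Q) {ζ : Fin l → ℂ}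
    (hζ : ∀ j, ‖ζ j‖ ≤ 1) :
    ‖E.L (star Q * dev x (Pure ζ))‖ ≤ E.N Q * (n : ℝ) ^ l := by
  rw [Pure_eq, pod_dev_sum, Finset.mul_sum, map_sum]
  refine (norm_sum_le _ _).trans ?_
  have hN := E.pod_N_nonneg Q
  have hterm : ∀ u ∈ podT n l,
      ‖E.L (star Q * dev x ((∏ j, ζ j ^ podGap u j) • ∏ j, (xv (u j) : R n)))‖ ≤ E.N Q * 1 := by
    intro u hu
    rw [pod_dev_smul, mul_smul_comm, map_smul, smul_eq_mul, norm_mul]
    have h1 : ‖∏ j, ζ j ^ podGap u j‖ ≤ 1 := by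
      rw [norm_prod]
      refine Finset.prod_le_one (fun j _ => norm_nonneg _) fun j _ => ?_
      rw [norm_pow]
      exact pow_le_one₀ (norm_nonneg _) (hζ j)
    obtain ⟨S, hS, eS⟩ := prod_xv_eq hu
    have h2 : ‖E.L (star Q * dev x (∏ j, (xv (u j) : R n)))‖ ≤ E.N Q * 1 :=
      (E.pod_cs hQ ((pd_prod_xv hl hu).dev x)).trans
        (mul_le_mul_of_nonneg_left (by rw [eS]; exact E.pod_mono_le (hS.trans hl) x) hN)
    calc _ ≤ 1 * (E.N Q * 1) := mul_le_mul h1 h2 (norm_nonneg _) zero_le_one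
      _ = E.N Q * 1 := one_mul _
  refine (Finset.sum_le_card_nsmul _ _ _ hterm).trans ?_
  rw [nsmul_eq_mul]
  have h3 : ((podT n l).card : ℝ) ≤ (n : ℝ) ^ l := by exact_mod_cast card_podT_le n l
  calc ((podT n l).card : ℝ) * (E.N Q * 1) ≤ (n : ℝ) ^ l * (E.N Q * 1) :=
        mul_le_mul_of_nonneg_right h3 (by positivity)
    _ = E.N Q * (n : ℝ) ^ l := by ring

/-- the real inequality behind the first half. -/
theorem pod_real1 (hn : 1 ≤ n) (hp : 0 < p) (hp1 : p < 1) (hβ : 0 ≤ β) (hl : l ≤ K)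
    (h : (K : ℝ) * Real.log (1 / p) + K * Real.log (n + 1) + b ≤ -Real.log β ∨ β = 0) :
    (p ^ l)⁻¹ * (n : ℝ) ^ l * β ≤ Real.exp (-b) := by
  rcases hβ.eq_or_lt with h0 | hβp
  · rw [← h0, mul_zero]; exact (Real.exp_pos _).le
  rcases h with h | h
  swap
  · exact absurd h hβp.ne'
  have hn' : (1 : ℝ) ≤ n := by exact_mod_cast hn
  have hlK : (l : ℝ) ≤ K := by exact_mod_cast hl
  have hlp : 0 ≤ Real.log (1 / p) := Real.log_nonneg (by
    rw [le_div_iff₀ hp]; linarith)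
  have hln : 0 ≤ Real.log n := Real.log_nonneg hn'
  have hlnn : Real.log n ≤ Real.log (n + 1) := Real.log_le_log (by linarith) (by linarith)
  have e : (p ^ l)⁻¹ * (n : ℝ) ^ l * β =
      Real.exp (l * Real.log (1 / p) + l * Real.log n + Real.log β) := by
    rw [Real.exp_add, Real.exp_add, Real.exp_log hβp, Real.exp_nat_mul, Real.exp_nat_mul,
      Real.exp_log (by positivity), Real.exp_log (by linarith)]
    congr 2
    rw [one_div, inv_pow]
  rw [e, Real.exp_le_exp]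
  have h1 : (l : ℝ) * Real.log (1 / p) ≤ K * Real.log (1 / p) :=
    mul_le_mul_of_nonneg_right hlK hlp
  have h2 : (l : ℝ) * Real.log n ≤ K * Real.log (n + 1) :=
    mul_le_mul hlK hlnn hln (by positivity)
  linarith

/-- disc inclusion -/
theorem pod_disc_mono (hpp : p' ≤ p) {z : ℂ} (hz : ‖z - ((1 - p' : ℝ) : ℂ)‖ ≤ p') :
    ‖z - ((1 - p : ℝ) : ℂ)‖ ≤ p := by
  have e : z - ((1 - p : ℝ) : ℂ) = (z - ((1 - p' : ℝ) : ℂ)) + ((p - p' : ℝ) : ℂ) := by
    push_cast; ring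
  rw [e]
  refine (norm_add_le _ _).trans ?_
  rw [Complex.norm_real, Real.norm_eq_abs, abs_of_nonneg (by linarith)]
  linarith

/-- the interpolation inequality. -/
theorem pod_interp (hT : TFormStatement) (hn : 1 ≤ n) (hp : 0 < p) (hpp : p < p') (hp1 : p' < 1)
    (hβ : 0 ≤ β) (hl : l ≤ K) (hK : K ≤ D) (hd : Data E x p K β) {ζ : Fin l → ℂ}
    (hζ : ∀ j, ‖ζ j - ((1 - p' : ℝ) : ℂ)‖ ≤ p') :
    ∃ s : ℝ, 0 < s ∧ (1 - p') * p ≤ s ∧ s ≤ 1 ∧
      (E.N (dev x (Pure ζ)) = 0 ∨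
        E.N (dev x (Pure ζ)) ≤ (n : ℝ) ^ l * ((p ^ l)⁻¹ * β) ^ s) := by
  have hp' : 0 < p' := hp.trans hpp
  obtain ⟨ht1, ht2, hs1, hs2⟩ := pod_exponent hp hpp hp1
  set t1 : ℝ := 1 / (2 * p') - 1 / 2 with ht1d
  set t2 : ℝ := 1 / (2 * p) - 1 / (2 * p') with ht2d
  set s : ℝ := t1 / (t1 + t2) with hs
  have hs0 : 0 < s := div_pos ht1 (by linarith)
  refine ⟨s, hs0, hs1, hs2, ?_⟩
  set Q : R n := dev x (Pure ζ) with hQd
  have hQ : Pd D Q := (pd_Pure (hl.trans hK) ζ).dev x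
  rcases (E.pod_N_nonneg Q).eq_or_lt with h0 | h0
  · exact Or.inl h0.symm
  right
  have hn' : (1 : ℝ) ≤ n := by exact_mod_cast hn
  -- the interpolating function
  set F : ℂ → ℂ := fun w => E.L (star Q * dev x (Pure (podZ ζ w))) with hF
  have hFe : F = fun w => ∑ u ∈ podT n l, (∏ j, podZ ζ w j ^ podGap u j) *
      E.L (star Q * dev x (∏ j, (xv (u j) : R n))) := by
    funext w
    rw [hF]
    simp only
    rw [Pure_eq, pod_dev_sum, Finset.mul_sum, map_sum]
    refine Finset.sum_congr rfl fun u _ => ?_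
    rw [pod_dev_smul, mul_smul_comm, map_smul, smul_eq_mul]
  have hdiff : ∀ w : ℂ, -t1 ≤ w.re → DifferentiableAt ℂ F w := by
    intro w hw
    rw [hFe]
    refine DifferentiableAt.fun_sum fun u _ => ?_
    refine DifferentiableAt.mul_const ?_ _
    refine DifferentiableAt.fun_finsetProd fun j _ => ?_
    exact (podZ_diff hp' hζ hw j).pow _
  have hM : ∀ w : ℂ, -t1 ≤ w.re → ‖F w‖ ≤ E.N Q * (n : ℝ) ^ l := fun w hw =>
    pod_pair_triv (hl.trans hK) hQ fun j => podZ_norm_le hp' hζ hw j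
  have hM1 : ∀ w : ℂ, w.re = t2 → ‖F w‖ ≤ E.N Q * ((p ^ l)⁻¹ * (n : ℝ) ^ l * β) := fun w hw =>
    pod_pair_le hT hp hβ hl hK hd hQ fun j =>
      podZ_disc hp hp' hζ hw.ge (by rw [hw]; linarith) j
  have h3 := pod_three ht1 ht2 hdiff hM (fun w hw => hM w hw.ge) hM1
  rw [← hs] at h3
  have hF0 : ‖F 0‖ = E.N Q ^ 2 := by
    rw [hF]
    simp only
    rw [podZ_zero, ← hQd]
    exact E.pod_normL hQ
  rw [hF0] at h3
  have hnl : 0 < (n : ℝ) ^ l := by positivity
  have hpb : 0 ≤ (p ^ l)⁻¹ * β := by positivity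
  have e : (E.N Q * (n : ℝ) ^ l) ^ (1 - s) * (E.N Q * ((p ^ l)⁻¹ * (n : ℝ) ^ l * β)) ^ s =
      E.N Q * ((n : ℝ) ^ l * ((p ^ l)⁻¹ * β) ^ s) := by
    have e1 : E.N Q * ((p ^ l)⁻¹ * (n : ℝ) ^ l * β) = (E.N Q * (n : ℝ) ^ l) * ((p ^ l)⁻¹ * β) := by
      ring
    rw [e1, Real.mul_rpow (by positivity) hpb, ← mul_assoc, ← Real.rpow_add (by positivity)]
    have e2 : 1 - s + s = 1 := by ring
    rw [e2, Real.rpow_one]
    ring
  rw [e, sq] at h3
  exact le_of_mul_le_mul_left h3 h0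

theorem pureOfData (hT : TFormStatement) : PureOfDataStatement := by
  intro n D E x p p' K β b hn hKD hp hp1 hp' hp1' hβ hd
  refine ⟨fun hpp h => ?_, fun hpp h => ?_⟩
  · intro l hl ζ hζ
    refine le_trans ?_ (pod_real1 hn hp hp1 hβ hl h)
    have hQ : Pd D (dev x (Pure ζ)) := (pd_Pure (hl.trans hKD) ζ).dev x
    refine E.pod_N_le hQ (pod_pair_le hT hp hβ hl hKD hd hQ fun j => pod_disc_mono hpp (hζ j)) ?_
    positivity
  · intro l hl ζ hζ
    have hn' : (1 : ℝ) ≤ n := by exact_mod_cast hn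
    have hlK : (l : ℝ) ≤ K := by exact_mod_cast hl
    have hQ : Pd D (dev x (Pure ζ)) := (pd_Pure (hl.trans hKD) ζ).dev x
    obtain ⟨s, hs0, hs1, hs2, h0 | h1⟩ := pod_interp hT hn hp hpp hp1' hβ hl hKD hd hζ
    · rw [h0]; exact (Real.exp_pos _).le
    set κ : ℝ := (1 - p') * p with hκ
    have hκ0 : 0 < κ := mul_pos (by linarith) hp
    set c : ℝ := b + K * Real.log (2 * n + 2) with hc
    have hln : 0 ≤ Real.log n := Real.log_nonneg hn'
    have hln2 : Real.log n ≤ Real.log (2 * n + 2) :=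
      Real.log_le_log (by linarith) (by linarith)
    have hlln : (l : ℝ) * Real.log n ≤ K * Real.log (2 * n + 2) :=
      mul_le_mul hlK hln2 hln (by positivity)
    -- trivial bound
    have htriv : E.N (dev x (Pure ζ)) ≤ (n : ℝ) ^ l := by
      refine E.pod_N_le hQ (pod_pair_triv (hl.trans hKD) hQ fun j => ?_) (by positivity)
      have := pod_disc_mono (p := 1) hp1'.le (hζ j)
      simpa using this
    rcases le_or_gt c 0 with hc0 | hc0
    · refine htriv.trans ?_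
      rw [← Real.exp_log (show (0 : ℝ) < (n : ℝ) ^ l by positivity), Real.exp_le_exp,
        Real.log_pow]
      linarith
    rcases hβ.eq_or_lt with hb0 | hβp
    · rw [← hb0, mul_zero, Real.zero_rpow hs0.ne', mul_zero] at h1
      exact h1.trans (Real.exp_pos _).le
    rcases h with h | h
    swap
    · exact absurd h hβp.ne'
    refine h1.trans ?_
    have hpl : 0 < (p ^ l)⁻¹ * β := by positivity
    have hlp : 0 ≤ Real.log (1 / p) := Real.log_nonneg (by
      rw [le_div_iff₀ hp]; linarith)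
    have e : (n : ℝ) ^ l * ((p ^ l)⁻¹ * β) ^ s =
        Real.exp (l * Real.log n + s * (l * Real.log (1 / p) + Real.log β)) := by
      rw [Real.exp_add, Real.exp_nat_mul, Real.exp_log (by linarith : (0 : ℝ) < n)]
      congr 1
      rw [Real.rpow_def_of_pos hpl, mul_comm s, Real.log_mul (by positivity) hβp.ne', Real.log_inv,
        Real.log_pow, one_div, Real.log_inv]
      congr 2
      ring
    rw [e, Real.exp_le_exp]
    have h4 : (l : ℝ) * Real.log (1 / p) + Real.log β ≤ -(c / κ) := by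
      have h5 : (l : ℝ) * Real.log (1 / p) ≤ K * Real.log (1 / p) :=
        mul_le_mul_of_nonneg_right hlK hlp
      have h6 : 0 ≤ (K : ℝ) * Real.log (n + 1) :=
        mul_nonneg (by positivity) (Real.log_nonneg (by linarith))
      linarith
    have h7 : s * (l * Real.log (1 / p) + Real.log β) ≤ -c := by
      have h8 : 0 ≤ c / κ := by positivity
      calc s * (l * Real.log (1 / p) + Real.log β) ≤ s * -(c / κ) :=
            mul_le_mul_of_nonneg_left h4 hs0.le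
        _ ≤ κ * -(c / κ) := by
            have := mul_le_mul_of_nonneg_right hs1 h8
            linarith
        _ = -c := by field_simp
    linarith

end Crest.Agent.R300U
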