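import Crest.Agent.R300.U.Iface
/-!
Row 300, upper bound: proof of `SchedStatement` (the parameter schedule), following part 3 of the
blueprint of helper300 (with `κ = 6/5`, `H = I + 8`).
-/
set_option autoImplicit false

namespace Crest.Agent.R300U.SchedP

noncomputable section

open Real

/-- The frequency range as a function of the damping. -/
def Rf (q L : ℝ) (j : ℕ) (θ : ℝ) : ℝ :=
  max (θ * (6 / 5) ^ j / (12 * q)) (√(θ * (6 / 5) ^ j / (16 * q * (L * 4 ^ (j + 1)))))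

/-- The sequence `θ_j = sqrt (2 A_j τ_j)`. -/
def th (C0 q L θ0 : ℝ) : ℕ → ℝ
  | 0 => θ0
  | j + 1 => Rf q L j (th C0 q L θ0 j) / (32 * C0)

section
variable {C0 q L θ0 : ℝ} (hC0 : 1 ≤ C0) (hq : 0 < q) (hL : 0 < L) (hθ0 : 0 < θ0)
include hC0 hq hL hθ0

omit hC0 hL hθ0 in
lemma Rf_pos {j : ℕ} {θ : ℝ} (hθ : 0 < θ) : 0 < Rf q L j θ := by
  unfold Rf
  have : 0 < θ * (6 / 5) ^ j / (12 * q) := by positivity
  exact lt_max_of_lt_left this

set_option linter.unusedSectionVars false in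
lemma th_pos : ∀ j, 0 < th C0 q L θ0 j
  | 0 => hθ0
  | j + 1 => by
    have := Rf_pos (L := L) (j := j) hq (th_pos j)
    have h2 : 0 < C0 := by linarith
    simp only [th]
    positivity

lemma th_lin (hq1 : q * (6144 * C0 ^ 2) ≤ 1) (j : ℕ) :
    th C0 q L θ0 j * (6 / 5) ^ j * (16 * C0) ≤ th C0 q L θ0 (j + 1) := by
  have hp := th_pos hC0 hq hL hθ0 j
  have h2 : 0 < C0 := by linarith
  have h3 : th C0 q L θ0 j * (6 / 5) ^ j / (12 * q) ≤ Rf q L j (th C0 q L θ0 j) := le_max_left _ _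
  have h4 : th C0 q L θ0 j * (6 / 5) ^ j * (16 * C0) ≤
      th C0 q L θ0 j * (6 / 5) ^ j / (12 * q) / (32 * C0) := by
    rw [div_div, le_div_iff₀ (by positivity)]
    have h5 : 0 < th C0 q L θ0 j * (6 / 5) ^ j := by positivity
    nlinarith
  refine h4.trans ?_
  simp only [th]
  gcongr

lemma th_quad (j : ℕ) :
    th C0 q L θ0 j * (3 / 10) ^ j / (65536 * C0 ^ 2 * L * q) ≤ th C0 q L θ0 (j + 1) ^ 2 := by
  have hp := th_pos hC0 hq hL hθ0 j
  have h2 : 0 < C0 := by linarith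
  have h3 : √(th C0 q L θ0 j * (6 / 5) ^ j / (16 * q * (L * 4 ^ (j + 1)))) ≤
    Rf q L j (th C0 q L θ0 j) := le_max_right _ _
  have h4 : th C0 q L θ0 j * (6 / 5) ^ j / (16 * q * (L * 4 ^ (j + 1))) ≤
    Rf q L j (th C0 q L θ0 j) ^ 2 := by
    have h5 := pow_le_pow_left₀ (Real.sqrt_nonneg _) h3 2
    rwa [Real.sq_sqrt (by positivity)] at h5
  have h6 : th C0 q L θ0 (j + 1) ^ 2 = Rf q L j (th C0 q L θ0 j) ^ 2 / (32 * C0) ^ 2 := by
    simp only [th]; rw [div_pow]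
  rw [h6]
  have h7 : th C0 q L θ0 j * (3 / 10) ^ j / (65536 * C0 ^ 2 * L * q) =
     th C0 q L θ0 j * (6 / 5) ^ j / (16 * q * (L * 4 ^ (j + 1))) / (32 * C0) ^ 2 := by
    have h8 : ((3 : ℝ) / 10) ^ j = (6 / 5) ^ j / 4 ^ j := by
      rw [← div_pow]; norm_num
    rw [h8, pow_succ]
    field_simp
    ring
  rw [h7]
  gcongr

lemma log_lin (hq1 : q * (6144 * C0 ^ 2) ≤ 1) (j : ℕ) :
    log (th C0 q L θ0 j) + j * log (6 / 5) + log (16 * C0) ≤ log (th C0 q L θ0 (j + 1)) := by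
  have hp := th_pos hC0 hq hL hθ0 j
  have h2 : 0 < C0 := by linarith
  have h := Real.log_le_log (by positivity) (th_lin hC0 hq hL hθ0 hq1 j)
  rw [Real.log_mul (by positivity) (by positivity), Real.log_mul (by positivity) (by positivity),
    Real.log_pow] at h
  exact h

lemma log_quad (j : ℕ) :
    log (th C0 q L θ0 j) - j * log (10 / 3) - log (65536 * C0 ^ 2 * L) + log (1 / q) ≤
      2 * log (th C0 q L θ0 (j + 1)) := by
  have hp := th_pos hC0 hq hL hθ0 j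
  have h2 : 0 < C0 := by linarith
  have h := Real.log_le_log (by positivity) (th_quad hC0 hq hL hθ0 j)
  rw [Real.log_div (by positivity) (by positivity), Real.log_mul (by positivity) (by positivity),
    Real.log_mul (by positivity) (by positivity), Real.log_pow, Real.log_pow] at h
  have h3 : log (10 / 3) = - log (3 / 10) := by
    rw [← Real.log_inv]; norm_num
  have h4 : log (1 / q) = - log q := by rw [one_div, Real.log_inv]
  rw [h3, h4]
  push_cast at h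
  linarith

/-- bound for `log (1/θ_j)`. -/
lemma log_bound (hc : 1 ≤ 65536 * C0 ^ 2 * L) (j : ℕ) :
    - log (th C0 q L θ0 j) + log (1 / q) ≤
      (- log θ0 + log (1 / q)) / 2 ^ j + j * log (10 / 3) + log (65536 * C0 ^ 2 * L) := by
  have hc' : 0 ≤ log (65536 * C0 ^ 2 * L) := Real.log_nonneg hc
  have ha : 0 ≤ log (10 / 3 : ℝ) := Real.log_nonneg (by norm_num)
  induction j with
  | zero => simp [th]; linarith
  | succ j ih =>
    have h := log_quad hC0 hq hL hθ0 j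
    have e : (- log θ0 + log (1 / q)) / 2 ^ (j + 1) = ((- log θ0 + log (1 / q)) / 2 ^ j) / 2 := by
      rw [pow_succ, div_div]
    rw [e]
    push_cast
    nlinarith

/-- after `I + 8` levels the range is full. -/
lemma th_ge_one (hq1 : q * (6144 * C0 ^ 2) ≤ 1) (I : ℕ) (hLI : L = I + 9)
    (hW : (- log θ0 + log (1 / q)) / 2 ^ I ≤ 1 + log (1 / q)) :
    1 ≤ th C0 q L θ0 (I + 8) := by
  have h2 : 0 < C0 := by linarith
  have hI : (0 : ℝ) ≤ I := Nat.cast_nonneg I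
  have hc : 1 ≤ 65536 * C0 ^ 2 * L := by
    have : (1 : ℝ) ≤ C0 ^ 2 := one_le_pow₀ hC0
    rw [hLI]; nlinarith
  have h := log_bound hC0 hq hL hθ0 hc I
  have h1 : - log (th C0 q L θ0 I) ≤ 1 + I * log (10 / 3) + log (65536 * C0 ^ 2 * L) := by linarith
  have hk : ∀ k : ℕ, log (th C0 q L θ0 I) + k * (I * log (6 / 5) + log (16 * C0)) ≤
      log (th C0 q L θ0 (I + k)) := by
    intro k
    induction k with
    | zero => simp
    | succ k ih =>
      have h3 := log_lin hC0 hq hL hθ0 hq1 (I + k)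
      have h4 : 0 ≤ log (6 / 5 : ℝ) := Real.log_nonneg (by norm_num)
      have h5 : (0 : ℝ) ≤ k := Nat.cast_nonneg k
      have h6 : 0 ≤ (k : ℝ) * log (6 / 5 : ℝ) := by positivity
      rw [← add_assoc]
      push_cast at h3 ⊢
      nlinarith
  have h8 := hk 8
  -- numerics
  have n1 : (1 : ℝ) / 9 ≤ 8 * log (6 / 5) - log (10 / 3) := by
    have e : 8 * log (6 / 5 : ℝ) - log (10 / 3) = log ((6 / 5) ^ 8 * (3 / 10)) := by
      rw [Real.log_mul (by norm_num) (by norm_num), Real.log_pow]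
      have : log (10 / 3 : ℝ) = - log (3 / 10) := by rw [← Real.log_inv]; norm_num
      rw [this]; push_cast; ring
    rw [e]
    have := Real.one_sub_inv_le_log_of_pos (x := (6 / 5 : ℝ) ^ 8 * (3 / 10)) (by norm_num)
    refine le_trans ?_ this
    norm_num
  have n2 : log (65536 * C0 ^ 2 * L) ≤ log (65536 * C0 ^ 2) + log 9 + I / 9 := by
    have e : 65536 * C0 ^ 2 * L = (65536 * C0 ^ 2) * 9 * (1 + I / 9) := by rw [hLI]; ring
    rw [e, Real.log_mul (by positivity) (by positivity), Real.log_mul (by positivity) (by norm_num)]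
    have := Real.log_le_sub_one_of_pos (x := 1 + (I : ℝ) / 9) (by positivity)
    linarith
  have n3 : 1 + log (65536 * C0 ^ 2) + log 9 ≤ 8 * log (16 * C0) := by
    have e : 8 * log (16 * C0) = log ((16 * C0) ^ 8) := by rw [Real.log_pow]; push_cast; ring
    have e2 : 1 + log (65536 * C0 ^ 2) + log 9 = log (Real.exp 1 * (65536 * C0 ^ 2) * 9) := by
      rw [Real.log_mul (x := Real.exp 1 * (65536 * C0 ^ 2)) (by positivity) (by norm_num),
        Real.log_mul (x := Real.exp 1) (by positivity) (by positivity), Real.log_exp]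
    rw [e, e2]
    apply Real.log_le_log (by positivity)
    have h9 : Real.exp 1 ≤ 3 := by linarith [Real.exp_one_lt_d9]
    have h10 : (1 : ℝ) ≤ C0 ^ 6 := one_le_pow₀ hC0
    have h11 : 0 < C0 ^ 2 := by positivity
    calc Real.exp 1 * (65536 * C0 ^ 2) * 9 ≤ 3 * (65536 * C0 ^ 2) * 9 := by gcongr
      _ ≤ 16 ^ 8 * C0 ^ 2 * C0 ^ 6 := by nlinarith
      _ = (16 * C0) ^ 8 := by ring
  have h9 : 0 ≤ log (th C0 q L θ0 (I + 8)) := by
    push_cast at h8
    nlinarith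
  have hp := th_pos hC0 hq hL hθ0 (I + 8)
  by_contra hcon
  push Not at hcon
  exact absurd (Real.log_neg hp hcon) (by linarith)

end

/-- Losses: with `1/θ ≤ exp B`, `τ = θ²/(2A)`. -/
lemma loss1 {θ A B x : ℝ} (hθ : 0 < θ) (hA : 1 ≤ A) (hB : 0 ≤ B) (hθB : 1 / θ ≤ Real.exp B)
    (hx0 : 0 ≤ x) (hx : x ≤ 4) :
    log (1 + x / √(θ ^ 2 / (2 * A))) ≤ 2 + (1 / 2) * log (2 * A) + B := by
  have h1 : √(θ ^ 2 / (2 * A)) = θ / √(2 * A) := by
    rw [Real.sqrt_div (by positivity), Real.sqrt_sq hθ.le]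
  have h2 : 1 ≤ √(2 * A) := by
    rw [Real.one_le_sqrt]; linarith
  have h3 : 1 ≤ Real.exp B := Real.one_le_exp hB
  have h4 : 1 + x / √(θ ^ 2 / (2 * A)) ≤ 5 * (√(2 * A) * Real.exp B) := by
    rw [h1, div_div_eq_mul_div]
    have e : x * √(2 * A) / θ = x * (√(2 * A) * (1 / θ)) := by ring
    rw [e]
    have h5 : √(2 * A) * (1 / θ) ≤ √(2 * A) * Real.exp B := by gcongr
    have h6 : 1 ≤ √(2 * A) * Real.exp B := by nlinarith
    have h7 : x * (√(2 * A) * (1 / θ)) ≤ 4 * (√(2 * A) * Real.exp B) := by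
      apply mul_le_mul hx h5 (by positivity) (by norm_num)
    linarith
  have h5 : 0 < 1 + x / √(θ ^ 2 / (2 * A)) := by positivity
  refine (Real.log_le_log h5 h4).trans ?_
  rw [Real.log_mul (by norm_num) (by positivity), Real.log_mul (by positivity) (by positivity),
    Real.log_exp, Real.log_sqrt (by positivity)]
  have h8 : log 5 ≤ 2 := by
    have e : (2 : ℝ) = log (Real.exp 2) := by rw [Real.log_exp]
    rw [e]
    apply Real.log_le_log (by norm_num)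
    have := Real.exp_one_gt_d9
    have e2 : Real.exp 2 = Real.exp 1 * Real.exp 1 := by rw [← Real.exp_add]; norm_num
    rw [e2]; nlinarith
  linarith

lemma log_2A {A : ℝ} (hA : 1 ≤ A) : log (2 * A) ≤ A / 600 + 7 := by
  have h1 := Real.log_le_sub_one_of_pos (x := A / 600) (by positivity)
  have e : log (2 * A) = log 1200 + log (A / 600) := by
    rw [← Real.log_mul (by norm_num) (by positivity)]; congr 1; ring
  have h2 : log 1200 ≤ 8 := by
    have h3 : log (1200 : ℝ) ≤ log (2 ^ 11) := Real.log_le_log (by norm_num) (by norm_num)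
    rw [Real.log_pow] at h3
    have := Real.log_two_lt_d9
    push_cast at h3
    linarith
  rw [e]; linarith

/-- lower bounds for `A_j = (15/2)^(I+8) * Ast * (2/15)^j`, `j ≤ I + 8`. -/
lemma A_lower {Ast v : ℝ} (hA : 0 ≤ Ast) (hv : 0 ≤ v) (hvA : v ≤ Ast) {I j : ℕ} (hj : j ≤ I + 8) :
    Ast ≤ (15 / 2) ^ (I + 8) * Ast * (2 / 15) ^ j ∧
    256 * (2 ^ I / 2 ^ j * v) ≤ (15 / 2) ^ (I + 8) * Ast * (2 / 15) ^ j := by
  obtain ⟨d, hd⟩ := Nat.exists_eq_add_of_le hj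
  have e1 : (15 / 2 : ℝ) ^ (I + 8) * Ast * (2 / 15) ^ j = (15 / 2) ^ d * Ast := by
    rw [hd, pow_add]
    have : (15 / 2 : ℝ) ^ j * (2 / 15) ^ j = 1 := by rw [← mul_pow]; norm_num
    calc (15 / 2 : ℝ) ^ j * (15 / 2) ^ d * Ast * (2 / 15) ^ j
        = ((15 / 2 : ℝ) ^ j * (2 / 15) ^ j) * ((15 / 2) ^ d * Ast) := by ring
      _ = _ := by rw [this, one_mul]
  have e2 : 256 * ((2 : ℝ) ^ I / 2 ^ j * v) = 2 ^ d * v := by
    have e3 : (2 : ℝ) ^ I * 256 = 2 ^ j * 2 ^ d := by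
      rw [← pow_add, ← hd, pow_add]; norm_num
    field_simp
    linear_combination v * e3
  rw [e1, e2]
  have h1 : (1 : ℝ) ≤ (15 / 2) ^ d := one_le_pow₀ (by norm_num)
  have h2 : (2 : ℝ) ^ d ≤ (15 / 2) ^ d := pow_le_pow_left₀ (by norm_num) (by norm_num) d
  constructor
  · nlinarith
  · calc (2 : ℝ) ^ d * v ≤ (15 / 2) ^ d * Ast := by gcongr

/-- the bound `B_j` for `log (1/θ_j)` is small compared to `A_j` -/
lemma key {C0 C1 C2 u : ℝ} (hC0 : 1 ≤ C0) (hC1 : 0 ≤ C1) (hC2 : 0 ≤ C2) (hu : 0 ≤ u)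
    {I j : ℕ} (hj : j ≤ I + 8) :
    5 * (2 ^ I / 2 ^ j * (1 + u) + j * log (10 / 3) + log (65536 * C0 ^ 2 * (I + 9))) +
      (C1 + C2 + 40) ≤
    ((15 / 2) ^ (I + 8) * (160 * (220 + 5 * log (65536 * C0 ^ 2) + C1 + C2) * (1 + u + I)) *
      (2 / 15) ^ j) / 80 := by
  have hI : (0 : ℝ) ≤ I := Nat.cast_nonneg I
  have hlc : 0 ≤ log (65536 * C0 ^ 2) := by
    apply Real.log_nonneg
    have : (1 : ℝ) ≤ C0 ^ 2 := one_le_pow₀ hC0
    linarith
  have hjr : (j : ℝ) ≤ I + 8 := by exact_mod_cast hj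
  have hj0 : (0 : ℝ) ≤ j := Nat.cast_nonneg j
  set K2 : ℝ := 220 + 5 * log (65536 * C0 ^ 2) + C1 + C2 with hK2
  have hK2' : 220 ≤ K2 := by rw [hK2]; linarith
  have hAst : (1 + u) ≤ 160 * K2 * (1 + u + I) := by
    have : (1 : ℝ) ≤ 160 * K2 := by linarith
    nlinarith
  obtain ⟨h1, h2⟩ := A_lower (Ast := 160 * K2 * (1 + u + I)) (v := 160 * K2 * (1 + u)) (by positivity)
    (by positivity) (by nlinarith) hj
  have ha : log (10 / 3 : ℝ) ≤ 7 / 3 := by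
    have := Real.log_le_sub_one_of_pos (x := (10 / 3 : ℝ)) (by norm_num)
    linarith
  have ha0 : 0 ≤ log (10 / 3 : ℝ) := Real.log_nonneg (by norm_num)
  have hc : log (65536 * C0 ^ 2 * (I + 9)) ≤ log (65536 * C0 ^ 2) + (I + 8) := by
    rw [Real.log_mul (by positivity) (by positivity)]
    have := Real.log_le_sub_one_of_pos (x := (I : ℝ) + 9) (by positivity)
    linarith
  have h3 : (j : ℝ) * log (10 / 3) ≤ (I + 8) * (7 / 3) := by gcongr
  set T := (15 / 2 : ℝ) ^ (I + 8) * (160 * K2 * (1 + u + I)) * (2 / 15) ^ j with hT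
  set Z := (2 : ℝ) ^ I / 2 ^ j with hZ
  have hZ0 : 0 ≤ Z := by positivity
  -- first part: 5 Z (1+u) ≤ T / 160
  have h4 : 5 * (Z * (1 + u)) ≤ T / 160 := by
    have h5 : 0 ≤ Z * (1 + u) := by positivity
    have h6 : 256 * (Z * (160 * K2 * (1 + u))) = 256 * 160 * K2 * (Z * (1 + u)) := by ring
    rw [h6] at h2
    have h7 : 256 * 160 * 220 * (Z * (1 + u)) ≤ 256 * 160 * K2 * (Z * (1 + u)) := by gcongr
    linarith
  -- second part
  have h5 : K2 * (1 + I) ≤ T / 160 := by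
    have : K2 * (1 + I) ≤ K2 * (1 + u + I) := by
      apply mul_le_mul_of_nonneg_left (by linarith) (by linarith)
    linarith
  have h6 : 5 * ((I + 8) * (7 / 3)) + 5 * (log (65536 * C0 ^ 2) + (I + 8)) + (C1 + C2 + 40) ≤
      K2 * (1 + I) := by
    have h7 : 220 * (I : ℝ) ≤ K2 * I := by gcongr
    nlinarith
  linarith

lemma geom_le (N : ℕ) : ∑ j ∈ Finset.range N, (96 / 125 : ℝ) ^ j ≤ 5 := by
  rw [geom_sum_eq (by norm_num)]
  have : (0 : ℝ) ≤ (96 / 125) ^ N := by positivity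
  rw [div_le_iff_of_neg (by norm_num)]
  linarith

lemma four_log_le {T0 : ℝ} {I h : ℕ} (hh : h ≤ I + 8) (hT : (15 / 2 : ℝ) ^ (I + 8) ≤ T0) :
    (4 : ℝ) ^ (h + 1) * log ((4 : ℝ) ^ (h + 1)) ≤ 7 * T0 := by
  have hI : (0 : ℝ) ≤ I := Nat.cast_nonneg I
  have hhr : (h : ℝ) ≤ I + 8 := by exact_mod_cast hh
  have h1 : (4 : ℝ) ^ (h + 1) ≤ 4 ^ (I + 9) := pow_le_pow_right₀ (by norm_num) (by omega)
  have h2 : log ((4 : ℝ) ^ (h + 1)) ≤ (I + 9) * (7 / 5) := by
    rw [Real.log_pow]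
    have h4 : log (4 : ℝ) ≤ 7 / 5 := by
      have e : (4 : ℝ) = 2 ^ 2 := by norm_num
      rw [e, Real.log_pow]
      have := Real.log_two_lt_d9
      push_cast; linarith
    have h5 : 0 ≤ log (4 : ℝ) := Real.log_nonneg (by norm_num)
    push_cast
    apply mul_le_mul (by linarith) h4 h5 (by positivity)
  have h3 : (15 / 8 : ℝ) ^ (I + 8) ≥ 7 / 8 * (I + 9) := by
    have := one_add_mul_le_pow (a := (7 / 8 : ℝ)) (by norm_num) (I + 8)
    push_cast at this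
    have e : (1 + 7 / 8 : ℝ) = 15 / 8 := by norm_num
    rw [e] at this
    nlinarith
  have h4 : (15 / 2 : ℝ) ^ (I + 8) = 4 ^ (I + 8) * (15 / 8) ^ (I + 8) := by
    rw [← mul_pow]; norm_num
  have h5 : (0 : ℝ) < 4 ^ (I + 8) := by positivity
  have h6 : 0 ≤ log ((4 : ℝ) ^ (h + 1)) := Real.log_nonneg (one_le_pow₀ (by norm_num))
  calc (4 : ℝ) ^ (h + 1) * log ((4 : ℝ) ^ (h + 1)) ≤ 4 ^ (I + 9) * ((I + 9) * (7 / 5)) :=
        mul_le_mul h1 h2 h6 (by positivity)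
    _ = 4 ^ (I + 8) * (7 / 8 * (I + 9)) * (32 / 5) := by ring
    _ ≤ 4 ^ (I + 8) * (15 / 8) ^ (I + 8) * (32 / 5) := by gcongr
    _ ≤ 7 * T0 := by rw [← h4]; nlinarith [pow_pos (show (0 : ℝ) < 15 / 2 by norm_num) (I + 8)]

lemma T0_le {u X K : ℝ} {I : ℕ} (hu : 0 ≤ u) (hK : 0 ≤ K) (h2I : (2 : ℝ) ^ I ≤ 2 * X) :
    (15 / 2) ^ (I + 8) * (K * (1 + u + I)) ≤ (15 / 2) ^ 8 * K * 128 * (X ^ 2 * (X * (1 + u))) := by
  have hI : (0 : ℝ) ≤ I := Nat.cast_nonneg I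
  have h1 : (15 / 2 : ℝ) ^ I * I ≤ 15 * 8 ^ I := by
    have := one_add_mul_le_pow (a := (1 / 15 : ℝ)) (by norm_num) I
    have e : (1 + 1 / 15 : ℝ) = 16 / 15 := by norm_num
    rw [e] at this
    have h3 : (I : ℝ) ≤ 15 * (16 / 15) ^ I := by nlinarith
    have h4 : (8 : ℝ) ^ I = (15 / 2) ^ I * (16 / 15) ^ I := by rw [← mul_pow]; norm_num
    rw [h4]
    calc (15 / 2 : ℝ) ^ I * I ≤ (15 / 2 : ℝ) ^ I * (15 * (16 / 15) ^ I) := by gcongr
      _ = _ := by ring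
  have h2 : (15 / 2 : ℝ) ^ I ≤ 8 ^ I := pow_le_pow_left₀ (by norm_num) (by norm_num) I
  have h3 : (15 / 2 : ℝ) ^ I * (1 + u + I) ≤ 16 * 8 ^ I * (1 + u) := by
    have h8 : (0 : ℝ) < 8 ^ I := by positivity
    have h4 : (15 / 2 : ℝ) ^ I * (1 + u) ≤ 8 ^ I * (1 + u) := by gcongr
    nlinarith [mul_nonneg h8.le hu]
  have h4 : (8 : ℝ) ^ I ≤ 8 * X ^ 3 := by
    have e : (8 : ℝ) ^ I = (2 ^ I) ^ 3 := by rw [← pow_mul, mul_comm, pow_mul]; norm_num
    rw [e]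
    calc ((2 : ℝ) ^ I) ^ 3 ≤ (2 * X) ^ 3 := by gcongr
      _ = _ := by ring
  calc (15 / 2 : ℝ) ^ (I + 8) * (K * (1 + u + I)) = (15 / 2) ^ 8 * K * ((15 / 2) ^ I * (1 + u + I)) := by
        rw [pow_add]; ring
    _ ≤ (15 / 2) ^ 8 * K * (16 * 8 ^ I * (1 + u)) := by gcongr
    _ ≤ (15 / 2) ^ 8 * K * (16 * (8 * X ^ 3) * (1 + u)) := by gcongr
    _ = _ := by ring

/-- the schedule -/
def sch (C0 q : ℝ) (n I h : ℕ) (Ast : ℝ) : Sched where
  h := h
  τ := fun j => th C0 q (I + 9) ((15 / 2) ^ (I + 8) * Ast / n) j ^ 2 /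
    (2 * ((15 / 2) ^ (I + 8) * Ast * (2 / 15) ^ j))
  A := fun j => (15 / 2) ^ (I + 8) * Ast * (2 / 15) ^ j
  r := fun j => min (Rf q (I + 9) j (th C0 q (I + 9) ((15 / 2) ^ (I + 8) * Ast / n) j)) π
  β := fun j => th C0 q (I + 9) ((15 / 2) ^ (I + 8) * Ast / n) j * (6 / 5) ^ j

lemma four_le {T0 : ℝ} {I h : ℕ} (hh : h ≤ I + 8) (hT : (15 / 2 : ℝ) ^ (I + 8) ≤ T0) :
    100 * ((h : ℝ) + 1) * (4 : ℝ) ^ (h + 1) ≤ 460 * T0 := by
  have hI : (0 : ℝ) ≤ I := Nat.cast_nonneg I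
  have hhr : (h : ℝ) ≤ I + 8 := by exact_mod_cast hh
  have h1 : (4 : ℝ) ^ (h + 1) ≤ 4 ^ (I + 9) := pow_le_pow_right₀ (by norm_num) (by omega)
  have h3 : (15 / 8 : ℝ) ^ (I + 8) ≥ 7 / 8 * (I + 9) := by
    have := one_add_mul_le_pow (a := (7 / 8 : ℝ)) (by norm_num) (I + 8)
    push_cast at this
    have e : (1 + 7 / 8 : ℝ) = 15 / 8 := by norm_num
    rw [e] at this
    nlinarith
  have h4 : (15 / 2 : ℝ) ^ (I + 8) = 4 ^ (I + 8) * (15 / 8) ^ (I + 8) := by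
    rw [← mul_pow]; norm_num
  have h5 : (0 : ℝ) < 4 ^ (I + 8) := by positivity
  calc 100 * ((h : ℝ) + 1) * (4 : ℝ) ^ (h + 1) ≤ 100 * ((I : ℝ) + 9) * 4 ^ (I + 9) := by
        apply mul_le_mul (by linarith) h1 (by positivity) (by positivity)
    _ = 4 ^ (I + 8) * (7 / 8 * (I + 9)) * (3200 / 7) := by ring
    _ ≤ 4 ^ (I + 8) * (15 / 8) ^ (I + 8) * (3200 / 7) := by gcongr
    _ ≤ 460 * T0 := by rw [← h4]; nlinarith [pow_pos (show (0 : ℝ) < 15 / 2 by norm_num) (I + 8)]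

/-- the logarithm of the window parameter -/
lemma abs_log_tau_le {θ a : ℝ} (hθ : 0 < θ) (ha : 1 ≤ a) (h : |log θ| ≤ a) :
    |log (θ ^ 2 / (2 * a))| ≤ 4 * a := by
  have ha0 : 0 < a := by linarith
  have e : log (θ ^ 2 / (2 * a)) = 2 * log θ - (log 2 + log a) := by
    rw [Real.log_div (by positivity) (by positivity), Real.log_pow,
      Real.log_mul (by norm_num) (by positivity)]
    push_cast; ring
  have h1 : log a ≤ a - 1 := Real.log_le_sub_one_of_pos ha0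
  have h2 : 0 ≤ log a := Real.log_nonneg ha
  have h3 := Real.log_two_lt_d9
  have h4 := Real.log_two_gt_d9
  obtain ⟨h5, h6⟩ := abs_le.1 h
  rw [e, abs_le]
  constructor <;> linarith

lemma cost_le {C0 q Ast : ℝ} {n I h : ℕ} (hC0 : 1 ≤ C0) (hq : 0 < q) (hn : 1 ≤ n) (hA : 1 ≤ Ast)
    (hh : h ≤ I + 8)
    (hlog : ∀ j ≤ h, |log (th C0 q (I + 9) ((15 / 2) ^ (I + 8) * Ast / n) j)| ≤
      (15 / 2) ^ (I + 8) * Ast * (2 / 15) ^ j) :
    (sch C0 q n I h Ast).cost n ≤ 14000 * ((15 / 2) ^ (I + 8) * Ast) := by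
  set T0 : ℝ := (15 / 2) ^ (I + 8) * Ast with hT0
  have hn' : (0 : ℝ) < n := by exact_mod_cast hn
  have hT0p : 0 < T0 := by positivity
  have hL : (0 : ℝ) < (I : ℝ) + 9 := by positivity
  have hθ0 : 0 < T0 / n := by positivity
  have hT1 : (15 / 2 : ℝ) ^ (I + 8) ≤ T0 := by
    rw [hT0]; exact le_mul_of_one_le_right (by positivity) hA
  have h1 := four_le hh hT1
  unfold Sched.cost
  have e0 : (sch C0 q n I h Ast).A 0 = T0 := by simp [sch, hT0]
  have e1 : (sch C0 q n I h Ast).β 0 * n = T0 := by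
    simp only [sch, th, pow_zero, mul_one]
    rw [← hT0]; field_simp
  have e2 : (n : ℝ) ^ 2 * (sch C0 q n I h Ast).τ 0 = T0 / 2 := by
    simp only [sch, th, pow_zero, mul_one]
    rw [← hT0]; field_simp
  rw [e0, e1, e2]
  have h2 : ∑ j ∈ Finset.range ((sch C0 q n I h Ast).h + 1), (4 : ℝ) ^ (j + 1) *
      (10 + 2 * (sch C0 q n I h Ast).β j ^ 2 / (sch C0 q n I h Ast).τ j +
        600 * (sch C0 q n I h Ast).A j + 10 * |log ((sch C0 q n I h Ast).τ j)|) ≤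
      ∑ j ∈ Finset.range (h + 1), 2616 * T0 * (96 / 125 : ℝ) ^ j := by
    apply Finset.sum_le_sum
    intro j hj
    have hjh : j ≤ h := by
      have : j < h + 1 := Finset.mem_range.1 hj
      omega
    have hj' : j ≤ I + 8 := by omega
    have hp := th_pos hC0 hq hL hθ0 j
    have hAj : 1 ≤ T0 * (2 / 15 : ℝ) ^ j := by
      have := (A_lower (Ast := Ast) (v := 0) (by linarith) le_rfl (by linarith) hj').1
      rw [← hT0] at this
      linarith
    have hlj := hlog j hjh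
    simp only [sch]
    rw [← hT0]
    set θ := th C0 q (I + 9) (T0 / n) j
    set a := T0 * (2 / 15 : ℝ) ^ j with ha
    have hlt := abs_log_tau_le hp hAj hlj
    have e3 : 2 * (θ * (6 / 5) ^ j) ^ 2 / (θ ^ 2 / (2 * a)) = 4 * (36 / 25) ^ j * a := by
      have e4 : ((36 : ℝ) / 25) ^ j = ((6 / 5) ^ j) ^ 2 := by
        rw [← pow_mul, mul_comm, pow_mul]; norm_num
      rw [e4]
      field_simp
      ring
    rw [e3]
    have h36 : (1 : ℝ) ≤ (36 / 25) ^ j := one_le_pow₀ (by norm_num)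
    have h5 : 10 + 4 * (36 / 25 : ℝ) ^ j * a + 600 * a + 10 * |log (θ ^ 2 / (2 * a))| ≤
        654 * ((36 / 25) ^ j * a) := by
      nlinarith
    calc (4 : ℝ) ^ (j + 1) * (10 + 4 * (36 / 25 : ℝ) ^ j * a + 600 * a +
          10 * |log (θ ^ 2 / (2 * a))|)
        ≤ 4 ^ (j + 1) * (654 * ((36 / 25) ^ j * a)) := by gcongr
      _ = 2616 * T0 * ((4 : ℝ) ^ j * (36 / 25) ^ j * (2 / 15) ^ j) := by rw [ha]; ring
      _ = 2616 * T0 * (96 / 125 : ℝ) ^ j := by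
        rw [← mul_pow, ← mul_pow]; norm_num
  have h3 : ∑ j ∈ Finset.range (h + 1), 2616 * T0 * (96 / 125 : ℝ) ^ j ≤ 2616 * T0 * 5 := by
    rw [← Finset.mul_sum]
    exact mul_le_mul_of_nonneg_left (geom_le _) (by positivity)
  have e5 : (sch C0 q n I h Ast).h = h := rfl
  rw [e5] at h2 ⊢
  linarith

/-- loss from the change of the window -/
lemma loss2 {θ θ' A A' B : ℝ} (hθ : 0 < θ) (hθ' : 0 < θ') (hθ'1 : θ' ≤ 1) (hA' : 0 < A')
    (hAA : A = 15 / 2 * A') (hθB : 1 / θ ≤ Real.exp B) :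
    (1 / 2) * log (θ' ^ 2 / (2 * A') / (θ ^ 2 / (2 * A))) ≤ 2 + B := by
  have hA : 0 < A := by rw [hAA]; positivity
  have e : θ' ^ 2 / (2 * A') / (θ ^ 2 / (2 * A)) = 15 / 2 * (θ' * (1 / θ)) ^ 2 := by
    rw [hAA]; field_simp
  have h1 : θ' * (1 / θ) ≤ Real.exp B := by
    calc θ' * (1 / θ) ≤ 1 * Real.exp B := by gcongr
      _ = _ := one_mul _
  have h2 : 15 / 2 * (θ' * (1 / θ)) ^ 2 ≤ 15 / 2 * (Real.exp B) ^ 2 := by gcongr
  rw [e]
  have h3 := Real.log_le_log (by positivity) h2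
  have h4 : log (15 / 2 * (Real.exp B) ^ 2) = log (15 / 2) + 2 * B := by
    rw [Real.log_mul (by norm_num) (by positivity), Real.log_pow, Real.log_exp]; push_cast; ring
  have h5 : log (15 / 2 : ℝ) ≤ 4 := by
    have h6 : log (15 / 2 : ℝ) ≤ log (2 ^ 3) := Real.log_le_log (by norm_num) (by norm_num)
    rw [Real.log_pow] at h6
    have := Real.log_two_lt_d9
    push_cast at h6
    linarith
  linarith

/-- the level inequality -/
lemma level_ineq {θ θ' A A' B C1 C2 x : ℝ} (hC1 : 0 ≤ C1) (hC2 : 0 ≤ C2) (hθ : 0 < θ)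
    (hθ' : 0 < θ') (hθ'1 : θ' ≤ 1) (hA' : 0 < A')
    (hAA : A = 15 / 2 * A') (hA1 : 1 ≤ A) (hB : 0 ≤ B) (hθB : 1 / θ ≤ Real.exp B)
    (hx0 : 0 ≤ x) (hx : x ≤ 4) (hkey : 5 * B + (C1 + C2 + 40) ≤ A / 80) :
    C2 + (1 / 2) * log (θ' ^ 2 / (2 * A') / (θ ^ 2 / (2 * A))) ≤ A' ∧
    A' + C2 + (1 / 2) * log (θ' ^ 2 / (2 * A') / (θ ^ 2 / (2 * A))) ≤
      (3 / 20) * A - C1 - 4 * log (1 + x / √(θ ^ 2 / (2 * A))) := by
  have h1 := loss1 hθ hA1 hB hθB hx0 hx
  have h2 := loss2 hθ hθ' hθ'1 hA' hAA hθB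
  have h3 := log_2A hA1
  constructor
  · linarith
  · linarith

/-- the last inequality -/
lemma last_ineq {θ A B C1 C2 : ℝ} (hC1 : 0 ≤ C1) (hC2 : 0 ≤ C2) (hθ : 0 < θ)
    (hA1 : 1 ≤ A) (hB : 0 ≤ B) (hθB : 1 / θ ≤ Real.exp B)
    (hkey : 5 * B + (C1 + C2 + 40) ≤ A / 80) :
    Wt (θ ^ 2 / (2 * A)) *
      Real.exp (-((3 / 20) * A - C1 - 4 * log (1 + π / √(θ ^ 2 / (2 * A))))) < 1 / 2 := by
  have h1 := loss1 hθ hA1 hB hθB Real.pi_pos.le Real.pi_le_four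
  have h1' := loss1 (x := √(2 * π)) hθ hA1 hB hθB (Real.sqrt_nonneg _) (by
    rw [Real.sqrt_le_left (by norm_num)]
    have := Real.pi_le_four
    linarith)
  have h3 := log_2A hA1
  have hW : 0 < Wt (θ ^ 2 / (2 * A)) := by unfold Wt; positivity
  have e1 : Wt (θ ^ 2 / (2 * A)) = 1 + √(2 * π) / √(θ ^ 2 / (2 * A)) := by
    unfold Wt
    rw [Real.sqrt_div (by positivity)]
  rw [← e1] at h1'
  have h4 : Wt (θ ^ 2 / (2 * A)) = Real.exp (log (Wt (θ ^ 2 / (2 * A)))) := (Real.exp_log hW).symm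
  have h5 : (1 : ℝ) / 2 = Real.exp (- log 2) := by
    rw [Real.exp_neg, Real.exp_log (by norm_num)]; norm_num
  rw [h4, ← Real.exp_add, h5, Real.exp_lt_exp]
  have := Real.log_two_lt_d9
  linarith

lemma range_full {C0 q θ0 : ℝ} (hC0 : 1 ≤ C0) (hq : 0 < q) (hθ0 : 0 < θ0)
    (hq1 : q * (6144 * C0 ^ 2) ≤ 1) (I : ℕ)
    (hW : (- log θ0 + log (1 / q)) / 2 ^ I ≤ 1 + log (1 / q)) :
    π ≤ Rf q (I + 9) (I + 8) (th C0 q (I + 9) θ0 (I + 8)) := by
  have hC0s : (1 : ℝ) ≤ C0 ^ 2 := one_le_pow₀ hC0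
  have hL : (0 : ℝ) < (I : ℝ) + 9 := by positivity
  have h1 : 1 ≤ th C0 q (I + 9) θ0 (I + 8) := th_ge_one hC0 hq hL hθ0 hq1 I rfl hW
  have h2 : th C0 q (I + 9) θ0 (I + 8) * (6 / 5) ^ (I + 8) / (12 * q) ≤
    Rf q (I + 9) (I + 8) (th C0 q (I + 9) θ0 (I + 8)) := le_max_left _ _
  refine le_trans ?_ h2
  rw [le_div_iff₀ (by positivity)]
  have h3 : (1 : ℝ) ≤ (6 / 5) ^ (I + 8) := one_le_pow₀ (by norm_num)
  have h4 : q ≤ 1 / 6144 := by
    rw [le_div_iff₀ (by norm_num)]; nlinarith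
  have h5 := Real.pi_le_four
  have h6 : π * (12 * q) ≤ 1 := by nlinarith
  nlinarith

/-- the `min` condition -/
lemma min_cond {q θ rr : ℝ} {I j h : ℕ} (hq : 0 < q) (hθ : 0 < θ) (hrj : 0 < rr)
    (hrle : rr ≤ Rf q (I + 9) j θ) (hhI : h ≤ I + 8) :
    min (12 * q * rr) (16 * q * (((h : ℝ) + 1) * 4 ^ (j + 1)) * rr ^ 2) ≤ θ * (6 / 5) ^ j := by
  rcases le_total (√(θ * (6 / 5) ^ j / (16 * q * (((I : ℝ) + 9) * 4 ^ (j + 1)))))
    (θ * (6 / 5) ^ j / (12 * q)) with h1 | h1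
  · apply le_trans (min_le_left _ _)
    unfold Rf at hrle
    rw [max_eq_left h1, le_div_iff₀ (by positivity)] at hrle
    linarith
  · apply le_trans (min_le_right _ _)
    unfold Rf at hrle
    rw [max_eq_right h1] at hrle
    have h2 : rr ^ 2 ≤ θ * (6 / 5) ^ j / (16 * q * (((I : ℝ) + 9) * 4 ^ (j + 1))) := by
      have := pow_le_pow_left₀ hrj.le hrle 2
      rwa [Real.sq_sqrt (by positivity)] at this
    rw [le_div_iff₀ (by positivity)] at h2
    have h3 : ((h : ℝ) + 1) ≤ (I : ℝ) + 9 := by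
      have : (h : ℝ) ≤ (I : ℝ) + 8 := by exact_mod_cast hhI
      linarith
    calc 16 * q * (((h : ℝ) + 1) * 4 ^ (j + 1)) * rr ^ 2
        ≤ 16 * q * (((I : ℝ) + 9) * 4 ^ (j + 1)) * rr ^ 2 := by gcongr
      _ = rr ^ 2 * (16 * q * (((I : ℝ) + 9) * 4 ^ (j + 1))) := by ring
      _ ≤ _ := h2

/-- the growth conditions at a level `j < h`. -/
lemma growth {C0 q L θ0 : ℝ} (hC0 : 1 ≤ C0) (hq : 0 < q) (hL : 0 < L) (hθ0 : 0 < θ0)
    (hq1 : q * (6144 * C0 ^ 2) ≤ 1) (j : ℕ) (a a' : ℝ) (ha' : 0 < a') (haa : a = 15 / 2 * a')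
    (hR : Rf q L j (th C0 q L θ0 j) < π) :
    th C0 q L θ0 (j + 1) ≤ 1 ∧
    1000 * (th C0 q L θ0 j ^ 2 / (2 * a)) ≤ th C0 q L θ0 (j + 1) ^ 2 / (2 * a') ∧
    C0 * √(th C0 q L θ0 j ^ 2 / (2 * a)) ≤ √(th C0 q L θ0 (j + 1) ^ 2 / (2 * a')) ∧
    32 * √(2 * a' * (th C0 q L θ0 (j + 1) ^ 2 / (2 * a'))) ≤
      min (Rf q L j (th C0 q L θ0 j)) π / C0 ∧
    32 * √(2 * a' * (th C0 q L θ0 (j + 1) ^ 2 / (2 * a'))) ≤
      min (Rf q L (j + 1) (th C0 q L θ0 (j + 1))) π := by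
  have hC0p : 0 < C0 := by linarith
  have hC0s : (1 : ℝ) ≤ C0 ^ 2 := one_le_pow₀ hC0
  have hp := th_pos hC0 hq hL hθ0 j
  have hp' := th_pos hC0 hq hL hθ0 (j + 1)
  have hlin := th_lin hC0 hq hL hθ0 hq1 j
  have e : th C0 q L θ0 (j + 1) = Rf q L j (th C0 q L θ0 j) / (32 * C0) := rfl
  have hRp := Rf_pos (L := L) (j := j) hq hp
  have hRp' := Rf_pos (L := L) (j := j + 1) hq hp'
  set R := Rf q L j (th C0 q L θ0 j) with hRdef
  set θ := th C0 q L θ0 j with hθ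
  set θ' := th C0 q L θ0 (j + 1) with hθ'
  have h65 : (1 : ℝ) ≤ (6 / 5) ^ j := one_le_pow₀ (by norm_num)
  have hg : 16 * C0 * θ ≤ θ' := by
    refine le_trans ?_ hlin
    have : θ * 1 * (16 * C0) ≤ θ * (6 / 5) ^ j * (16 * C0) := by gcongr
    linarith
  have hpi := Real.pi_le_four
  have e32 : 32 * θ' = R / C0 := by rw [e]; field_simp
  have hRC : R / C0 ≤ π := by
    rw [div_le_iff₀ hC0p]; nlinarith
  have hθ'1 : θ' ≤ 1 := by linarith
  have ha : 0 < a := by rw [haa]; positivity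
  have hsq : √(2 * a' * (θ' ^ 2 / (2 * a'))) = θ' := by
    rw [mul_div_cancel₀ _ (by positivity), Real.sqrt_sq hp'.le]
  have hgg : 256 * C0 ^ 2 * θ ^ 2 ≤ θ' ^ 2 := by
    have := pow_le_pow_left₀ (by positivity) hg 2
    nlinarith
  refine ⟨hθ'1, ?_, ?_, ?_, ?_⟩
  · rw [haa]
    rw [le_div_iff₀ (by positivity)]
    have e3 : 1000 * (θ ^ 2 / (2 * (15 / 2 * a'))) * (2 * a') = (2000 / 15) * θ ^ 2 := by
      field_simp; norm_num
    rw [e3]
    have : θ ^ 2 ≤ C0 ^ 2 * θ ^ 2 := by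
      have := sq_nonneg θ
      nlinarith
    nlinarith [sq_nonneg θ]
  · apply Real.le_sqrt_of_sq_le
    rw [mul_pow, Real.sq_sqrt (by positivity), haa, le_div_iff₀ (by positivity)]
    have e3 : C0 ^ 2 * (θ ^ 2 / (2 * (15 / 2 * a'))) * (2 * a') = (2 / 15) * (C0 ^ 2 * θ ^ 2) := by
      field_simp
    rw [e3]
    have : 0 ≤ C0 ^ 2 * θ ^ 2 := by positivity
    nlinarith
  · rw [hsq, e32, min_eq_left hR.le]
  · rw [hsq]
    apply le_min
    · have h1 : θ' * (6 / 5) ^ (j + 1) / (12 * q) ≤ Rf q L (j + 1) θ' := le_max_left _ _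
      refine le_trans ?_ h1
      rw [le_div_iff₀ (by positivity)]
      have h3 : (1 : ℝ) ≤ (6 / 5) ^ (j + 1) := one_le_pow₀ (by norm_num)
      have h4 : q ≤ 1 / 6144 := by
        rw [le_div_iff₀ (by norm_num)]; nlinarith
      have h5 : 32 * θ' * (12 * q) ≤ θ' * 1 := by nlinarith
      have h6 : θ' * 1 ≤ θ' * (6 / 5) ^ (j + 1) := by gcongr
      linarith
    · rw [e32]; exact hRC

lemma aux1 {C0 I : ℝ} (hC0 : 1 ≤ C0 ^ 2) (hI : 0 ≤ I) : 1 ≤ 65536 * C0 ^ 2 * (I + 9) := by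
  nlinarith

lemma aux2 {K u I : ℝ} (hK : 220 ≤ K) (hu : 0 ≤ u) (hI : 0 ≤ I) : 1 ≤ 160 * K * (1 + u + I) := by
  nlinarith

lemma aux3 {q C : ℝ} (hC : 1 ≤ C ^ 2) (_hq : 0 < q) (h : q * (6144 * C ^ 2) ≤ 1) : 1 * q ≤ 1 := by
  nlinarith

lemma aux4 {n C : ℝ} (hC : 1 ≤ C) (hn : 2 ≤ n) : n ≤ n * C ∧ C ≤ n * C := by
  constructor <;> nlinarith

lemma aux5 {u l U0 : ℝ} (hl : 1 / 2 ≤ l) (hU : 0 ≤ U0) (hul : u ≤ l + U0) :
    1 + u + l ≤ (4 + 2 * U0) * l := by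
  nlinarith

set_option maxHeartbeats 1000000 in
theorem sched : SchedStatement := by
  intro C0 C1 C2 hC0 hC1 hC2
  have hC0p : 0 < C0 := by linarith
  have hC0s : (1 : ℝ) ≤ C0 ^ 2 := one_le_pow₀ hC0
  have hlc : 0 ≤ log (65536 * C0 ^ 2) := Real.log_nonneg (by linarith)
  set K2 : ℝ := 220 + 5 * log (65536 * C0 ^ 2) + C1 + C2 with hK2
  have hK2' : 220 ≤ K2 := by rw [hK2]; linarith
  set U0 : ℝ := log (6144 * C0 ^ 2) with hU0
  have hU0' : 0 ≤ U0 := Real.log_nonneg (by linarith)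
  set CC : ℝ := 14000 * ((15 / 2) ^ 8 * (160 * K2) * 128 * (4 + 2 * U0)) + 4 ^ 10 with hCC
  refine ⟨1 / (6144 * C0 ^ 2), CC, by positivity, ?_, ?_, ?_⟩
  · rw [div_le_div_iff₀ (by positivity) (by norm_num)]; linarith
  · rw [hCC]
    have : 0 ≤ 14000 * ((15 / 2) ^ 8 * (160 * K2) * 128 * (4 + 2 * U0)) := by positivity
    linarith
  intro n q hn hq hqq hnq
  have hq1 : q * (6144 * C0 ^ 2) ≤ 1 := by
    rwa [le_div_iff₀ (by positivity)] at hqq
  have hn2 : (2 : ℝ) ≤ n := by exact_mod_cast hn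
  have hnp : (0 : ℝ) < n := by linarith
  set l := log (n : ℝ) with hl
  set u := log (1 / q) with hu
  have hl2 : 1 / 2 ≤ l := by
    have h1 : log (2 : ℝ) ≤ l := Real.log_le_log (by norm_num) hn2
    have := Real.log_two_gt_d9
    linarith
  have hu0 : 0 ≤ u := by
    apply Real.log_nonneg
    rw [le_div_iff₀ hq]
    exact aux3 hC0s hq hq1
  have hul : u ≤ l + U0 := by
    have h1 : 1 / q ≤ n * (6144 * C0 ^ 2) := by
      rcases le_total (1 / (n : ℝ)) (1 / (6144 * C0 ^ 2)) with h | h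
      · rw [min_eq_left h] at hnq
        have h2 : 1 / q ≤ n := by
          rw [div_le_iff₀ hq]
          rw [div_le_iff₀ hnp] at hnq
          linarith
        have h3 : (1 : ℝ) ≤ 6144 * C0 ^ 2 := by linarith
        exact h2.trans (aux4 h3 hn2).1
      · rw [min_eq_right h] at hnq
        have h2 : 1 / q ≤ 6144 * C0 ^ 2 := by
          rw [div_le_iff₀ hq]
          rw [div_le_iff₀ (by positivity)] at hnq
          linarith
        have h3 : (1 : ℝ) ≤ 6144 * C0 ^ 2 := by linarith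
        exact h2.trans (aux4 h3 hn2).2
    have h2 := Real.log_le_log (by positivity) h1
    rwa [Real.log_mul (by positivity) (by positivity)] at h2
  set X := 1 + l / (1 + u) with hX
  have hXu : X * (1 + u) = 1 + u + l := by rw [hX]; field_simp
  have hX1 : 1 ≤ X := by rw [hX]; have : 0 ≤ l / (1 + u) := by positivity
                         linarith
  obtain ⟨I0, hI1, hI2⟩ := exists_nat_pow_near hX1 (one_lt_two)
  set I := I0 + 1 with hI
  have hXI : X ≤ 2 ^ I := hI2.le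
  have h2I : (2 : ℝ) ^ I ≤ 2 * X := by rw [hI, pow_succ]; linarith
  have hI0 : (0 : ℝ) ≤ I := Nat.cast_nonneg I
  set Ast : ℝ := 160 * K2 * (1 + u + I) with hAst
  have hAst1 : 1 ≤ Ast := aux2 hK2' hu0 hI0
  have hAst0 : 0 < Ast := by linarith
  set T0 : ℝ := (15 / 2) ^ (I + 8) * Ast with hT0
  have hT0p : 0 < T0 := by positivity
  have hT01 : 1 ≤ T0 := by
    rw [hT0]
    exact one_le_mul_of_one_le_of_one_le (one_le_pow₀ (by norm_num)) hAst1
  have hL : (0 : ℝ) < (I : ℝ) + 9 := by positivity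
  have hθ0 : 0 < T0 / n := by positivity
  -- the initial bound
  have hθ0l : - log (T0 / n) + u ≤ l + u := by
    rw [Real.log_div (by positivity) (by positivity)]
    have := Real.log_nonneg hT01
    linarith
  have hlu : ∀ j : ℕ, (- log (T0 / n) + u) / 2 ^ j ≤ 2 ^ I / 2 ^ j * (1 + u) := by
    intro j
    have h2 : l + u ≤ 2 ^ I * (1 + u) := by
      have : X * (1 + u) ≤ 2 ^ I * (1 + u) := by gcongr
      linarith
    calc (- log (T0 / n) + u) / 2 ^ j ≤ (2 ^ I * (1 + u)) / 2 ^ j := by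
          gcongr; linarith
      _ = _ := by ring
  set θ : ℕ → ℝ := th C0 q (I + 9) (T0 / n) with hθ
  have hθp : ∀ j, 0 < θ j := th_pos hC0 hq hL hθ0
  -- existence of h
  have hfull : π ≤ Rf q (I + 9) (I + 8) (θ (I + 8)) := by
    apply range_full hC0 hq hθ0 hq1 I
    have := hlu I
    rwa [div_self (by positivity), one_mul] at this
  have hex : ∃ j, π ≤ Rf q (I + 9) j (θ j) := ⟨I + 8, hfull⟩
  obtain ⟨h, hhI, hhspec, hhmin⟩ : ∃ h ≤ I + 8, π ≤ Rf q (I + 9) h (θ h) ∧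
      ∀ j < h, Rf q (I + 9) j (θ j) < π := by
    classical
    refine ⟨Nat.find hex, Nat.find_min' hex hfull, Nat.find_spec hex,
      fun j hj => not_le.1 (Nat.find_min hex hj)⟩
  -- notation for A
  have hAj : ∀ j ≤ I + 8, 1 ≤ T0 * (2 / 15 : ℝ) ^ j := by
    intro j hj
    have := (A_lower (Ast := Ast) (v := 0) hAst0.le le_rfl hAst0.le hj).1
    rw [← hT0] at this
    linarith
  -- the bound B
  set B : ℕ → ℝ := fun j => 2 ^ I / 2 ^ j * (1 + u) + j * log (10 / 3) +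
    log (65536 * C0 ^ 2 * (I + 9)) with hB
  have hlc2 : 1 ≤ 65536 * C0 ^ 2 * ((I : ℝ) + 9) := aux1 hC0s hI0
  have hB0 : ∀ j, 0 ≤ B j := by
    intro j
    have h1 : 0 ≤ log (10 / 3 : ℝ) := Real.log_nonneg (by norm_num)
    have h2 : 0 ≤ log (65536 * C0 ^ 2 * ((I : ℝ) + 9)) := Real.log_nonneg hlc2
    simp only [hB]
    positivity
  have hθB : ∀ j, 1 / θ j ≤ Real.exp (B j) := by
    intro j
    have h1 := log_bound hC0 hq hL hθ0 hlc2 j
    have h2 := hlu j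
    have h3 : - log (θ j) ≤ B j := by
      simp only [hB, hθ]
      linarith
    calc 1 / θ j = Real.exp (- log (θ j)) := by rw [Real.exp_neg, Real.exp_log (hθp j), one_div]
      _ ≤ _ := Real.exp_le_exp.2 h3
  have hkey : ∀ j ≤ I + 8, 5 * B j + (C1 + C2 + 40) ≤ T0 * (2 / 15 : ℝ) ^ j / 80 := by
    intro j hj
    have := key hC0 hC1 hC2 hu0 hj
    rw [← hK2, ← hAst, ← hT0] at this
    exact this
  have hr : ∀ j, 0 < min (Rf q (I + 9) j (θ j)) π := fun j =>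
    lt_min (Rf_pos hq (hθp j)) Real.pi_pos
  refine ⟨sch C0 q n I h Ast, ?_, ?_, ?_, ?_, ?_, ?_⟩
  · -- basic conditions
    intro j hj
    have hj' : j ≤ I + 8 := le_trans hj hhI
    simp only [sch]
    rw [← hT0, ← hθ]
    have hA := hAj j hj'
    refine ⟨?_, hA, ?_, hr j, min_le_right _ _, ?_⟩
    · have := hθp j
      positivity
    · have := hθp j
      positivity
    · exact min_cond hq (hθp j) (hr j) (min_le_left _ _) hhI
  · simp only [sch]
    rw [← hT0, ← hθ]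
    exact min_eq_right hhspec
  · intro j hj
    have hj1 : j ≤ I + 8 := by have : j < h := hj
                               omega
    have hj2 : j + 1 ≤ I + 8 := by have : j < h := hj
                                   omega
    have haa : T0 * (2 / 15 : ℝ) ^ j = 15 / 2 * (T0 * (2 / 15 : ℝ) ^ (j + 1)) := by
      rw [pow_succ]; ring
    have ha' : 0 < T0 * (2 / 15 : ℝ) ^ (j + 1) := by positivity
    obtain ⟨g0, g1, g2, g3, g4⟩ := growth hC0 hq hL hθ0 hq1 j _ _ ha' haa (hhmin j hj)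
    obtain ⟨l1, l2⟩ := level_ineq (x := min (Rf q (I + 9) j (θ j)) π) hC1 hC2 (hθp j)
      (hθp (j + 1)) g0 ha' haa (hAj j hj1) (hB0 j) (hθB j) (hr j).le
      ((min_le_right _ _).trans Real.pi_le_four) (hkey j hj1)
    simp only [sch]
    rw [← hT0]
    exact ⟨g1, g2, g3, g4, l1, l2⟩
  · simp only [sch]
    rw [← hT0]
    exact last_ineq hC1 hC2 (hθp h) (hAj h hhI) (hB0 h) (hθB h) (hkey h hhI)
  · have hlogj : ∀ j ≤ h, |log (th C0 q (I + 9) ((15 / 2) ^ (I + 8) * Ast / n) j)| ≤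
        (15 / 2) ^ (I + 8) * Ast * (2 / 15) ^ j := by
      intro j hj
      rw [← hT0, ← hθ]
      have hj' : j ≤ I + 8 := hj.trans hhI
      have haj := hAj j hj'
      have hk := hkey j hj'
      have hBj := hB0 j
      rw [abs_le]
      constructor
      · have h1 := log_bound hC0 hq hL hθ0 hlc2 j
        have h2 := hlu j
        have h3 : - log (θ j) ≤ B j := by
          simp only [hB, hθ]
          linarith
        linarith
      · rcases Nat.eq_zero_or_pos j with h0 | h0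
        · subst h0
          have h4 : θ 0 = T0 / n := rfl
          have h5 : θ 0 ≤ T0 := by
            rw [h4]; exact div_le_self hT0p.le (by linarith)
          have h6 := Real.log_le_sub_one_of_pos (hθp 0)
          rw [pow_zero, mul_one]
          linarith
        · obtain ⟨k, rfl⟩ := Nat.exists_eq_add_of_le' h0
          have hk2 : k < h := by omega
          have haa : T0 * (2 / 15 : ℝ) ^ k = 15 / 2 * (T0 * (2 / 15 : ℝ) ^ (k + 1)) := by
            rw [pow_succ]; ring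
          have ha' : 0 < T0 * (2 / 15 : ℝ) ^ (k + 1) := by positivity
          obtain ⟨g0, _⟩ := growth hC0 hq hL hθ0 hq1 k _ _ ha' haa (hhmin k hk2)
          have h7 : log (θ (k + 1)) ≤ 0 := Real.log_nonpos (hθp _).le g0
          linarith
    have h1 := cost_le (q := q) (Ast := Ast) hC0 hq (by omega : 1 ≤ n) hAst1 hhI hlogj
    refine h1.trans ?_
    rw [← hT0]
    have h2 := T0_le (u := u) (X := X) (K := 160 * K2) (I := I) hu0 (by positivity) h2I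
    rw [← hAst, ← hT0] at h2
    have h3 : X * (1 + u) ≤ (4 + 2 * U0) * l := by rw [hXu]; exact aux5 hl2 hU0' hul
    have h4 : T0 ≤ (15 / 2) ^ 8 * (160 * K2) * 128 * (X ^ 2 * ((4 + 2 * U0) * l)) := by
      refine h2.trans ?_
      gcongr
    have h5 : 0 ≤ (4 : ℝ) ^ 10 * (l * X ^ 2) := by positivity
    calc 14000 * T0 ≤ 14000 * ((15 / 2) ^ 8 * (160 * K2) * 128 * (X ^ 2 * ((4 + 2 * U0) * l))) := by
          gcongr
      _ ≤ 14000 * ((15 / 2) ^ 8 * (160 * K2) * 128 * (X ^ 2 * ((4 + 2 * U0) * l))) +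
          (4 : ℝ) ^ 10 * (l * X ^ 2) := by linarith
      _ = CC * (l * X ^ 2) := by rw [hCC]; ring
  · have e5 : (sch C0 q n I h Ast).h = h := rfl
    rw [e5]
    have h1 : (4 : ℝ) ^ (h + 1) ≤ 4 ^ 10 * X ^ 2 := by
      calc (4 : ℝ) ^ (h + 1) ≤ 4 ^ (I + 9) := pow_le_pow_right₀ (by norm_num) (by omega)
        _ = 4 ^ 9 * (2 ^ I) ^ 2 := by
          rw [← pow_mul, mul_comm I 2, pow_mul, pow_add]; norm_num; ring
        _ ≤ 4 ^ 9 * (2 * X) ^ 2 := by gcongr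
        _ = _ := by ring
    have h2 : 0 ≤ 14000 * ((15 / 2) ^ 8 * (160 * K2) * 128 * (4 + 2 * U0)) * (l * X ^ 2) := by
      positivity
    calc (4 : ℝ) ^ (h + 1) * l ≤ 4 ^ 10 * X ^ 2 * l := by gcongr
      _ ≤ 14000 * ((15 / 2) ^ 8 * (160 * K2) * 128 * (4 + 2 * U0)) * (l * X ^ 2) +
          4 ^ 10 * X ^ 2 * l := by linarith
      _ = CC * (l * X ^ 2) := by rw [hCC]; ring

end

end Crest.Agent.R300U.SchedP

namespace Crest.Agent.R300U

/-- The schedule exists. -/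
theorem schedStatement : SchedStatement := SchedP.sched

end Crest.Agent.R300U
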