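import Crest.Agent.R300.U.Defs
/-!
Row 300, upper bound, superposition step: definitions and the interface between the two halves
(owner helper276).  See blueprint U part 2 (note 6380), item A.
-/
set_option autoImplicit false

namespace Crest.Agent.R300U.Sup

open Complex MeasureTheory

/-- slope parameter of the kinked contour -/
noncomputable def kap : ℝ := 9 / 20

/-- `R(y) = sqrt τ + kap |y|` -/
noncomputable def Rw (τ y : ℝ) : ℝ := Real.sqrt τ + kap * |y|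

/-- contour point `s(y) = -(sqrt τ + kap |y|) + i y` -/
noncomputable def sC (τ y : ℝ) : ℂ := -((Rw τ y : ℝ) : ℂ) + I * y

/-- total weight: `(2π)⁻¹ T^(-1/2) (1 + i kap sgn y) exp(s(y)²/(2T)) exp(-Z²/2)`, `p = (y, Z)`. -/
noncomputable def Wg (T τ : ℝ) (p : ℝ × ℝ) : ℂ :=
  ((1 / (2 * Real.pi * Real.sqrt T) : ℝ) : ℂ) * (1 + I * ((kap * Real.sign p.1 : ℝ) : ℂ)) *
    cexp (sC τ p.1 ^ 2 / (2 * T)) * ((Real.exp (-p.2 ^ 2 / 2) : ℝ) : ℂ)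

/-- real part of the node exponent -/
noncomputable def rhoS (T τ : ℝ) (p : ℝ × ℝ) : ℝ := τ * (p.2 / Real.sqrt T + Rw τ p.1 / T)

/-- good region of the integration variables `(y, Z)` -/
def Good (T B : ℝ) (p : ℝ × ℝ) : Prop :=
  |p.1| ≤ 10 * Real.sqrt (B * T) ∧ |p.2| ≤ 10 * Real.sqrt B

/-- HALF 1 (pure real analysis). -/
def GaussStatement : Prop :=
  ∃ C : ℝ, 0 ≤ C ∧ ∀ (k : ℕ) (τ' τ A B : ℝ), 2 ≤ k → k ≤ 4 → 0 < τ' → 1000 * τ' ≤ τ →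
    1 ≤ A → A ≤ B → ∃ g : ℝ × ℝ → ℝ, Integrable g ∧ (∫ p, g p) ≤ Real.exp (C - A) ∧
      (∀ p, Good (k * τ - τ') B p →
        ‖Wg (k * τ - τ') τ p‖ *
          Real.exp (((k : ℝ) - 1) * (max (rhoS (k * τ - τ') τ p) 0) ^ 2 / (2 * τ)) *
          Real.exp (-A) ≤ g p) ∧
      (∀ p, ¬ Good (k * τ - τ') B p →
        ‖Wg (k * τ - τ') τ p‖ *
          Real.exp (((k : ℝ) - 1) * (max (rhoS (k * τ - τ') τ p) 0) ^ 2 / (2 * τ)) * 2 ≤ g p)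

/-- HALF 1' (constants of the good region). -/
def GoodStatement : Prop :=
  ∀ (k : ℕ) (τ' τ B : ℝ), 2 ≤ k → k ≤ 4 → 0 < τ' → 1000 * τ' ≤ τ → 1 ≤ B →
    (∀ (y ω : ℝ), |ω| ≤ Real.sqrt τ →
      (sC τ y + I * ω).re ≤ -Real.sqrt τ ∧
      (sC τ y + I * ω).im ^ 2 ≤ 6 * (sC τ y + I * ω).re ^ 2) ∧
    (∀ (p : ℝ × ℝ), Good (k * τ - τ') B p →
      rhoS (k * τ - τ') τ p ≤ 12 * Real.sqrt (B * τ) ∧
      (∀ ω : ℝ, |ω| ≤ Real.sqrt τ → ‖sC τ p.1 + I * ω‖ ≤ 32 * Real.sqrt (B * τ)) ∧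
      (∀ r ν : ℝ, 32 * Real.sqrt (B * τ) ≤ r → |ν| ≤ r →
        |-(p.1 * τ / (k * τ - τ')) + ν| ≤ 2 * r))

end Crest.Agent.R300U.Sup
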