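import Crest.Agent.R300.U.SupDefs
import Crest.Agent.R300.Contour
/-!
Row 300, upper bound, superposition step: the scalar identity (kinked contour + Gaussian).
-/
set_option autoImplicit false

namespace Crest.Agent.R300U.Sup

open Complex MeasureTheory
open Crest.Agent.R300

theorem kap_nonneg : (0:ℝ) ≤ kap := by unfold kap; norm_num

theorem kap_lt_one : kap < 1 := by unfold kap; norm_num

theorem sC_eq (τ y : ℝ) :
    sC τ (-(2 * Real.pi) * y) = -(2 * Real.pi) * Contour.ctr (Real.sqrt τ / (2 * Real.pi)) kap y := by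
  have hpi := Real.pi_pos
  have hpiC : (Real.pi : ℂ) ≠ 0 := by exact_mod_cast hpi.ne'
  unfold sC Rw Contour.ctr
  rw [abs_mul, abs_neg, abs_of_pos (by positivity : 0 < 2 * Real.pi)]
  push_cast
  field_simp
  ring

theorem sign_neg_mul (y : ℝ) : Real.sign (-(2 * Real.pi) * y) = - Real.sign y := by
  have hpi := Real.pi_pos
  rcases lt_trichotomy y 0 with h | h | h
  · rw [Real.sign_of_neg h, Real.sign_of_pos (by nlinarith)]; ring
  · subst h; simp
  · rw [Real.sign_of_pos h, Real.sign_of_neg (by nlinarith)]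

/-- the one dimensional contour integral in the variables of `Sup`. -/
theorem int_y {T τ : ℝ} (hT : 0 < T) (z : ℂ) :
    Integrable (fun y : ℝ => (1 + I * ((kap * Real.sign y : ℝ) : ℂ)) *
      cexp (sC τ y ^ 2 / (2 * T) + sC τ y * z)) ∧
    ∫ y : ℝ, (1 + I * ((kap * Real.sign y : ℝ) : ℂ)) *
      cexp (sC τ y ^ 2 / (2 * T) + sC τ y * z)
      = ((Real.sqrt (2 * Real.pi * T) : ℝ) : ℂ) * cexp (-(T / 2) * z ^ 2) := by
  have hpi := Real.pi_pos
  have hpiC : (Real.pi : ℂ) ≠ 0 := by exact_mod_cast hpi.ne'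
  have hTC : (T : ℂ) ≠ 0 := by exact_mod_cast hT.ne'
  set G : ℝ → ℂ := fun y : ℝ => (1 + I * ((kap * Real.sign y : ℝ) : ℂ)) *
      cexp (sC τ y ^ 2 / (2 * T) + sC τ y * z) with hG
  have hA : 0 < 2 * Real.pi / T := by positivity
  have hK := Contour.kink hA 0 z (Real.sqrt τ / (2 * Real.pi)) kap_nonneg kap_lt_one
  have hpt : ∀ x : ℝ, G (-(2 * Real.pi) * x) =
      Contour.gf (2 * Real.pi / T) 0 z (Contour.ctr (Real.sqrt τ / (2 * Real.pi)) kap x)
        * Contour.dctr kap x := by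
    intro x
    simp only [hG]
    rw [sC_eq, sign_neg_mul, mul_comm]
    unfold Contour.gf Contour.dctr
    congr 1
    · congr 1
      push_cast
      field_simp
      ring
    · push_cast
      ring
  have hne : -(2 * Real.pi) ≠ 0 := by
    have := hpi.ne'
    simp [this]
  have hint : Integrable G := by
    rw [← integrable_comp_mul_left_iff G hne]
    refine hK.1.congr (Filter.Eventually.of_forall fun x => (hpt x).symm)
  refine ⟨hint, ?_⟩
  have h1 := Measure.integral_comp_mul_left G (-(2 * Real.pi))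
  have h2 : ∫ x : ℝ, G (-(2 * Real.pi) * x) = ((1 / Real.sqrt (2 * Real.pi / T) : ℝ) : ℂ) *
      cexp (2 * Real.pi * 0 * z - Real.pi * z ^ 2 / ((2 * Real.pi / T : ℝ) : ℂ)) := by
    rw [← hK.2]
    exact integral_congr_ae (Filter.Eventually.of_forall hpt)
  rw [h2] at h1
  have habs : |(-(2 * Real.pi))⁻¹| = (2 * Real.pi)⁻¹ := by
    rw [inv_neg, abs_neg, abs_of_pos (by positivity)]
  rw [habs] at h1
  have h3 : ∫ y, G y = ((2 * Real.pi : ℝ) : ℂ) * (((1 / Real.sqrt (2 * Real.pi / T) : ℝ) : ℂ) *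
      cexp (2 * Real.pi * 0 * z - Real.pi * z ^ 2 / ((2 * Real.pi / T : ℝ) : ℂ))) := by
    rw [h1, Complex.real_smul]
    push_cast
    field_simp
  rw [h3, ← mul_assoc]
  congr 1
  · rw [← Complex.ofReal_mul]
    congr 1
    have h4 : Real.sqrt (2 * Real.pi * T) = Real.sqrt (2 * Real.pi) * Real.sqrt T :=
      Real.sqrt_mul (by positivity) _
    have h5 : Real.sqrt (2 * Real.pi / T) = Real.sqrt (2 * Real.pi) / Real.sqrt T :=
      Real.sqrt_div (by positivity) _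
    rw [h4, h5]
    have h6 : 0 < Real.sqrt (2 * Real.pi) := by positivity
    have h7 : 0 < Real.sqrt T := by positivity
    have h8 : Real.sqrt (2 * Real.pi) ^ 2 = 2 * Real.pi := Real.sq_sqrt (by positivity)
    field_simp
    rw [h8]
  · congr 1
    push_cast
    field_simp
    ring

theorem int_Z (c : ℂ) :
    Integrable (fun x : ℝ => cexp (c * x) * ((Real.exp (-x ^ 2 / 2) : ℝ) : ℂ)) ∧
    ∫ x : ℝ, cexp (c * x) * ((Real.exp (-x ^ 2 / 2) : ℝ) : ℂ)
      = ((Real.sqrt (2 * Real.pi) : ℝ) : ℂ) * cexp (c ^ 2 / 2) := by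
  have hpi := Real.pi_pos
  have hpt : ∀ x : ℝ, cexp (c * x) * ((Real.exp (-x ^ 2 / 2) : ℝ) : ℂ)
      = cexp ((-(1/2) : ℂ) * x ^ 2 + c * x + 0) := by
    intro x
    rw [Complex.ofReal_exp, ← Complex.exp_add]
    congr 1
    push_cast
    ring
  simp_rw [hpt]
  have hb : ((-(1/2) : ℂ)).re < 0 := by norm_num
  refine ⟨integrable_cexp_quadratic' hb c 0, ?_⟩
  rw [integral_cexp_quadratic hb c 0]
  congr 1
  · have : (Real.pi : ℂ) / -(-(1/2)) = ((2 * Real.pi : ℝ) : ℂ) := by push_cast; ring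
    rw [this]
    have h2 : (1 / 2 : ℂ) = ((1 / 2 : ℝ) : ℂ) := by push_cast; ring
    rw [h2, ← Complex.ofReal_cpow (by positivity), ← Real.sqrt_eq_rpow]
  · congr 1
    ring

/-- SCALAR IDENTITY: for real `m, U`,
`∬ Wg · exp(s m + U (τ Z/√T - s τ/T)) = exp(-(T/2) m² + τ m U)`. -/
theorem scalar_identity {T τ : ℝ} (hT : 0 < T) (m U : ℝ) :
    Integrable (fun p : ℝ × ℝ => Wg T τ p *
      cexp (sC τ p.1 * m + U * (τ * (p.2 / Real.sqrt T) - sC τ p.1 * τ / T))) ∧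
    ∫ p : ℝ × ℝ, Wg T τ p *
      cexp (sC τ p.1 * m + U * (τ * (p.2 / Real.sqrt T) - sC τ p.1 * τ / T))
      = cexp (-(T / 2) * m ^ 2 + τ * m * U) := by
  have hpi := Real.pi_pos
  have hTC : (T : ℂ) ≠ 0 := by exact_mod_cast hT.ne'
  have hsT : 0 < Real.sqrt T := Real.sqrt_pos.mpr hT
  have hsTC : ((Real.sqrt T : ℝ) : ℂ) ≠ 0 := by exact_mod_cast hsT.ne'
  set c : ℂ := U * τ / Real.sqrt T with hc
  set z : ℂ := m - U * τ / T with hz
  obtain ⟨hy1, hy2⟩ := int_y (τ := τ) hT z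
  obtain ⟨hZ1, hZ2⟩ := int_Z c
  have hpt : ∀ p : ℝ × ℝ, Wg T τ p *
      cexp (sC τ p.1 * m + U * (τ * (p.2 / Real.sqrt T) - sC τ p.1 * τ / T))
      = ((1 / (2 * Real.pi * Real.sqrt T) : ℝ) : ℂ) *
        (((1 + I * ((kap * Real.sign p.1 : ℝ) : ℂ)) *
          cexp (sC τ p.1 ^ 2 / (2 * T) + sC τ p.1 * z)) *
        (cexp (c * p.2) * ((Real.exp (-p.2 ^ 2 / 2) : ℝ) : ℂ))) := by
    intro p
    unfold Wg
    have e : cexp (sC τ p.1 ^ 2 / (2 * T)) *
        cexp (sC τ p.1 * m + U * (τ * (p.2 / Real.sqrt T) - sC τ p.1 * τ / T))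
        = cexp (sC τ p.1 ^ 2 / (2 * T) + sC τ p.1 * z) * cexp (c * p.2) := by
      rw [← Complex.exp_add, ← Complex.exp_add]
      congr 1
      rw [hz, hc]
      field_simp
      ring
    linear_combination (((1 / (2 * Real.pi * Real.sqrt T) : ℝ) : ℂ) *
      (1 + I * ((kap * Real.sign p.1 : ℝ) : ℂ)) * ((Real.exp (-p.2 ^ 2 / 2) : ℝ) : ℂ)) * e
  simp_rw [hpt]
  have hprod := hy1.mul_prod hZ1
  refine ⟨hprod.const_mul _, ?_⟩
  rw [integral_const_mul]
  have hI : ∫ p : ℝ × ℝ, ((1 + I * ((kap * Real.sign p.1 : ℝ) : ℂ)) *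
          cexp (sC τ p.1 ^ 2 / (2 * T) + sC τ p.1 * z)) *
        (cexp (c * p.2) * ((Real.exp (-p.2 ^ 2 / 2) : ℝ) : ℂ))
      = (∫ y : ℝ, (1 + I * ((kap * Real.sign y : ℝ) : ℂ)) *
          cexp (sC τ y ^ 2 / (2 * T) + sC τ y * z)) *
        ∫ x : ℝ, cexp (c * x) * ((Real.exp (-x ^ 2 / 2) : ℝ) : ℂ) :=
    integral_prod_mul (μ := volume) (ν := volume)
      (fun y : ℝ => (1 + I * ((kap * Real.sign y : ℝ) : ℂ)) *
          cexp (sC τ y ^ 2 / (2 * T) + sC τ y * z))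
      (fun x : ℝ => cexp (c * x) * ((Real.exp (-x ^ 2 / 2) : ℝ) : ℂ))
  rw [hI, hy2, hZ2]
  have e1 : ((1 / (2 * Real.pi * Real.sqrt T) : ℝ) : ℂ) *
      (((Real.sqrt (2 * Real.pi * T) : ℝ) : ℂ) * cexp (-(T / 2) * z ^ 2) *
        (((Real.sqrt (2 * Real.pi) : ℝ) : ℂ) * cexp (c ^ 2 / 2)))
      = (((1 / (2 * Real.pi * Real.sqrt T)) * (Real.sqrt (2 * Real.pi * T) *
          Real.sqrt (2 * Real.pi)) : ℝ) : ℂ) * (cexp (-(T / 2) * z ^ 2) * cexp (c ^ 2 / 2)) := by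
    push_cast; ring
  have e2 : (1 / (2 * Real.pi * Real.sqrt T)) * (Real.sqrt (2 * Real.pi * T) *
          Real.sqrt (2 * Real.pi)) = 1 := by
    rw [Real.sqrt_mul (by positivity)]
    have h8 : Real.sqrt (2 * Real.pi) * Real.sqrt (2 * Real.pi) = 2 * Real.pi :=
      Real.mul_self_sqrt (by positivity)
    have h9 : Real.sqrt (2 * Real.pi) * Real.sqrt T * Real.sqrt (2 * Real.pi)
        = (2 * Real.pi) * Real.sqrt T := by
      linear_combination (Real.sqrt T) * h8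
    rw [h9]
    field_simp
  rw [e1, e2, Complex.ofReal_one, one_mul, ← Complex.exp_add]
  congr 1
  rw [hz, hc]
  have h10 : ((Real.sqrt T : ℝ) : ℂ) ^ 2 = T := by
    rw [← Complex.ofReal_pow, Real.sq_sqrt hT.le]
  field_simp
  rw [h10]
  ring

end Crest.Agent.R300U.Sup
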