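import Crest.Agent.R300.U.Calc
import Crest.Agent.R300.U.SupId
/-!
Row 300, upper bound, superposition step: expansion of products into composites.
-/
set_option autoImplicit false

namespace Crest.Agent.R300U.Sup

open Complex MeasureTheory

/-- delay tuples with minimum `0` -/
noncomputable def dset (k M : ℕ) : Finset (Fin k → ℕ) :=
  (Fintype.piFinset (fun _ : Fin k => Finset.range (M + 1))).filter (fun d => ∃ a, d a = 0)

/-- product of the children at the positions `M - d_a` -/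
noncomputable def PP {n : ℕ} (c : Code) {k : ℕ} (flag : Fin k → Bool) (M : ℕ) (d : Fin k → ℕ) :
    R n := ∏ a : Fin k, cj (flag a) (val c (M - d a))

/-- signed frequency -/
noncomputable def sg (b : Bool) (ν : ℝ) : ℝ := if b then -ν else ν

/-- the node of the composite with integration variables `p` -/
noncomputable def ndp (k : ℕ) (flag : Fin k → Bool) (T τ : ℝ) (ν : Fin k → ℝ) (p : ℝ × ℝ) : Node :=
  ⟨k, flag, τ, rhoS T τ p, fun a => -(p.1 * τ / T) + -(sg (flag a) (ν a))⟩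

theorem abs_sg (b : Bool) (ν : ℝ) : |sg b ν| = |ν| := by
  unfold sg; split_ifs <;> simp

theorem tot_eq {k : ℕ} (flag : Fin k → Bool) (ν : Fin k → ℝ) :
    tot flag ν = ∑ a, sg (flag a) (ν a) := rfl

/-- coefficient of a product, closed form. -/
theorem coef_prod {k : ℕ} (flag : Fin k → Bool) (ν : Fin k → ℝ) (τ : ℝ) (M t : ℕ)
    (d : Fin k → ℕ) :
    ∏ a : Fin k, cexp (-(τ * ((M : ℝ) - d a - t) ^ 2 / 2 : ℝ) +
        I * (if flag a then -ν a else ν a : ℝ) * ((M : ℂ) - d a - t))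
      = cexp (-((k : ℂ) * τ / 2) * ((M : ℂ) - t) ^ 2 + τ * ((M : ℂ) - t) * (∑ a, (d a : ℂ))
          - τ / 2 * (∑ a, (d a : ℂ) ^ 2) + I * (tot flag ν : ℂ) * ((M : ℂ) - t)
          - I * ∑ a, (sg (flag a) (ν a) : ℂ) * (d a : ℂ)) := by
  rw [← Complex.exp_sum]
  congr 1
  have h : ∀ a : Fin k, (-(τ * ((M : ℝ) - d a - t) ^ 2 / 2 : ℝ) +
        I * (if flag a then -ν a else ν a : ℝ) * ((M : ℂ) - d a - t) : ℂ)
      = -(τ / 2) * ((M : ℂ) - t) ^ 2 + (τ * ((M : ℂ) - t)) * (d a : ℂ)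
        - (τ / 2) * (d a : ℂ) ^ 2 + (I * ((M : ℂ) - t)) * (sg (flag a) (ν a) : ℂ)
        - I * ((sg (flag a) (ν a) : ℂ) * (d a : ℂ)) := by
    intro a
    unfold sg
    push_cast
    ring
  rw [Finset.sum_congr rfl fun a _ => h a]
  simp only [Finset.sum_sub_distrib, Finset.sum_add_distrib, ← Finset.mul_sum, Finset.sum_const,
    Finset.card_univ, Fintype.card_fin, nsmul_eq_mul, tot_eq, Complex.ofReal_sum]
  ring

/-- coefficient of the composite, closed form. -/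
theorem coef_node {k : ℕ} (flag : Fin k → Bool) (ν : Fin k → ℝ) (T τ : ℝ) (p : ℝ × ℝ)
    (d : Fin k → ℕ) :
    ∏ a : Fin k, cexp (-(τ * (d a : ℝ) ^ 2 / 2 : ℝ) +
        ((rhoS T τ p : ℂ) + I * ((-(p.1 * τ / T) + -(sg (flag a) (ν a)) : ℝ) : ℂ)) * (d a : ℂ))
      = cexp ((∑ a, (d a : ℂ)) * (τ * (p.2 / Real.sqrt T) - sC τ p.1 * τ / T)
          - τ / 2 * (∑ a, (d a : ℂ) ^ 2) - I * ∑ a, (sg (flag a) (ν a) : ℂ) * (d a : ℂ)) := by
  rw [← Complex.exp_sum]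
  congr 1
  have hs : ((rhoS T τ p : ℝ) : ℂ) + I * ((-(p.1 * τ / T) : ℝ) : ℂ)
      = τ * (p.2 / Real.sqrt T) - sC τ p.1 * τ / T := by
    unfold rhoS sC
    push_cast
    ring
  have h : ∀ a : Fin k, (-(τ * (d a : ℝ) ^ 2 / 2 : ℝ) +
        ((rhoS T τ p : ℂ) + I * ((-(p.1 * τ / T) + -(sg (flag a) (ν a)) : ℝ) : ℂ)) * (d a : ℂ) : ℂ)
      = (τ * (p.2 / Real.sqrt T) - sC τ p.1 * τ / T) * (d a : ℂ) - (τ / 2) * (d a : ℂ) ^ 2
        - I * ((sg (flag a) (ν a) : ℂ) * (d a : ℂ)) := by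
    intro a
    rw [← hs]
    push_cast
    ring
  rw [Finset.sum_congr rfl fun a _ => h a]
  rw [Finset.sum_sub_distrib, Finset.sum_sub_distrib, ← Finset.mul_sum, ← Finset.mul_sum,
    ← Finset.mul_sum]
  ring

/-- coefficient of the product as an integral over composites. -/
theorem coef_integral {k : ℕ} (flag : Fin k → Bool) (ν : Fin k → ℝ) {τ τ' : ℝ}
    (hT : 0 < (k : ℝ) * τ - τ') (M t : ℕ) (d : Fin k → ℕ) :
    Integrable (fun p : ℝ × ℝ => Wg (k * τ - τ') τ p *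
      (cexp (-(τ' * ((M : ℝ) - t) ^ 2 / 2 : ℝ) + (sC τ p.1 + I * (tot flag ν : ℂ)) * ((M : ℂ) - t)) *
      ∏ a : Fin k, cexp (-(τ * (d a : ℝ) ^ 2 / 2 : ℝ) +
        ((rhoS (k * τ - τ') τ p : ℂ) +
          I * ((-(p.1 * τ / (k * τ - τ')) + -(sg (flag a) (ν a)) : ℝ) : ℂ)) * (d a : ℂ)))) ∧
    ∫ p : ℝ × ℝ, Wg (k * τ - τ') τ p *
      (cexp (-(τ' * ((M : ℝ) - t) ^ 2 / 2 : ℝ) + (sC τ p.1 + I * (tot flag ν : ℂ)) * ((M : ℂ) - t)) *
      ∏ a : Fin k, cexp (-(τ * (d a : ℝ) ^ 2 / 2 : ℝ) +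
        ((rhoS (k * τ - τ') τ p : ℂ) +
          I * ((-(p.1 * τ / (k * τ - τ')) + -(sg (flag a) (ν a)) : ℝ) : ℂ)) * (d a : ℂ)))
      = ∏ a : Fin k, cexp (-(τ * ((M : ℝ) - d a - t) ^ 2 / 2 : ℝ) +
        I * (if flag a then -ν a else ν a : ℝ) * ((M : ℂ) - d a - t)) := by
  obtain ⟨h1, h2⟩ := scalar_identity (τ := τ) hT ((M : ℝ) - t) (∑ a, (d a : ℝ))
  set base : ℂ := -(τ' / 2) * ((M : ℂ) - t) ^ 2 + I * (tot flag ν : ℂ) * ((M : ℂ) - t)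
    - τ / 2 * (∑ a, (d a : ℂ) ^ 2) - I * ∑ a, (sg (flag a) (ν a) : ℂ) * (d a : ℂ) with hbase
  have hpt : ∀ p : ℝ × ℝ, Wg (k * τ - τ') τ p *
      (cexp (-(τ' * ((M : ℝ) - t) ^ 2 / 2 : ℝ) + (sC τ p.1 + I * (tot flag ν : ℂ)) * ((M : ℂ) - t)) *
      ∏ a : Fin k, cexp (-(τ * (d a : ℝ) ^ 2 / 2 : ℝ) +
        ((rhoS (k * τ - τ') τ p : ℂ) +
          I * ((-(p.1 * τ / (k * τ - τ')) + -(sg (flag a) (ν a)) : ℝ) : ℂ)) * (d a : ℂ)))
      = cexp base * (Wg (k * τ - τ') τ p *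
        cexp (sC τ p.1 * ((M : ℝ) - t : ℝ) + ((∑ a, (d a : ℝ) : ℝ) : ℂ) *
          (τ * (p.2 / Real.sqrt (k * τ - τ')) - sC τ p.1 * τ / ((k * τ - τ' : ℝ) : ℂ)))) := by
    intro p
    rw [coef_node]
    have e : cexp (-(τ' * ((M : ℝ) - t) ^ 2 / 2 : ℝ) +
          (sC τ p.1 + I * (tot flag ν : ℂ)) * ((M : ℂ) - t)) *
        cexp ((∑ a, (d a : ℂ)) * (τ * (p.2 / Real.sqrt (k * τ - τ')) -
          sC τ p.1 * τ / ((k * τ - τ' : ℝ) : ℂ))
          - τ / 2 * (∑ a, (d a : ℂ) ^ 2) - I * ∑ a, (sg (flag a) (ν a) : ℂ) * (d a : ℂ))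
        = cexp base * cexp (sC τ p.1 * ((M : ℝ) - t : ℝ) + ((∑ a, (d a : ℝ) : ℝ) : ℂ) *
          (τ * (p.2 / Real.sqrt (k * τ - τ')) - sC τ p.1 * τ / ((k * τ - τ' : ℝ) : ℂ))) := by
      rw [← Complex.exp_add, ← Complex.exp_add]
      congr 1
      rw [hbase]
      push_cast
      ring
    rw [e]
    ring
  simp_rw [hpt]
  refine ⟨h1.const_mul _, ?_⟩
  rw [integral_const_mul, h2, coef_prod, ← Complex.exp_add]
  congr 1
  rw [hbase]
  push_cast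
  ring

end Crest.Agent.R300U.Sup
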