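import Crest.Agent.R300.U.SupDefs
/-!
Row 300, upper bound, superposition step: the Gaussian double integral (helper847).
-/
set_option autoImplicit false

namespace Crest.Agent.R300U.Sup

open Complex MeasureTheory

namespace Gauss

theorem quad_ineq (Z a b θ : ℝ) (hb : b ^ 2 ≤ 51 / 100) (hθ : θ ≤ 7502 / 10000) :
    -Z ^ 2 / 2 + 1 / 2 * ((b + 9 / 20 * a) ^ 2 - a ^ 2) + θ / 2 * (Z + (b + 9 / 20 * a)) ^ 2 ≤
      24 - 2 / 100 * Z ^ 2 - 28 / 1000 * a ^ 2 := by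
  have h1 : θ / 2 * (Z + (b + 9 / 20 * a)) ^ 2 ≤ 7502 / 20000 * (Z + (b + 9 / 20 * a)) ^ 2 := by
    apply mul_le_mul_of_nonneg_right _ (sq_nonneg _)
    linarith
  set R := b + 9 / 20 * a with hR
  have h2 : R ^ 2 ≤ 105 / 100 * (9 / 20) ^ 2 * a ^ 2 + 21 * b ^ 2 := by
    rw [hR]
    nlinarith [sq_nonneg (9 / 20 * a - 20 * b)]
  have h3 : 0 ≤ (Z - (3751 / 1049) * R) ^ 2 := sq_nonneg _
  nlinarith [h1, h2, h3, sq_nonneg a, sq_nonneg Z, sq_nonneg R]

theorem norm_Wg (T τ : ℝ) (hT : 0 < T) (p : ℝ × ℝ) :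
    ‖Wg T τ p‖ ≤ 1 / (2 * Real.pi * Real.sqrt T) * (1 + kap) *
      Real.exp (((Rw τ p.1) ^ 2 - p.1 ^ 2) / (2 * T)) * Real.exp (-p.2 ^ 2 / 2) := by
  have hpi := Real.pi_pos
  have hsT : 0 < Real.sqrt T := Real.sqrt_pos.mpr hT
  unfold Wg
  rw [norm_mul, norm_mul, norm_mul]
  have e1 : ‖((1 / (2 * Real.pi * Real.sqrt T) : ℝ) : ℂ)‖ = 1 / (2 * Real.pi * Real.sqrt T) := by
    rw [Complex.norm_real, Real.norm_eq_abs, abs_of_pos (by positivity)]
  have e2 : ‖(1 + I * ((kap * Real.sign p.1 : ℝ) : ℂ))‖ ≤ 1 + kap := by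
    refine (norm_add_le _ _).trans ?_
    rw [norm_one, norm_mul, Complex.norm_I, one_mul, Complex.norm_real, Real.norm_eq_abs]
    have hk : (0 : ℝ) ≤ kap := by unfold kap; norm_num
    have : |kap * Real.sign p.1| ≤ kap := by
      rw [abs_mul, abs_of_nonneg hk]
      have : |Real.sign p.1| ≤ 1 := by
        rcases Real.sign_apply_eq p.1 with h | h | h <;> rw [h] <;> norm_num
      nlinarith
    linarith
  have e3 : ‖cexp (sC τ p.1 ^ 2 / (2 * T))‖ = Real.exp (((Rw τ p.1) ^ 2 - p.1 ^ 2) / (2 * T)) := by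
    rw [Complex.norm_exp]
    congr 1
    have : sC τ p.1 ^ 2 / (2 * (T : ℂ)) = ((((Rw τ p.1) ^ 2 - p.1 ^ 2) / (2 * T) : ℝ) : ℂ) +
        ((-(2 * (Rw τ p.1) * p.1) / (2 * T) : ℝ) : ℂ) * I := by
      unfold sC
      push_cast
      have hT' : (T : ℂ) ≠ 0 := by exact_mod_cast hT.ne'
      field_simp
      ring_nf
      rw [Complex.I_sq]
      ring
    rw [this]
    simp only [Complex.add_re, Complex.ofReal_re, Complex.mul_re, Complex.I_re, Complex.ofReal_im,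
      Complex.I_im, mul_zero, zero_mul, sub_zero, add_zero]
  have e4 : ‖((Real.exp (-p.2 ^ 2 / 2) : ℝ) : ℂ)‖ = Real.exp (-p.2 ^ 2 / 2) := by
    rw [Complex.norm_real, Real.norm_eq_abs, abs_of_pos (Real.exp_pos _)]
  rw [e1, e3, e4]
  gcongr

theorem exponent_le (k : ℕ) (τ' τ : ℝ) (h2 : 2 ≤ k) (h4 : k ≤ 4) (h' : 0 < τ')
    (hττ : 1000 * τ' ≤ τ) (p : ℝ × ℝ) :
    ((Rw τ p.1) ^ 2 - p.1 ^ 2) / (2 * (k * τ - τ')) + -p.2 ^ 2 / 2 +
      ((k : ℝ) - 1) * (max (rhoS (k * τ - τ') τ p) 0) ^ 2 / (2 * τ) ≤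
      24 - 2 / 100 * p.2 ^ 2 - 28 / 1000 * (p.1 ^ 2 / (k * τ - τ')) := by
  have hτ : 0 < τ := by linarith
  have hk2 : (2 : ℝ) ≤ k := by exact_mod_cast h2
  have hk4 : (k : ℝ) ≤ 4 := by exact_mod_cast h4
  set T := (k : ℝ) * τ - τ' with hTdef
  have hT0 : (k - 1 / 1000) * τ ≤ T := by rw [hTdef]; nlinarith
  have hT : 0 < T := by nlinarith
  have hsT : 0 < Real.sqrt T := Real.sqrt_pos.mpr hT
  have hsq : Real.sqrt T ^ 2 = T := Real.sq_sqrt hT.le
  set a := |p.1| / Real.sqrt T with ha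
  set b := Real.sqrt τ / Real.sqrt T with hb
  set θ := ((k : ℝ) - 1) * τ / T with hθ
  have hb2 : b ^ 2 ≤ 51 / 100 := by
    rw [hb, div_pow, Real.sq_sqrt hτ.le, hsq, div_le_iff₀ hT]
    nlinarith
  have hθ2 : θ ≤ 7502 / 10000 := by
    rw [hθ, div_le_iff₀ hT]
    nlinarith
  have hab : a ^ 2 = p.1 ^ 2 / T := by
    rw [ha, div_pow, sq_abs, hsq]
  have hR : (b + 9 / 20 * a) = Rw τ p.1 / Real.sqrt T := by
    rw [ha, hb]; unfold Rw kap; ring
  have hmain := quad_ineq p.2 a b θ hb2 hθ2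
  have hmax : (max (rhoS T τ p) 0) ^ 2 ≤ (rhoS T τ p) ^ 2 := by
    rcases le_total (rhoS T τ p) 0 with h | h
    · rw [max_eq_right h]; nlinarith [sq_nonneg (rhoS T τ p)]
    · rw [max_eq_left h]
  have hrho : ((k : ℝ) - 1) * (rhoS T τ p) ^ 2 / (2 * τ) = θ / 2 * (p.2 + (b + 9 / 20 * a)) ^ 2 := by
    rw [hR, hθ]
    unfold rhoS
    have : Rw τ p.1 / T = Rw τ p.1 / Real.sqrt T / Real.sqrt T := by
      rw [div_div, ← sq, hsq]
    rw [this]
    have : ((k : ℝ) - 1) * τ / T / 2 * (p.2 + Rw τ p.1 / Real.sqrt T) ^ 2 =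
        ((k : ℝ) - 1) * τ / (Real.sqrt T ^ 2) / 2 * (p.2 + Rw τ p.1 / Real.sqrt T) ^ 2 := by
      rw [hsq]
    rw [this]
    field_simp
  have h1 : ((k : ℝ) - 1) * (max (rhoS T τ p) 0) ^ 2 / (2 * τ) ≤
      θ / 2 * (p.2 + (b + 9 / 20 * a)) ^ 2 := by
    rw [← hrho]
    have : 0 ≤ (k : ℝ) - 1 := by linarith
    gcongr
  have h2 : ((Rw τ p.1) ^ 2 - p.1 ^ 2) / (2 * T) = 1 / 2 * ((b + 9 / 20 * a) ^ 2 - a ^ 2) := by
    rw [hR, hab, div_pow, hsq]
    field_simp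
  rw [h2, ← hab]
  linarith

end Gauss

open Gauss in
theorem gaussStatement : GaussStatement := by
  refine ⟨30, by norm_num, ?_⟩
  intro k τ' τ A B h2 h4 h' hττ hA hAB
  have hτ : 0 < τ := by linarith
  have hk2 : (2 : ℝ) ≤ k := by exact_mod_cast h2
  have hT : 0 < (k : ℝ) * τ - τ' := by nlinarith
  have hexp := exponent_le k τ' τ h2 h4 h' hττ
  set T := (k : ℝ) * τ - τ' with hTdef
  have hsT : 0 < Real.sqrt T := Real.sqrt_pos.mpr hT
  have hpi := Real.pi_pos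
  have hpi3 := Real.pi_gt_three
  -- basic bound
  have hbase : ∀ p : ℝ × ℝ, ‖Wg T τ p‖ *
      Real.exp (((k : ℝ) - 1) * (max (rhoS T τ p) 0) ^ 2 / (2 * τ)) ≤
      1 / (2 * Real.sqrt T) * Real.exp (24 - 2 / 100 * p.2 ^ 2 - 28 / 1000 * (p.1 ^ 2 / T)) := by
    intro p
    have h := norm_Wg T τ hT p
    calc ‖Wg T τ p‖ * Real.exp (((k : ℝ) - 1) * (max (rhoS T τ p) 0) ^ 2 / (2 * τ))
        ≤ (1 / (2 * Real.pi * Real.sqrt T) * (1 + kap) *
          Real.exp (((Rw τ p.1) ^ 2 - p.1 ^ 2) / (2 * T)) * Real.exp (-p.2 ^ 2 / 2)) *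
          Real.exp (((k : ℝ) - 1) * (max (rhoS T τ p) 0) ^ 2 / (2 * τ)) :=
        mul_le_mul_of_nonneg_right h (Real.exp_pos _).le
      _ = (1 / (2 * Real.pi * Real.sqrt T) * (1 + kap)) *
          Real.exp (((Rw τ p.1) ^ 2 - p.1 ^ 2) / (2 * T) + -p.2 ^ 2 / 2 +
            ((k : ℝ) - 1) * (max (rhoS T τ p) 0) ^ 2 / (2 * τ)) := by
        rw [Real.exp_add, Real.exp_add]; ring
      _ ≤ (1 / (2 * Real.sqrt T)) *
          Real.exp (24 - 2 / 100 * p.2 ^ 2 - 28 / 1000 * (p.1 ^ 2 / T)) := by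
        apply mul_le_mul _ (Real.exp_le_exp.mpr (hexp p)) (Real.exp_pos _).le (by positivity)
        unfold kap
        rw [div_mul_eq_mul_div, one_mul, div_le_div_iff₀ (by positivity) (by positivity)]
        nlinarith
  refine ⟨fun p => (1 / Real.sqrt T) * Real.exp (24 - A) *
    (Real.exp (-(14 / 1000 / T) * p.1 ^ 2) * Real.exp (-(1 / 100) * p.2 ^ 2)), ?_, ?_, ?_, ?_⟩
  · apply Integrable.const_mul
    exact Integrable.mul_prod (integrable_exp_neg_mul_sq (by positivity))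
      (integrable_exp_neg_mul_sq (by norm_num))
  · rw [integral_const_mul]
    have : (∫ p : ℝ × ℝ, Real.exp (-(14 / 1000 / T) * p.1 ^ 2) * Real.exp (-(1 / 100) * p.2 ^ 2)) =
        Real.sqrt (Real.pi / (14 / 1000 / T)) * Real.sqrt (Real.pi / (1 / 100)) := by
      have h := MeasureTheory.integral_prod_mul (μ := (volume : Measure ℝ)) (ν := (volume : Measure ℝ))
        (fun y : ℝ => Real.exp (-(14 / 1000 / T) * y ^ 2)) (fun Z : ℝ => Real.exp (-(1 / 100) * Z ^ 2))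
      rw [integral_gaussian, integral_gaussian] at h
      rw [← h]
      rfl
    rw [this]
    have h1 : Real.sqrt (Real.pi / (14 / 1000 / T)) * Real.sqrt (Real.pi / (1 / 100)) ≤
        Real.sqrt T * Real.exp 6 := by
      rw [← Real.sqrt_mul (by positivity)]
      apply Real.sqrt_le_iff.mpr
      refine ⟨by positivity, ?_⟩
      rw [mul_pow, Real.sq_sqrt hT.le]
      have he : (2.7 : ℝ) ≤ Real.exp 1 := by
        have := Real.exp_one_gt_d9; linarith
      have he6 : (2.7 : ℝ) ^ 12 ≤ Real.exp 6 ^ 2 := by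
        have : Real.exp 6 ^ 2 = Real.exp 1 ^ 12 := by
          rw [← Real.exp_nat_mul, ← Real.exp_nat_mul]; norm_num
        rw [this]
        gcongr
      have hpi4 : Real.pi ≤ 3.15 := Real.pi_lt_d2.le
      have : Real.pi / (14 / 1000 / T) * (Real.pi / (1 / 100)) = T * (Real.pi ^ 2 * (100000 / 14)) := by
        field_simp
        ring
      rw [this]
      apply mul_le_mul_of_nonneg_left _ hT.le
      have : Real.pi ^ 2 ≤ 3.15 ^ 2 := by gcongr
      norm_num at he6 this ⊢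
      nlinarith
    calc (1 / Real.sqrt T) * Real.exp (24 - A) *
          (Real.sqrt (Real.pi / (14 / 1000 / T)) * Real.sqrt (Real.pi / (1 / 100)))
        ≤ (1 / Real.sqrt T) * Real.exp (24 - A) * (Real.sqrt T * Real.exp 6) := by gcongr
      _ = Real.exp (30 - A) := by
        rw [show (30 : ℝ) - A = (24 - A) + 6 by ring, Real.exp_add (24 - A) 6]
        field_simp
  · intro p hp
    refine (mul_le_mul_of_nonneg_right (hbase p) (Real.exp_pos _).le).trans ?_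
    have : (1 / Real.sqrt T) * Real.exp (24 - A) *
        (Real.exp (-(14 / 1000 / T) * p.1 ^ 2) * Real.exp (-(1 / 100) * p.2 ^ 2)) =
        (1 / Real.sqrt T) * (Real.exp (24 - A + (-(14 / 1000 / T) * p.1 ^ 2) + (-(1 / 100) * p.2 ^ 2))) := by
      rw [Real.exp_add, Real.exp_add]; ring
    beta_reduce
    rw [this, mul_assoc, ← Real.exp_add]
    apply mul_le_mul
    · rw [div_le_div_iff₀ (by positivity) hsT]; nlinarith
    · apply Real.exp_le_exp.mpr
      have h1 : 0 ≤ p.1 ^ 2 / T := by positivity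
      have h2 : -(14 / 1000 / T) * p.1 ^ 2 = -(14 / 1000) * (p.1 ^ 2 / T) := by ring
      rw [h2]
      nlinarith [sq_nonneg p.2]
    · exact (Real.exp_pos _).le
    · positivity
  · intro p hp
    refine (mul_le_mul_of_nonneg_right (hbase p) (by norm_num : (0:ℝ) ≤ 2)).trans ?_
    have h0 : (1 / Real.sqrt T) * Real.exp (24 - A) *
        (Real.exp (-(14 / 1000 / T) * p.1 ^ 2) * Real.exp (-(1 / 100) * p.2 ^ 2)) =
        (1 / Real.sqrt T) * (Real.exp (24 - A + (-(14 / 1000 / T) * p.1 ^ 2) + (-(1 / 100) * p.2 ^ 2))) := by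
      rw [Real.exp_add, Real.exp_add]; ring
    beta_reduce
    rw [h0]
    have h1 : 1 / (2 * Real.sqrt T) * Real.exp (24 - 2 / 100 * p.2 ^ 2 - 28 / 1000 * (p.1 ^ 2 / T)) * 2 =
        (1 / Real.sqrt T) * Real.exp (24 - 2 / 100 * p.2 ^ 2 - 28 / 1000 * (p.1 ^ 2 / T)) := by
      field_simp
    rw [h1]
    apply mul_le_mul_of_nonneg_left _ (by positivity)
    apply Real.exp_le_exp.mpr
    have h2 : -(14 / 1000 / T) * p.1 ^ 2 = -(14 / 1000) * (p.1 ^ 2 / T) := by ring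
    rw [h2]
    have hB : 0 < B := by linarith
    have h3 : 0 ≤ p.1 ^ 2 / T := by positivity
    unfold Good at hp
    rw [not_and_or, not_le, not_le] at hp
    rcases hp with hp | hp
    · have h4 : 100 * B ≤ p.1 ^ 2 / T := by
        rw [le_div_iff₀ hT]
        have h5 : (10 * Real.sqrt (B * T)) ^ 2 ≤ |p.1| ^ 2 := by gcongr
        rw [mul_pow, Real.sq_sqrt (by positivity), sq_abs] at h5
        linarith
      nlinarith [sq_nonneg p.2]
    · have h4 : 100 * B ≤ p.2 ^ 2 := by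
        have h5 : (10 * Real.sqrt B) ^ 2 ≤ |p.2| ^ 2 := by gcongr
        rw [mul_pow, Real.sq_sqrt (by positivity), sq_abs] at h5
        linarith
      nlinarith [sq_nonneg p.2]

end Crest.Agent.R300U.Sup
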