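import Crest.Agent.R300.U.SupDefs
/-!
Row 300, upper bound, superposition step: constants of the good region,
`goodStatement : GoodStatement`.
-/
set_option autoImplicit false

namespace Crest.Agent.R300U.Sup

open Complex

theorem sC_add_re (τ y ω : ℝ) : (sC τ y + I * ω).re = -Rw τ y := by
  simp [sC]

theorem sC_add_im (τ y ω : ℝ) : (sC τ y + I * ω).im = y + ω := by
  simp [sC]

/-- **Half 1'**: constants of the good region. -/
theorem goodStatement : GoodStatement := by
  intro k τ' τ B hk hk4 hτ' h hB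
  have hτ : 0 < τ := by linarith
  have hk2 : (2 : ℝ) ≤ k := by exact_mod_cast hk
  have hk4' : (k : ℝ) ≤ 4 := by exact_mod_cast hk4
  have hT1 : 1.999 * τ ≤ k * τ - τ' := by nlinarith
  have hT2 : k * τ - τ' ≤ 4 * τ := by nlinarith
  set T := k * τ - τ' with hTdef
  have hT : 0 < T := by linarith
  set v := Real.sqrt τ with hv
  set w := Real.sqrt T with hw
  set b := Real.sqrt B with hb
  have hv0 : 0 < v := Real.sqrt_pos.mpr hτ
  have hw0 : 0 < w := Real.sqrt_pos.mpr hT
  have hb1 : 1 ≤ b := by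
    rw [hb]; exact Real.one_le_sqrt.mpr hB
  have hv2 : v ^ 2 = τ := Real.sq_sqrt hτ.le
  have hw2 : w ^ 2 = T := Real.sq_sqrt hT.le
  have hBτ : Real.sqrt (B * τ) = b * v := Real.sqrt_mul (by linarith) τ
  have hBT : Real.sqrt (B * T) = b * w := Real.sqrt_mul (by linarith) T
  have hvw : v ≤ 0.7073 * w := by
    apply le_of_sq_le_sq _ (by positivity)
    rw [mul_pow, hv2, hw2]; nlinarith
  have hwv : w ≤ 2 * v := by
    apply le_of_sq_le_sq _ (by positivity)
    rw [mul_pow, hv2, hw2]; linarith
  have hvwd : v / w ≤ 0.7073 := by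
    rw [div_le_iff₀ hw0]; exact hvw
  have hvwd0 : 0 ≤ v / w := by positivity
  rw [hBτ]
  refine ⟨?_, ?_⟩
  · intro y ω hω
    rw [sC_add_re, sC_add_im]
    have hy := abs_nonneg y
    have hR : Rw τ y = v + 9 / 20 * |y| := by unfold Rw kap; rfl
    rw [hR]
    refine ⟨by linarith, ?_⟩
    have h1 : |y + ω| ≤ |y| + v := (abs_add_le y ω).trans (by linarith)
    have h2 : (y + ω) ^ 2 ≤ (|y| + v) ^ 2 := by
      rw [← sq_abs (y + ω)]
      exact pow_le_pow_left₀ (abs_nonneg _) h1 2
    nlinarith [mul_nonneg hy hv0.le]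
  · intro p hp
    obtain ⟨hy, hZ⟩ := hp
    rw [hBT] at hy
    have hy0 := abs_nonneg p.1
    have hR : Rw τ p.1 = v + 9 / 20 * |p.1| := by unfold Rw kap; rfl
    have hbv : 0 < b * v := by positivity
    have hv_le : v ≤ b * v := by nlinarith
    have hy' : |p.1| ≤ 20 * (b * v) := by
      have : b * w ≤ b * (2 * v) := mul_le_mul_of_nonneg_left hwv (by linarith)
      linarith
    refine ⟨?_, ?_, ?_⟩
    · have e : rhoS T τ p = v / w * (v * p.2) + (v / w) ^ 2 * (v + 9 / 20 * |p.1|) := by
        unfold rhoS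
        rw [hR, ← hw, ← hv2, ← hw2]
        field_simp
      rw [e]
      have h1 : v / w * (v * p.2) ≤ 0.7073 * (v * (10 * b)) := by
        calc v / w * (v * p.2) ≤ v / w * (v * (10 * b)) := by
              apply mul_le_mul_of_nonneg_left _ hvwd0
              exact mul_le_mul_of_nonneg_left ((le_abs_self _).trans hZ) hv0.le
          _ ≤ 0.7073 * (v * (10 * b)) := by
              apply mul_le_mul_of_nonneg_right hvwd (by positivity)
      have h2 : (v / w) ^ 2 ≤ 0.5003 := by nlinarith
      have h3 : (v / w) ^ 2 * v ≤ 0.5003 * v := mul_le_mul_of_nonneg_right h2 hv0.le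
      have h4 : (v / w) ^ 2 * (9 / 20 * |p.1|) ≤ 4.5 * (0.7073 * (b * v)) := by
        calc (v / w) ^ 2 * (9 / 20 * |p.1|) ≤ (v / w) ^ 2 * (9 / 20 * (10 * (b * w))) := by
              apply mul_le_mul_of_nonneg_left _ (sq_nonneg _)
              linarith
          _ = 4.5 * ((v / w) * (b * v)) := by field_simp; ring
          _ ≤ 4.5 * (0.7073 * (b * v)) := by
              apply mul_le_mul_of_nonneg_left _ (by norm_num)
              exact mul_le_mul_of_nonneg_right hvwd hbv.le
      nlinarith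
    · intro ω hω
      have h1 : ‖sC τ p.1 + I * ω‖ ≤ |(sC τ p.1 + I * ω).re| + |(sC τ p.1 + I * ω).im| :=
        Complex.norm_le_abs_re_add_abs_im _
      rw [sC_add_re, sC_add_im, hR, abs_neg, abs_of_nonneg (by positivity)] at h1
      have h2 : |p.1 + ω| ≤ |p.1| + v := (abs_add_le _ _).trans (by linarith)
      linarith
    · intro r ν hr hν
      have h1 : |-(p.1 * τ / T)| ≤ |p.1| := by
        rw [abs_neg, abs_div, abs_mul, abs_of_pos hτ, abs_of_pos hT, div_le_iff₀ hT]
        apply mul_le_mul_of_nonneg_left _ hy0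
        linarith
      have h2 := abs_add_le (-(p.1 * τ / T)) ν
      linarith

end Crest.Agent.R300U.Sup
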