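import Crest.Agent.R300.U.Super
import Crest.Agent.R300.U.SupGauss
import Crest.Agent.R300.U.SupGood
/-!
Row 300, upper bound: the superposition step.
-/
set_option autoImplicit false

namespace Crest.Agent.R300U

/-- **Superposition step.** -/
theorem superposition : SuperpositionStatement :=
  Sup.superposition_of Sup.gaussStatement Sup.goodStatement

end Crest.Agent.R300U
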