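import Crest.Agent.R300.U.Iface
import Crest.Agent.R300.U.SupExp
/-!
Row 300, upper bound, superposition step: assembly.
-/
set_option autoImplicit false

namespace Crest.Agent.R300U.Sup

open Complex MeasureTheory

theorem val_cons {n : ℕ} (nd : Node) (c : Code) (M : ℕ) :
    (val (nd :: c) M : R n) = ∑ d ∈ (Fintype.piFinset (fun _ : Fin nd.k =>
      Finset.range (M + 1))).filter (fun d => ∃ a, d a = 0),
      ∏ a : Fin nd.k,
        (Complex.exp (-(nd.τ * (d a : ℝ) ^ 2 / 2 : ℝ) + ((nd.ρ : ℂ) + Complex.I * nd.f a) * (d a : ℂ)) •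
          cj (nd.flag a) (val c (M - d a))) := by
  simp only [val]

theorem prod_smul_PP {n : ℕ} (c : Code) {k : ℕ} (flag : Fin k → Bool) (M : ℕ) (d : Fin k → ℕ)
    (z : Fin k → ℂ) :
    (∏ a : Fin k, (z a • cj (flag a) (val c (M - d a))) : R n) = (∏ a, z a) • PP c flag M d :=
  Finset.prod_smul _ _ _

/-- value of the composite with integration variables `p`. -/
theorem val_ndp {n : ℕ} (c : Code) {k : ℕ} (flag : Fin k → Bool) (T τ : ℝ) (ν : Fin k → ℝ)
    (p : ℝ × ℝ) (M : ℕ) :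
    (val (ndp k flag T τ ν p :: c) M : R n) = ∑ d ∈ dset k M,
      (∏ a : Fin k, cexp (-(τ * (d a : ℝ) ^ 2 / 2 : ℝ) +
        ((rhoS T τ p : ℂ) + I * ((-(p.1 * τ / T) + -(sg (flag a) (ν a)) : ℝ) : ℂ)) * (d a : ℂ))) •
        PP c flag M d := by
  rw [val_cons]
  refine Finset.sum_congr rfl fun d _ => ?_
  exact prod_smul_PP c flag M d _

theorem PP_Bd {n : ℕ} {c : Code} (hc : ∀ nd ∈ c, 0 < nd.τ ∧ 1 ≤ nd.k) {k : ℕ}
    (flag : Fin k → Bool) (M : ℕ) (d : Fin k → ℕ) :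
    Bd (k * leaves c) (nrm c ^ k) (PP c flag M d : R n) := by
  have h := Bd.prod (Finset.univ : Finset (Fin k)) (fun _ => leaves c) (fun _ => nrm c)
    (fun a => cj (flag a) (val c (M - d a) : R n)) (fun a _ => (val_Bd hc _).cj (flag a))
  simpa [PP] using h

theorem PP_known {n D : ℕ} {E : PE n D} {x : Fin n → Bool} {t : ℕ} (h : Prefix E x t)
    (c : Code) {k : ℕ} (flag : Fin k → Bool) {M : ℕ} (hM : M < t) (d : Fin k → ℕ)
    (hD : k * leaves c ≤ D) : E.N (dev x (PP c flag M d : R n)) = 0 := by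
  have h1 := Kn.prod (E := E) (x := x) (Finset.univ : Finset (Fin k)) (fun _ => leaves c)
    (fun a => cj (flag a) (val c (M - d a) : R n))
    (fun a _ => (Kn.val h c (lt_of_le_of_lt (Nat.sub_le _ _) hM)).cj (flag a))
  apply Kn.N_dev (d := ∑ _a : Fin k, leaves c) h1
  simpa using hD

theorem superposition_of (hG : GaussStatement) (hGd : GoodStatement) : SuperpositionStatement := by
  obtain ⟨C, hC, hgauss⟩ := hG
  refine ⟨C + Real.log 4, add_nonneg hC (Real.log_nonneg (by norm_num)), ?_⟩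
  intro n D E x t c τ' τ r A B hc hD hpre hτ' hττ hA hAB hr hdeep k hk2 hk4 flag ν hν htot
  have hτ : 0 < τ := by linarith
  have hk2R : (2:ℝ) ≤ k := by exact_mod_cast hk2
  have hk4R : (k:ℝ) ≤ 4 := by exact_mod_cast hk4
  have hT : 0 < (k:ℝ) * τ - τ' := by nlinarith
  have hkD : k * leaves c ≤ D := le_trans (Nat.mul_le_mul_right _ hk4) hD
  set T : ℝ := (k:ℝ) * τ - τ' with hTdef
  -- coefficients
  set c0 : ℕ → (Fin k → ℕ) → ℂ := fun M d =>
    ∏ a : Fin k, cexp (-(τ * ((M : ℝ) - d a - t) ^ 2 / 2 : ℝ) +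
        I * (if flag a then -ν a else ν a : ℝ) * ((M : ℂ) - d a - t)) with hc0
  have hexp : dev x (Pr c t τ flag ν : R n) = ∑ M ∈ Finset.range n, ∑ d ∈ dset k M,
      c0 M d • dev x (PP c flag M d) := by
    rw [Pr_expand c t τ (by omega) flag ν, dev_sum]
    refine Finset.sum_congr rfl fun M _ => ?_
    rw [dev_sum]
    refine Finset.sum_congr rfl fun d _ => ?_
    rw [prod_smul_PP, dev_smul]
  set G1 : R n := ∑ M ∈ (Finset.range n).filter (fun M => M < t), ∑ d ∈ dset k M,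
      c0 M d • dev x (PP c flag M d) with hG1
  set G2 : R n := ∑ M ∈ Finset.Ico t n, ∑ d ∈ dset k M,
      c0 M d • dev x (PP c flag M d) with hG2
  have hsplit : dev x (Pr c t τ flag ν : R n) = G1 + G2 := by
    rw [hexp, hG1, hG2, ← Finset.sum_filter_add_sum_filter_not (Finset.range n) (fun M => M < t)]
    congr 1
    apply Finset.sum_congr _ fun _ _ => rfl
    ext M
    simp only [Finset.mem_filter, Finset.mem_range, Finset.mem_Ico, not_lt]
    tauto
  -- degree bounds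
  have hPPdev : ∀ (M : ℕ) (d : Fin k → ℕ), Bd D (2 * nrm c ^ k) (dev x (PP c flag M d : R n)) :=
    fun M d => ((PP_Bd hc flag M d).dev x).mono_deg hkD
  have hBdS : ∀ s : Finset ℕ, Bd D (∑ M ∈ s, ∑ d ∈ dset k M, ‖c0 M d‖ * (2 * nrm c ^ k))
      (∑ M ∈ s, ∑ d ∈ dset k M, c0 M d • dev x (PP c flag M d : R n)) := by
    intro s
    exact Bd.sum s _ _ fun M _ => Bd.sum _ _ _ fun d _ => (hPPdev M d).smul _
  have hG1B := hBdS ((Finset.range n).filter (fun M => M < t))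
  have hG2B := hBdS (Finset.Ico t n)
  rw [← hG1] at hG1B
  rw [← hG2] at hG2B
  -- the known part
  have hN1 : E.N G1 = 0 := by
    refine le_antisymm ?_ (E.N_nonneg _)
    rw [hG1]
    refine (E.N_sum_le _ (fun M => ∑ d ∈ dset k M, ‖c0 M d‖ * (2 * nrm c ^ k)) _
      (fun M _ => Bd.sum _ _ _ fun d _ => (hPPdev M d).smul _)).trans ?_
    refine Finset.sum_nonpos fun M hM => ?_
    have hMt : M < t := (Finset.mem_filter.mp hM).2
    refine (E.N_sum_le _ (fun d => ‖c0 M d‖ * (2 * nrm c ^ k)) _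
      (fun d _ => (hPPdev M d).smul _)).trans ?_
    refine Finset.sum_nonpos fun d _ => ?_
    rw [E.N_smul, PP_known hpre c flag hMt d hkD, mul_zero]
  -- the majorant
  obtain ⟨g, hgint, hgle, hgood, hbad⟩ := hgauss k τ' τ A B hk2 hk4 hτ' hττ hA hAB
  obtain ⟨hgd1, hgd2⟩ := hGd k τ' τ B hk2 hk4 hτ' hττ (le_trans hA hAB)
  set ω : ℝ := tot flag ν with hω
  set U : ℝ × ℝ → R n := fun p => Udev x (ndp k flag T τ ν p :: c) t τ' (sC τ p.1 + I * (ω : ℂ))
    with hU
  set K : ℝ := k * Wt τ ^ (k - 1) * nrm c ^ k * Wt τ' with hK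
  have hnc : 0 < nrm c := nrm_pos hc
  have hK0 : 0 ≤ K := by
    rw [hK]
    have := (Wt_pos (τ := τ)).le
    have := (Wt_pos (τ := τ')).le
    positivity
  have hndc : ∀ p : ℝ × ℝ, ∀ nd ∈ ndp k flag T τ ν p :: c, 0 < nd.τ ∧ 1 ≤ nd.k := by
    intro p nd hnd
    rcases List.mem_cons.mp hnd with h | h
    · subst h
      exact ⟨hτ, by show 1 ≤ k; omega⟩
    · exact hc nd h
  have hnrm : ∀ p : ℝ × ℝ, nrm (ndp k flag T τ ν p :: c) * Wt τ'
      = K * Real.exp (((k : ℝ) - 1) * (max (rhoS T τ p) 0) ^ 2 / (2 * τ)) := by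
    intro p
    rw [nrm_cons_eq, hK]
    simp only [ndp]
    ring
  have hUB : ∀ p : ℝ × ℝ, Bd (leaves (ndp k flag T τ ν p :: c))
      (2 * (nrm (ndp k flag T τ ν p :: c) * Wt τ')) (U p) := by
    intro p
    apply Udev_Bd (hndc p) x t hτ'
    have := (hgd1 p.1 ω htot).1
    have h0 := Real.sqrt_nonneg τ
    linarith
  have hlv : ∀ p : ℝ × ℝ, leaves (ndp k flag T τ ν p :: c) ≤ D := by
    intro p
    show k * leaves c ≤ D
    exact hkD
  have hUN : ∀ p : ℝ × ℝ, ‖Wg T τ p‖ * E.N (U p) ≤ K * g p := by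
    intro p
    by_cases hp : Good T B p
    · have h1 := hdeep (ndp k flag T τ ν p) hk2 hk4 rfl (hgd2 p hp).1 (by
        intro a
        apply (hgd2 p hp).2.2 r _ hr
        rw [abs_neg, abs_sg]
        exact hν a) (sC τ p.1 + I * (ω : ℂ)) (hgd1 p.1 ω htot).1 (hgd1 p.1 ω htot).2
          ((hgd2 p hp).2.1 ω htot)
      rw [hnrm] at h1
      calc ‖Wg T τ p‖ * E.N (U p) ≤ ‖Wg T τ p‖ * (Real.exp (-A) *
            (K * Real.exp (((k : ℝ) - 1) * (max (rhoS T τ p) 0) ^ 2 / (2 * τ)))) :=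
            mul_le_mul_of_nonneg_left h1 (norm_nonneg _)
        _ = K * (‖Wg T τ p‖ * Real.exp (((k : ℝ) - 1) * (max (rhoS T τ p) 0) ^ 2 / (2 * τ)) *
            Real.exp (-A)) := by ring
        _ ≤ K * g p := mul_le_mul_of_nonneg_left (hgood p hp) hK0
    · have h1 := E.N_le_of_Bd (hUB p) (hlv p)
      rw [hnrm] at h1
      calc ‖Wg T τ p‖ * E.N (U p) ≤ ‖Wg T τ p‖ * (2 * (K *
            Real.exp (((k : ℝ) - 1) * (max (rhoS T τ p) 0) ^ 2 / (2 * τ)))) :=
            mul_le_mul_of_nonneg_left h1 (norm_nonneg _)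
        _ = K * (‖Wg T τ p‖ * Real.exp (((k : ℝ) - 1) * (max (rhoS T τ p) 0) ^ 2 / (2 * τ)) *
            2) := by ring
        _ ≤ K * g p := mul_le_mul_of_nonneg_left (hbad p hp) hK0
  -- the functional
  set ell : R n →ₗ[ℂ] ℂ := E.L ∘ₗ LinearMap.mulLeft ℂ (star G2) with hell
  have hellapp : ∀ P : R n, ell P = E.L (star G2 * P) := fun P => rfl
  set cU : ℕ → (Fin k → ℕ) → ℝ × ℝ → ℂ := fun M d p =>
    Wg T τ p *
      (cexp (-(τ' * ((M : ℝ) - t) ^ 2 / 2 : ℝ) + (sC τ p.1 + I * (ω : ℂ)) * ((M : ℂ) - t)) *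
      ∏ a : Fin k, cexp (-(τ * (d a : ℝ) ^ 2 / 2 : ℝ) +
        ((rhoS T τ p : ℂ) +
          I * ((-(p.1 * τ / T) + -(sg (flag a) (ν a)) : ℝ) : ℂ)) * (d a : ℂ))) with hcU
  have hcI : ∀ (M : ℕ) (d : Fin k → ℕ), Integrable (cU M d) ∧ ∫ p, cU M d p = c0 M d := by
    intro M d
    exact coef_integral flag ν hT M t d
  have hellU : ∀ p : ℝ × ℝ, Wg T τ p * ell (U p) = ∑ M ∈ Finset.Ico t n, ∑ d ∈ dset k M,
      cU M d p * ell (dev x (PP c flag M d)) := by
    intro p
    rw [hU]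
    simp only [Udev]
    rw [map_sum, Finset.mul_sum]
    refine Finset.sum_congr rfl fun M _ => ?_
    rw [val_ndp, dev_sum, Finset.smul_sum, map_sum, Finset.mul_sum]
    refine Finset.sum_congr rfl fun d _ => ?_
    rw [dev_smul, smul_smul, map_smul, smul_eq_mul, hcU]
    ring
  have hellG : ell G2 = ∫ p, Wg T τ p * ell (U p) := by
    have h1 : ell G2 = ∑ M ∈ Finset.Ico t n, ∑ d ∈ dset k M,
        c0 M d * ell (dev x (PP c flag M d)) := by
      rw [hG2, map_sum]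
      refine Finset.sum_congr rfl fun M _ => ?_
      rw [map_sum]
      refine Finset.sum_congr rfl fun d _ => ?_
      rw [map_smul, smul_eq_mul]
    simp_rw [hellU]
    rw [h1, integral_finsetSum _ fun M _ => integrable_finsetSum _ fun d _ =>
      (hcI M d).1.mul_const _]
    refine Finset.sum_congr rfl fun M _ => ?_
    rw [integral_finsetSum _ fun d _ => (hcI M d).1.mul_const _]
    refine Finset.sum_congr rfl fun d _ => ?_
    rw [integral_mul_const, (hcI M d).2]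
  have hbound : ‖ell G2‖ ≤ E.N G2 * (K * Real.exp (C - A)) := by
    rw [hellG]
    have h1 : ‖∫ p, Wg T τ p * ell (U p)‖ ≤ ∫ p, E.N G2 * (K * g p) := by
      apply norm_integral_le_of_norm_le ((hgint.const_mul K).const_mul (E.N G2))
      refine Filter.Eventually.of_forall fun p => ?_
      rw [norm_mul, hellapp]
      have h2 := E.cauchy hG2B ((hUB p).mono_deg (hlv p))
      calc ‖Wg T τ p‖ * ‖E.L (star G2 * U p)‖ ≤ ‖Wg T τ p‖ * (E.N G2 * E.N (U p)) :=
            mul_le_mul_of_nonneg_left h2 (norm_nonneg _)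
        _ = E.N G2 * (‖Wg T τ p‖ * E.N (U p)) := by ring
        _ ≤ E.N G2 * (K * g p) := mul_le_mul_of_nonneg_left (hUN p) (E.N_nonneg _)
    refine h1.trans ?_
    rw [integral_const_mul, integral_const_mul]
    exact mul_le_mul_of_nonneg_left (mul_le_mul_of_nonneg_left hgle hK0) (E.N_nonneg _)
  have hN2 : E.N G2 ≤ K * Real.exp (C - A) := by
    have h1 : E.N G2 ^ 2 ≤ E.N G2 * (K * Real.exp (C - A)) := by
      rw [E.N_sq hG2B]
      exact (Complex.re_le_norm _).trans hbound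
    rcases (E.N_nonneg G2).eq_or_lt with h0 | h0
    · rw [← h0]
      exact mul_nonneg hK0 (Real.exp_pos _).le
    · have h2 : E.N G2 * E.N G2 ≤ E.N G2 * (K * Real.exp (C - A)) := by
        rw [← sq]; exact h1
      exact le_of_mul_le_mul_left h2 h0
  have hN : E.N (dev x (Pr c t τ flag ν)) ≤ K * Real.exp (C - A) := by
    rw [hsplit]
    refine (E.N_add_le hG1B hG2B).trans ?_
    rw [hN1, zero_add]
    exact hN2
  refine hN.trans ?_
  -- constants
  have hratio : 0 < τ / τ' := by positivity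
  have hr1 : 1 ≤ τ / τ' := by rw [le_div_iff₀ hτ']; linarith
  have hW : Wt τ' ≤ Real.sqrt (τ / τ') * Wt τ := by
    unfold Wt
    have h1 : Real.sqrt (2 * Real.pi / τ') = Real.sqrt (τ / τ') * Real.sqrt (2 * Real.pi / τ) := by
      rw [← Real.sqrt_mul hratio.le]
      congr 1
      field_simp
    have h2 : 1 ≤ Real.sqrt (τ / τ') := by
      rw [Real.one_le_sqrt]; exact hr1
    rw [h1]
    nlinarith [Real.sqrt_nonneg (2 * Real.pi / τ)]
  have hexpo : Real.exp (-(A - (C + Real.log 4) - 1 / 2 * Real.log (τ / τ')))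
      = 4 * Real.exp (C - A) * Real.sqrt (τ / τ') := by
    have e1 : -(A - (C + Real.log 4) - 1 / 2 * Real.log (τ / τ'))
        = Real.log 4 + (C - A) + 1 / 2 * Real.log (τ / τ') := by ring
    rw [e1, Real.exp_add, Real.exp_add, Real.exp_log (by norm_num : (0:ℝ) < 4)]
    congr 1
    rw [Real.sqrt_eq_rpow, Real.rpow_def_of_pos hratio, mul_comm]
  rw [hexpo, mul_pow, hK]
  have hWτ : 0 < Wt τ := Wt_pos
  have hWτ' : 0 < Wt τ' := Wt_pos
  have hpow : Wt τ ^ (k - 1) * Wt τ = Wt τ ^ k := by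
    rw [← pow_succ]; congr 1; omega
  have hE : 0 < Real.exp (C - A) := Real.exp_pos _
  calc (k:ℝ) * Wt τ ^ (k - 1) * nrm c ^ k * Wt τ' * Real.exp (C - A)
      ≤ 4 * Wt τ ^ (k - 1) * nrm c ^ k * (Real.sqrt (τ / τ') * Wt τ) * Real.exp (C - A) := by
        gcongr
    _ = 4 * Real.exp (C - A) * Real.sqrt (τ / τ') * (nrm c ^ k * (Wt τ ^ (k - 1) * Wt τ)) := by
        ring
    _ = 4 * Real.exp (C - A) * Real.sqrt (τ / τ') * (nrm c ^ k * Wt τ ^ k) := by rw [hpow]

end Crest.Agent.R300U.Sup
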