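import Mathlib
import Crest.Agent.R300.U.Iface
/-!
Row 300, upper bound: closed form of the trace moments (`TFormStatement`).

* `tr q p w f`: expectation of `f` of a trace of the list `w`, by recursion on `w`;
* `st gs`: the statistic with gap list `gs`;
* `Cl`: the nested closed sum; `tr_st_eq_Cl` (Pascal's rule);
* `sum_strictMono_succ`: first-letter decomposition of sums over strictly increasing tuples.
-/
set_option autoImplicit false

namespace Crest.Agent.R300U

open scoped BigOperators
open Crest.FinProb Crest.TraceRecon Finset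

namespace TForm

/-! ### expectation over traces by recursion on the word -/

theorem bernoulliWeight_cons {n : ℕ} (p : ℝ) (b : Bool) (k : Fin n → Bool) :
    bernoulliWeight p (Fin.cons b k : Fin (n + 1) → Bool)
      = (if b then p else 1 - p) * bernoulliWeight p k := by
  unfold bernoulliWeight
  rw [Fin.prod_univ_succ]
  simp

theorem traceOf_cons {n : ℕ} (x : Fin (n + 1) → Bool) (b : Bool) (k : Fin n → Bool) :
    traceOf x (Fin.cons b k : Fin (n + 1) → Bool)
      = if b then x 0 :: traceOf (fun i => x i.succ) k else traceOf (fun i => x i.succ) k := by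
  unfold traceOf
  rw [List.finRange_succ]
  have h : List.map x (List.filter (fun i => (Fin.cons b k : Fin (n + 1) → Bool) i)
        (List.map Fin.succ (List.finRange n)))
      = List.map (fun i => x i.succ) (List.filter (fun i => k i) (List.finRange n)) := by
    rw [List.filter_map, List.map_map]
    rfl
  cases b
  · simp only [Fin.cons_zero, List.filter_cons, Bool.false_eq_true, if_false]
    exact h
  · simp only [Fin.cons_zero, List.filter_cons, if_true, List.map_cons]
    rw [h]

/-- expectation of `f` of a trace of `w` at retention `p` -/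
def tr (p : ℝ) : List Bool → (List Bool → ℝ) → ℝ
  | [], f => f []
  | c :: w, f => (1 - p) * tr p w f + p * tr p w (fun y => f (c :: y))

theorem sum_keep_eq_tr (p : ℝ) : ∀ {n : ℕ} (x : Fin n → Bool) (f : List Bool → ℝ),
    ∑ keep : Fin n → Bool, bernoulliWeight p keep * f (traceOf x keep)
      = tr p (List.ofFn x) f := by
  intro n
  induction n with
  | zero =>
    intro x f
    rw [List.ofFn_zero, Fintype.sum_unique]
    simp [bernoulliWeight, traceOf, tr]
  | succ n ih =>
    intro x f
    rw [List.ofFn_succ, tr, ← ih (fun i => x i.succ) f,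
      ← ih (fun i => x i.succ) (fun y => f (x 0 :: y)),
      ← (Fin.consEquiv (fun _ => Bool)).sum_comp, Fintype.sum_prod_type]
    simp only [Fintype.sum_bool]
    rw [Finset.mul_sum, Finset.mul_sum, add_comm]
    congr 1
    · refine Finset.sum_congr rfl fun k _ => ?_
      have : (Fin.consEquiv (fun _ : Fin (n + 1) => Bool)) (false, k)
          = (Fin.cons false k : Fin (n + 1) → Bool) := rfl
      rw [this, bernoulliWeight_cons, traceOf_cons]
      simp only [Bool.false_eq_true, if_false]
      rw [mul_assoc]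
    · refine Finset.sum_congr rfl fun k _ => ?_
      have : (Fin.consEquiv (fun _ : Fin (n + 1) => Bool)) (true, k)
          = (Fin.cons true k : Fin (n + 1) → Bool) := rfl
      rw [this, bernoulliWeight_cons, traceOf_cons]
      simp only [if_true]
      rw [mul_assoc]

theorem tr_const (p : ℝ) (w : List Bool) (z : ℝ) : tr p w (fun _ => z) = z := by
  induction w with
  | nil => rfl
  | cons c w ih => rw [tr, ih]; ring

/-! ### the statistic with a list of gaps -/

/-- `st gs y`: with gap list `gs = [g_0, g_1, …]`, the letters of `y` at the positions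
`g_0, g_0+1+g_1, …` are all `1`. -/
def st : List ℕ → List Bool → ℝ
  | [], _ => 1
  | _ :: _, [] => 0
  | 0 :: gs, c :: y => if c then st gs y else 0
  | (g + 1) :: gs, _ :: y => st (g :: gs) y

theorem st_nil (y : List Bool) : st [] y = 1 := by
  cases y <;> simp [st]

theorem st_cons (gs : List ℕ) : ∀ (g : ℕ) (y : List Bool),
    st (g :: gs) y = if y.getD g false = true then st gs (y.drop (g + 1)) else 0 := by
  intro g
  induction g with
  | zero =>
    intro y
    cases y with
    | nil => simp [st]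
    | cons c y => simp [st]
  | succ g ih =>
    intro y
    cases y with
    | nil => simp [st]
    | cons c y =>
      rw [st, ih y]
      simp

/-- gap list of a tuple of positions with offset `c` -/
def gl : (c : ℕ) → {l : ℕ} → (Fin l → ℕ) → List ℕ
  | _, 0, _ => []
  | c, _ + 1, a => (a 0 - c) :: gl (a 0 + 1) (fun i => a i.succ)

theorem st_gl : ∀ {l : ℕ} (c : ℕ) (a : Fin l → ℕ), StrictMono a → (∀ i, c ≤ a i) →
    ∀ y : List Bool,
    st (gl c a) y = if ∀ i, y.getD (a i - c) false = true then 1 else 0 := by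
  intro l
  induction l with
  | zero => intro c a _ _ y; simp [gl, st_nil]
  | succ l ih =>
    intro c a ha hc y
    rw [gl, st_cons]
    have h1 : StrictMono (fun i : Fin l => a i.succ) := fun i j hij =>
      ha (Fin.succ_lt_succ_iff.mpr hij)
    have h2 : ∀ i : Fin l, a 0 + 1 ≤ a i.succ := fun i => ha (Fin.succ_pos i)
    rw [ih (a 0 + 1) _ h1 h2]
    have h0 := hc 0
    have key : ∀ i : Fin l, (y.drop (a 0 - c + 1)).getD (a i.succ - (a 0 + 1)) false
        = y.getD (a i.succ - c) false := by
      intro i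
      have h3 := h2 i
      have h4 : a 0 - c + 1 + (a i.succ - (a 0 + 1)) = a i.succ - c := by omega
      rw [List.getD_eq_getElem?_getD, List.getElem?_drop, h4, ← List.getD_eq_getElem?_getD]
    simp only [key]
    by_cases hh : y.getD (a 0 - c) false = true
    · rw [if_pos hh]
      by_cases hA : ∀ i : Fin l, y.getD (a i.succ - c) false = true
      · rw [if_pos hA, if_pos]
        intro i
        refine Fin.cases hh (fun j => hA j) i
      · rw [if_neg hA, if_neg]
        intro h; exact hA fun i => h i.succ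
    · rw [if_neg hh, if_neg]
      intro h; exact hh (h 0)

theorem stat_image {l : ℕ} (a : Fin l → ℕ) (ha : StrictMono a) (y : List Bool) :
    R300U.stat (Finset.univ.image a) y = st (gl 0 a) y := by
  rw [st_gl 0 a ha (fun i => Nat.zero_le _)]
  unfold R300U.stat
  simp

/-! ### the nested closed sum -/

/-- weight of a gap: from the gap `d` in the word to the gap `g` in the trace -/
noncomputable def W (p : ℝ) (g d : ℕ) : ℝ := p * ((d.choose g : ℕ) * p ^ g * (1 - p) ^ (d - g))

theorem W_zero_zero (p : ℝ) : W p 0 0 = p := by simp [W]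

theorem W_succ_zero (p : ℝ) (g : ℕ) : W p (g + 1) 0 = 0 := by simp [W]

theorem W_zero_succ (p : ℝ) (d : ℕ) : W p 0 (d + 1) = (1 - p) * W p 0 d := by
  simp [W, pow_succ]; ring

theorem W_succ_succ (p : ℝ) (g d : ℕ) :
    W p (g + 1) (d + 1) = (1 - p) * W p (g + 1) d + p * W p g d := by
  unfold W
  rw [Nat.choose_succ_succ, Nat.add_sub_add_right]
  rcases Nat.lt_or_ge d (g + 1) with h | h
  · rw [Nat.choose_eq_zero_of_lt h]; push_cast; ring
  · obtain ⟨k, rfl⟩ := Nat.exists_eq_add_of_le h
    have e1 : g + 1 + k - g = k + 1 := by omega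
    have e2 : g + 1 + k - (g + 1) = k := by omega
    rw [e1, e2]; push_cast; ring

/-- the nested closed sum, letters `X`, word length `n`, gap list, start `b` -/
noncomputable def Cl (p : ℝ) (X : ℕ → ℝ) (n : ℕ) : List ℕ → ℕ → ℝ
  | [], _ => 1
  | g :: gs, b => ∑ v ∈ Finset.Ico b n, W p g (v - b) * X v * Cl p X n gs (v + 1)

theorem Cl_ge (p : ℝ) (X : ℕ → ℝ) {n b : ℕ} (g : ℕ) (gs : List ℕ) (h : n ≤ b) :
    Cl p X n (g :: gs) b = 0 := by
  rw [Cl, Finset.Ico_eq_empty_of_le h, Finset.sum_empty]

theorem Cl_zero_step (p : ℝ) (X : ℕ → ℝ) {n b : ℕ} (gs : List ℕ) (h : b < n) :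
    Cl p X n (0 :: gs) b
      = (1 - p) * Cl p X n (0 :: gs) (b + 1) + p * (X b * Cl p X n gs (b + 1)) := by
  rw [Cl, Finset.sum_eq_sum_Ico_succ_bot h, Nat.sub_self, W_zero_zero, Cl, Finset.mul_sum]
  rw [add_comm]
  congr 1
  · refine Finset.sum_congr rfl fun v hv => ?_
    have hv' := (Finset.mem_Ico.mp hv).1
    have e : v - b = (v - (b + 1)) + 1 := by omega
    rw [e, W_zero_succ]; ring
  · ring

theorem Cl_succ_step (p : ℝ) (X : ℕ → ℝ) {n b : ℕ} (g : ℕ) (gs : List ℕ) (h : b < n) :
    Cl p X n ((g + 1) :: gs) b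
      = (1 - p) * Cl p X n ((g + 1) :: gs) (b + 1) + p * Cl p X n (g :: gs) (b + 1) := by
  rw [Cl, Finset.sum_eq_sum_Ico_succ_bot h, Nat.sub_self, W_succ_zero, Cl, Cl, Finset.mul_sum,
    Finset.mul_sum, ← Finset.sum_add_distrib]
  rw [zero_mul, zero_mul, zero_add]
  refine Finset.sum_congr rfl fun v hv => ?_
  have hv' := (Finset.mem_Ico.mp hv).1
  have e : v - b = (v - (b + 1)) + 1 := by omega
  rw [e, W_succ_succ]; ring

/-- indicator of the letter at position `i` -/
def X (w : List Bool) (i : ℕ) : ℝ := if w.getD i false = true then 1 else 0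

theorem tr_st_eq_Cl (p : ℝ) (w : List Bool) : ∀ (k b : ℕ), b + k = w.length → ∀ gs : List ℕ,
    tr p (w.drop b) (st gs) = Cl p (X w) w.length gs b := by
  intro k
  induction k with
  | zero =>
    intro b hb gs
    have hd : w.drop b = [] := List.drop_eq_nil_of_le (by omega)
    rw [hd, tr]
    cases gs with
    | nil => simp [st_nil, Cl]
    | cons g gs => rw [Cl_ge _ _ _ _ (by omega)]; simp [st]
  | succ k ih =>
    intro b hb gs
    have hb' : b < w.length := by omega
    have ihb := ih (b + 1) (by omega)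
    cases gs with
    | nil =>
      have : st [] = fun _ => (1 : ℝ) := funext st_nil
      rw [this, tr_const]
      rfl
    | cons g gs =>
      rw [List.drop_eq_getElem_cons hb', tr, ihb]
      cases g with
      | zero =>
        rw [Cl_zero_step _ _ _ hb']
        congr 2
        have hX : X w b = if w[b] = true then 1 else 0 := by
          unfold X; rw [List.getD_eq_getElem _ _ hb']
        rw [hX]
        by_cases hc : w[b] = true
        · simp only [st, hc, if_true, one_mul]
          exact ihb gs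
        · have hc' : w[b] = false := by simpa using hc
          simp only [st, hc', Bool.false_eq_true, if_false, zero_mul]
          exact tr_const p _ 0
      | succ g =>
        rw [Cl_succ_step _ _ _ _ hb', ← ihb (g :: gs)]
        congr 2

theorem TT_image {n l : ℕ} (p : ℝ) (a : Fin l → ℕ) (ha : StrictMono a) (x : Fin n → Bool) :
    R300U.TT p (Finset.univ.image a) x = Cl p (X (List.ofFn x)) n (gl 0 a) 0 := by
  unfold R300U.TT
  rw [sum_keep_eq_tr]
  have : R300U.stat (Finset.univ.image a) = st (gl 0 a) := funext (stat_image a ha)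
  rw [this]
  have h := tr_st_eq_Cl p (List.ofFn x) n 0 (by simp) (gl 0 a)
  rw [List.drop_zero] at h
  rw [h, List.length_ofFn]

/-! ### sums over strictly increasing tuples -/

/-- gaps of a tuple with offset `b` -/
def gap (b : ℕ) {l : ℕ} (u : Fin l → ℕ) (j : Fin l) : ℕ :=
  if h : (j : ℕ) = 0 then u j - b else u j - u ⟨j - 1, by omega⟩ - 1

theorem gap_cons_zero (b v : ℕ) {l : ℕ} (u : Fin l → ℕ) :
    gap b (Fin.cons v u : Fin (l + 1) → ℕ) 0 = v - b := by
  simp [gap]

theorem gap_cons_succ (b v : ℕ) {l : ℕ} (u : Fin l → ℕ) (j : Fin l) :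
    gap b (Fin.cons v u : Fin (l + 1) → ℕ) j.succ = gap (v + 1) u j := by
  unfold gap
  have h : ¬ ((j.succ : Fin (l + 1)) : ℕ) = 0 := by simp
  rw [dif_neg h, Fin.cons_succ]
  obtain ⟨j, hj⟩ := j
  cases j with
  | zero =>
    rw [dif_pos rfl]
    have : (⟨(Fin.succ ⟨0, hj⟩ : Fin (l + 1)).val - 1, by omega⟩ : Fin (l + 1)) = 0 := by
      ext; simp
    rw [this, Fin.cons_zero]
    omega
  | succ k =>
    have h2 : ¬ ((⟨k + 1, hj⟩ : Fin l) : ℕ) = 0 := by simp
    rw [dif_neg h2]
    have : (⟨(Fin.succ ⟨k + 1, hj⟩ : Fin (l + 1)).val - 1, by simp; omega⟩ : Fin (l + 1))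
        = Fin.succ ⟨k, by omega⟩ := by
      ext; simp
    rw [this, Fin.cons_succ]
    rfl

theorem strictMono_cons_iff {l : ℕ} (v : ℕ) (u : Fin l → ℕ) :
    StrictMono (Fin.cons v u : Fin (l + 1) → ℕ) ↔ (∀ i, v < u i) ∧ StrictMono u := by
  constructor
  · intro h
    refine ⟨fun i => ?_, fun i j hij => ?_⟩
    · have := h (Fin.succ_pos i)
      simpa using this
    · have := h (Fin.succ_lt_succ_iff.mpr hij)
      simpa using this
  · rintro ⟨h1, h2⟩ i j
    refine Fin.cases ?_ (fun i => ?_) i <;> refine Fin.cases ?_ (fun j => ?_) j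
    · intro h; exact absurd h (lt_irrefl _)
    · intro _; simpa using h1 j
    · intro h; exact absurd h (Fin.not_lt_zero _)
    · intro h; simpa using h2 (Fin.succ_lt_succ_iff.mp h)

/-- strictly increasing tuples with entries in `[b, n)` -/
noncomputable def SM (b n l : ℕ) : Finset (Fin l → ℕ) :=
  (Fintype.piFinset (fun _ : Fin l => Finset.Ico b n)).filter (fun u => StrictMono u)

theorem mem_SM {b n l : ℕ} (u : Fin l → ℕ) :
    u ∈ SM b n l ↔ (∀ i, b ≤ u i ∧ u i < n) ∧ StrictMono u := by
  unfold SM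
  simp [Fintype.mem_piFinset, Finset.mem_Ico]

theorem SM_zero (b n : ℕ) : SM b n 0 = {Fin.elim0} := by
  ext u
  rw [mem_SM, Finset.mem_singleton]
  constructor
  · intro _; exact Subsingleton.elim _ _
  · intro _; exact ⟨fun i => i.elim0, fun i => i.elim0⟩

/-- first-letter decomposition of a sum over strictly increasing tuples -/
theorem sum_SM_succ {M : Type*} [AddCommMonoid M] (b n l : ℕ) (f : (Fin (l + 1) → ℕ) → M) :
    ∑ u ∈ SM b n (l + 1), f u
      = ∑ v ∈ Finset.Ico b n, ∑ u ∈ SM (v + 1) n l, f (Fin.cons v u) := by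
  rw [Finset.sum_sigma']
  refine Finset.sum_bij' (fun u _ => ⟨u 0, Fin.tail u⟩) (fun z _ => Fin.cons z.1 z.2)
    ?_ ?_ ?_ ?_ ?_
  · intro u hu
    rw [mem_SM] at hu
    obtain ⟨h1, h2⟩ := hu
    rw [Finset.mem_sigma]
    refine ⟨Finset.mem_Ico.mpr (h1 0), ?_⟩
    show Fin.tail u ∈ SM (u 0 + 1) n l
    rw [mem_SM]
    refine ⟨fun i => ⟨h2 (Fin.succ_pos i), (h1 i.succ).2⟩, fun i j hij => ?_⟩
    exact h2 (Fin.succ_lt_succ_iff.mpr hij)
  · rintro ⟨v, u⟩ hz
    rw [Finset.mem_sigma] at hz
    obtain ⟨h1, h2⟩ := hz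
    have h1' : b ≤ v ∧ v < n := Finset.mem_Ico.mp h1
    have h2' : u ∈ SM (v + 1) n l := h2
    rw [mem_SM] at h2'
    show Fin.cons v u ∈ SM b n (l + 1)
    rw [mem_SM, strictMono_cons_iff]
    refine ⟨fun i => ?_, fun i => (h2'.1 i).1, h2'.2⟩
    refine Fin.cases ?_ (fun i => ?_) i
    · simpa using h1'
    · have := h2'.1 i
      simp only [Fin.cons_succ]
      omega
  · intro u _; exact Fin.cons_self_tail u
  · rintro ⟨v, u⟩ _; rfl
  · intro u _
    show f u = f (Fin.cons (u 0) (Fin.tail u))
    rw [Fin.cons_self_tail]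

/-- product form of the decomposition -/
theorem sum_SM_prod_succ {A : Type*} [CommSemiring A] (b n l : ℕ) (φ : Fin (l + 1) → ℕ → A)
    (X : ℕ → A) :
    ∑ u ∈ SM b n (l + 1), ∏ j, (φ j (gap b u j) * X (u j))
      = ∑ v ∈ Finset.Ico b n, φ 0 (v - b) * X v *
          ∑ u ∈ SM (v + 1) n l, ∏ j, (φ j.succ (gap (v + 1) u j) * X (u j)) := by
  rw [sum_SM_succ]
  refine Finset.sum_congr rfl fun v _ => ?_
  rw [Finset.mul_sum]
  refine Finset.sum_congr rfl fun u _ => ?_
  rw [Fin.prod_univ_succ, gap_cons_zero, Fin.cons_zero]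
  congr 1
  refine Finset.prod_congr rfl fun j _ => ?_
  rw [gap_cons_succ, Fin.cons_succ]

theorem sum_SM_eq_Cl (p : ℝ) (X : ℕ → ℝ) (n : ℕ) : ∀ (l b c : ℕ) (a : Fin l → ℕ),
    ∑ u ∈ SM b n l, ∏ j, (W p (gap c a j) (gap b u j) * X (u j)) = Cl p X n (gl c a) b := by
  intro l
  induction l with
  | zero =>
    intro b c a
    rw [SM_zero, Finset.sum_singleton]
    simp [gl, Cl]
  | succ l ih =>
    intro b c a
    rw [sum_SM_prod_succ b n l (fun j d => W p (gap c a j) d) X, gl, Cl]
    refine Finset.sum_congr rfl fun v _ => ?_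
    have ha : a = Fin.cons (a 0) (fun i => a i.succ) := (Fin.cons_self_tail a).symm
    have h0 : gap c a 0 = a 0 - c := by simp [gap]
    rw [h0, ← ih (v + 1) (a 0 + 1) (fun i => a i.succ)]
    congr 1
    refine Finset.sum_congr rfl fun u _ => ?_
    refine Finset.prod_congr rfl fun j _ => ?_
    have h1 : gap c a j.succ = gap (a 0 + 1) (fun i => a i.succ) j := by
      conv_lhs => rw [ha]
      exact gap_cons_succ c (a 0) (fun i => a i.succ) j
    rw [h1]

theorem TT_eq_sum {n l : ℕ} (p : ℝ) (a : Fin l → ℕ) (ha : StrictMono a) (x : Fin n → Bool) :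
    R300U.TT p (Finset.univ.image a) x
      = ∑ u ∈ SM 0 n l, ∏ j, (W p (gap 0 a j) (gap 0 u j) * X (List.ofFn x) (u j)) := by
  rw [TT_image p a ha x, sum_SM_eq_Cl]

theorem xv_eq {n : ℕ} (u : ℕ) (x : Fin n → Bool) :
    (xv u : R n) x = ((X (List.ofFn x) u : ℝ) : ℂ) := by
  unfold xv X
  by_cases h : u < n
  · rw [dif_pos h, List.getD_eq_getElem _ _ (by simpa using h)]
    by_cases hx : x ⟨u, h⟩ = true <;> simp [hx]
  · rw [dif_neg h, List.getD_eq_default _ _ (by simpa using h)]
    simp

end TForm

open TForm in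
/-- closed form of the trace moments -/
theorem tForm : TFormStatement := by
  intro n l p a ha
  funext x
  unfold Tc
  rw [TT_eq_sum p a ha x]
  unfold Tmom
  rw [Finset.sum_apply]
  have hS : (Fintype.piFinset (fun _ : Fin l => Finset.range n)).filter (fun u => StrictMono u)
      = SM 0 n l := by
    unfold SM; rw [Finset.range_eq_Ico]
  rw [hS]
  push_cast
  refine Finset.sum_congr rfl fun u _ => ?_
  rw [Pi.smul_apply, Finset.prod_apply, smul_eq_mul]
  rw [Finset.prod_mul_distrib]
  congr 1
  · have e : ((p : ℂ) ^ l) = ∏ _j : Fin l, (p : ℂ) := by simp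
    rw [e, ← Finset.prod_mul_distrib]
    refine Finset.prod_congr rfl fun j _ => ?_
    unfold W gap
    simp only [Nat.sub_zero]
    push_cast
    rfl
  · refine Finset.prod_congr rfl fun j _ => ?_
    rw [xv_eq]

end Crest.Agent.R300U
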