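import Crest.Agent.R300.U.UMain
import Crest.Agent.R300.U.LevelFinal
import Crest.Agent.R300.U.SupFin
import Crest.Agent.R300.U.Access
import Crest.Agent.R300.U.PureOfData
import Crest.Agent.R300.U.TForm
import Crest.Agent.R300.U.Sched
/-!
Row 300, upper bound: the main theorem.
-/
set_option autoImplicit false

namespace Crest.Agent.R300U

theorem uMain : UMainStatement :=
  u_main levelStep finalStep superposition access (pureOfData tForm) schedStatement

end Crest.Agent.R300U
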