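import Crest.Agent.R300.U.Iface
import Crest.Agent.R300.U.Calc
/-!
Row 300, upper bound: assembly of the main theorem from the pieces.
-/
set_option autoImplicit false

namespace Crest.Agent.R300U

theorem um_nrm_nonneg : ∀ c : Code, 0 ≤ nrm c
  | [] => by simp [nrm]
  | nd :: c => by
    have h := um_nrm_nonneg c
    unfold nrm
    have h1 : 0 ≤ Real.sqrt (2 * Real.pi / nd.τ) := Real.sqrt_nonneg _
    positivity

theorem um_Wt_nonneg (τ : ℝ) : 0 ≤ Wt τ := by
  unfold Wt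
  have h1 : 0 ≤ Real.sqrt (2 * Real.pi / τ) := Real.sqrt_nonneg _
  positivity

theorem um_DeepKnown_mono {n D : ℕ} {E : PE n D} {x : Fin n → Bool} {t : ℕ} {c : Code}
    {τ σ₁ σ₂ A A' : ℝ} (h : DeepKnown E x t c τ σ₁ σ₂ A) (hA : A' ≤ A) :
    DeepKnown E x t c τ σ₁ σ₂ A' := by
  intro s h1 h2 h3
  refine (h s h1 h2 h3).trans ?_
  exact mul_le_mul_of_nonneg_right (Real.exp_le_exp.2 (by linarith))
    (mul_nonneg (um_nrm_nonneg c) (um_Wt_nonneg τ))

theorem um_Adm_good {s : Sched} (hτ : ∀ j ≤ s.h, 0 < s.τ j) :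
    ∀ (c : Code) (j : ℕ), Adm s j c → ∀ nd ∈ c, 0 < nd.τ ∧ 1 ≤ nd.k
  | [], _, _, nd, h => by simp at h
  | nd0 :: c, j, h, nd, hnd => by
    have hj : j ≤ s.h := by
      have : ∀ (c : Code) (i : ℕ), Adm s i c → i ≤ s.h + 1 := by
        intro c
        induction c with
        | nil => intro i hi; simp only [Adm] at hi; omega
        | cons a c ih => intro i hi; simp only [Adm] at hi; have := ih _ hi.2.2.2.2.2; omega
      simp only [Adm] at h
      have := this c (j + 1) h.2.2.2.2.2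
      omega
    simp only [Adm] at h
    rcases List.mem_cons.1 hnd with rfl | hnd
    · exact ⟨by rw [h.2.2.1]; exact hτ j hj, by omega⟩
    · exact um_Adm_good hτ c (j + 1) h.2.2.2.2.2 nd hnd

theorem um_Adm_le {s : Sched} : ∀ (c : Code) (j : ℕ), Adm s j c → j ≤ s.h + 1
  | [], j, h => by simp only [Adm] at h; omega
  | nd :: c, j, h => by
    simp only [Adm] at h
    have := um_Adm_le c (j + 1) h.2.2.2.2.2
    omega

theorem um_Adm_leaves_le {s : Sched} : ∀ (c : Code) (j : ℕ), Adm s j c →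
    leaves c ≤ 4 ^ (s.h + 1 - j)
  | [], j, h => by simp [leaves]; exact Nat.one_le_pow _ _ (by norm_num)
  | nd :: c, j, h => by
    have hle := um_Adm_le (nd :: c) j h
    simp only [Adm] at h
    have h1 := um_Adm_leaves_le c (j + 1) h.2.2.2.2.2
    have h2 := um_Adm_le c (j + 1) h.2.2.2.2.2
    have e : s.h + 1 - j = (s.h + 1 - (j + 1)) + 1 := by omega
    rw [e, pow_succ]
    simp only [leaves]
    calc nd.k * leaves c ≤ 4 * 4 ^ (s.h + 1 - (j + 1)) := Nat.mul_le_mul h.2.1 h1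
      _ = 4 ^ (s.h + 1 - (j + 1)) * 4 := by ring

/-- The induction over the levels. -/
theorem levels {n D : ℕ} {E : PE n D} {x : Fin n → Bool} {t : ℕ} {C0 C1 C2 q : ℝ} {s : Sched}
    (hLS : ∀ (c : Code) (τ r A σ₁ σ₂ : ℝ),
      (∀ nd ∈ c, 0 < nd.τ ∧ 1 ≤ nd.k) → 6 * leaves c ≤ D → 0 < τ → 0 < r → r ≤ Real.pi →
      ProdKnown E x t c τ r (Real.sqrt τ) A → C0 * Real.sqrt τ ≤ σ₁ → σ₂ ≤ r / C0 →
      DeepKnown E x t c τ σ₁ σ₂ ((3 / 20) * A - C1 - 4 * Real.log (1 + r / Real.sqrt τ)))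
    (hSup : ∀ (c : Code) (τ' τ r A B : ℝ),
      (∀ nd ∈ c, 0 < nd.τ ∧ 1 ≤ nd.k) → 4 * leaves c ≤ D →
      0 < τ' → 1000 * τ' ≤ τ → 1 ≤ A → A ≤ B → 32 * Real.sqrt (B * τ) ≤ r →
      (∀ nd : Node, 2 ≤ nd.k → nd.k ≤ 4 → nd.τ = τ → nd.ρ ≤ 12 * Real.sqrt (B * τ) →
        (∀ a, |nd.f a| ≤ 2 * r) →
        DeepKnown E x t (nd :: c) τ' (Real.sqrt τ) (32 * Real.sqrt (B * τ)) A) →
      ProdKnown E x t c τ r (Real.sqrt τ) (A - C2 - (1 / 2) * Real.log (τ / τ')))
    (hC2 : 0 ≤ C2) (hD : 2 * 4 ^ (s.h + 1) ≤ D)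
    (hs : ∀ j ≤ s.h, 0 < s.τ j ∧ 1 ≤ s.A j ∧ 0 ≤ s.β j ∧ 0 < s.r j ∧ s.r j ≤ Real.pi ∧
        min (12 * q * s.r j) (16 * q * ((s.h + 1) * 4 ^ (j + 1)) * s.r j ^ 2) ≤ s.β j)
    (hs2 : ∀ j < s.h, 1000 * s.τ j ≤ s.τ (j + 1) ∧
        C0 * Real.sqrt (s.τ j) ≤ Real.sqrt (s.τ (j + 1)) ∧
        32 * Real.sqrt (2 * s.A (j + 1) * s.τ (j + 1)) ≤ s.r j / C0 ∧
        32 * Real.sqrt (2 * s.A (j + 1) * s.τ (j + 1)) ≤ s.r (j + 1) ∧
        C2 + (1 / 2) * Real.log (s.τ (j + 1) / s.τ j) ≤ s.A (j + 1) ∧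
        s.A (j + 1) + C2 + (1 / 2) * Real.log (s.τ (j + 1) / s.τ j) ≤
          (3 / 20) * s.A j - C1 - 4 * Real.log (1 + s.r j / Real.sqrt (s.τ j)))
    (h0 : ∀ c, Adm s 1 c → ProdKnown E x t c (s.τ 0) (s.r 0) (Real.sqrt (s.τ 0)) (s.A 0)) :
    ∀ j ≤ s.h, ∀ c, Adm s (j + 1) c →
      ProdKnown E x t c (s.τ j) (s.r j) (Real.sqrt (s.τ j)) (s.A j) := by
  intro j
  induction j with
  | zero => intro _ c hc; exact h0 c hc
  | succ j ih =>
    intro hj c hc
    have hjlt : j < s.h := by omega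
    obtain ⟨g1, g2, g3, g4, g5, g6⟩ := hs2 j hjlt
    obtain ⟨t0, a0, -, r0, rpi, -⟩ := hs j (by omega)
    obtain ⟨t1, a1, -, r1, -, -⟩ := hs (j + 1) hj
    have hτ : ∀ i ≤ s.h, 0 < s.τ i := fun i hi => (hs i hi).1
    have hlog : 0 ≤ Real.log (s.τ (j + 1) / s.τ j) := by
      apply Real.log_nonneg
      rw [le_div_iff₀ t0]; linarith
    have hle := um_Adm_le c _ hc
    have hlv := um_Adm_leaves_le c _ hc
    have e1 : (4 : ℕ) ^ (s.h + 1 - (j + 1 + 1)) * 4 = 4 ^ (s.h + 1 - (j + 1)) := by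
      rw [← pow_succ]; congr 1; omega
    have e2 : (4 : ℕ) ^ (s.h + 1 - (j + 1)) ≤ 4 ^ s.h :=
      Nat.pow_le_pow_right (by norm_num) (by omega)
    have e3 : (4 : ℕ) ^ (s.h + 1) = 4 ^ s.h * 4 := pow_succ _ _
    have key := hSup c (s.τ j) (s.τ (j + 1)) (s.r (j + 1))
      (s.A (j + 1) + C2 + (1 / 2) * Real.log (s.τ (j + 1) / s.τ j)) (2 * s.A (j + 1))
      (um_Adm_good hτ c _ hc) (by omega) t0 g1 (by linarith) (by linarith) g4 ?_
    · have e : s.A (j + 1) + C2 + (1 / 2) * Real.log (s.τ (j + 1) / s.τ j) - C2 -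
          (1 / 2) * Real.log (s.τ (j + 1) / s.τ j) = s.A (j + 1) := by ring
      rw [e] at key
      exact key
    · intro nd k2 k4 hnτ hnρ hnf
      have hadm : Adm s (j + 1) (nd :: c) := by
        simp only [Adm]
        exact ⟨k2, k4, hnτ, hnρ, hnf, hc⟩
      have hlv' := um_Adm_leaves_le (nd :: c) _ hadm
      have hP := ih (by omega) (nd :: c) hadm
      have hDk := hLS (nd :: c) (s.τ j) (s.r j) (s.A j) (Real.sqrt (s.τ (j + 1)))
        (32 * Real.sqrt (2 * s.A (j + 1) * s.τ (j + 1)))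
        (um_Adm_good hτ (nd :: c) _ hadm) (by omega) t0 r0 rpi hP g2 g3
      exact um_DeepKnown_mono hDk g6

set_option maxHeartbeats 800000 in
theorem u_main (hLS : LevelStepStatement) (hFS : FinalStepStatement)
    (hSup : SuperpositionStatement) (hAcc : AccessStatement) (hPD : PureOfDataStatement)
    (hSch : SchedStatement) : UMainStatement := by
  obtain ⟨C0, C1, hC0, hC1, hLS⟩ := hLS
  obtain ⟨C1', hC1', hFS⟩ := hFS
  obtain ⟨C2, hC2, hSup⟩ := hSup
  obtain ⟨q0, C, hq0, hq024, hC, hSch⟩ := hSch C0 (max C1 C1') C2 hC0 (le_max_of_le_left hC1) hC2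
  refine ⟨20 * C + 16 * C / q0, ?_, ?_⟩
  · have : 0 ≤ 16 * C / q0 := by positivity
    linarith
  intro n p hn hp hp1
  have hn0 : (0 : ℝ) < n := by positivity
  have hn2 : (2 : ℝ) ≤ n := by exact_mod_cast hn
  have hlog2 : (1 / 2 : ℝ) ≤ Real.log 2 := by
    have := Real.log_two_gt_d9; linarith
  have hlogn : Real.log 2 ≤ Real.log n := Real.log_le_log (by norm_num) hn2
  -- the deletion probability used in the analysis
  obtain ⟨q, hq, hqq0, hqn, hcase, hX⟩ : ∃ q : ℝ, 0 < q ∧ q ≤ q0 ∧ min (1 / (n : ℝ)) q0 ≤ q ∧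
      ((1 - q ≤ p) ∨ (p < 1 - q ∧ q = q0)) ∧
      (1 + Real.log n / (1 + Real.log (1 / q))) ≤
        2 * (1 + Real.log n / (1 + Real.log (1 / (1 - p)))) := by
    have hlp : 0 ≤ Real.log (1 / (1 - p)) := by
      apply Real.log_nonneg
      rw [le_div_iff₀ (by linarith)]; linarith
    have hdiv : 0 ≤ Real.log n / (1 + Real.log (1 / (1 - p))) := by
      apply div_nonneg <;> linarith
    by_cases h : q0 ≤ 1 - p
    · refine ⟨q0, hq0, le_rfl, min_le_right _ _, ?_, ?_⟩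
      · rcases eq_or_lt_of_le h with h | h
        · left; linarith
        · right; exact ⟨by linarith, rfl⟩
      · have h1 : Real.log (1 / (1 - p)) ≤ Real.log (1 / q0) := by
          apply Real.log_le_log (one_div_pos.2 (by linarith))
          exact one_div_le_one_div_of_le hq0 h
        have h2 : Real.log n / (1 + Real.log (1 / q0)) ≤
            Real.log n / (1 + Real.log (1 / (1 - p))) := by
          apply div_le_div_of_nonneg_left <;> linarith
        linarith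
    · push Not at h
      by_cases h' : min (1 / (n : ℝ)) q0 ≤ 1 - p
      · refine ⟨1 - p, by linarith, h.le, h', Or.inl (by linarith), ?_⟩
        linarith
      · push Not at h'
        refine ⟨min (1 / (n : ℝ)) q0, by positivity, min_le_right _ _, le_rfl,
          Or.inl (by linarith), ?_⟩
        have hm : 0 < min (1 / (n : ℝ)) q0 := by positivity
        have h1 : Real.log n ≤ Real.log (1 / min (1 / (n : ℝ)) q0) := by
          apply Real.log_le_log hn0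
          rw [le_div_iff₀ hm]
          calc (n : ℝ) * min (1 / (n : ℝ)) q0 ≤ n * (1 / n) :=
                mul_le_mul_of_nonneg_left (min_le_left _ _) hn0.le
            _ = 1 := by field_simp
        have h2 : Real.log n / (1 + Real.log (1 / min (1 / (n : ℝ)) q0)) ≤ 1 := by
          rw [div_le_one (by linarith)]; linarith
        linarith
  obtain ⟨s, hs, hrh, hs2, hfin, hcost, hK⟩ := hSch n q hn hq hqq0 hqn
  set Xp : ℝ := 1 + Real.log n / (1 + Real.log (1 / (1 - p))) with hXp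
  set Xq : ℝ := 1 + Real.log n / (1 + Real.log (1 / q)) with hXq
  have hlp : 0 ≤ Real.log (1 / (1 - p)) := by
    apply Real.log_nonneg
    rw [le_div_iff₀ (by linarith)]; linarith
  have hlq : 0 ≤ Real.log (1 / q) := by
    apply Real.log_nonneg
    rw [le_div_iff₀ hq]; linarith
  have hXq1 : 1 ≤ Xq := by
    have : 0 ≤ Real.log n / (1 + Real.log (1 / q)) := by apply div_nonneg <;> linarith
    linarith
  have hXp1 : 1 ≤ Xp := by
    have : 0 ≤ Real.log n / (1 + Real.log (1 / (1 - p))) := by apply div_nonneg <;> linarith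
    linarith
  have hXX : Xq ^ 2 ≤ 4 * Xp ^ 2 := by nlinarith
  set Yq : ℝ := Real.log n * Xq ^ 2 with hYq
  have hYq0 : 0 ≤ Yq := by positivity
  have hYqp : Yq ≤ 4 * (Real.log n * Xp ^ 2) := by
    have : 0 ≤ Real.log n := by linarith
    calc Yq = Real.log n * Xq ^ 2 := rfl
      _ ≤ Real.log n * (4 * Xp ^ 2) := mul_le_mul_of_nonneg_left hXX this
      _ = _ := by ring
  have hpinv : 1 ≤ p⁻¹ := (one_le_inv₀ hp).2 hp1.le
  have hYle : Yq ≤ 4 * (p⁻¹ * Real.log n * Xp ^ 2) := by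
    have h0 : 0 ≤ Real.log n * Xp ^ 2 := by
      have : 0 ≤ Real.log n := by linarith
      positivity
    have h1 : Real.log n * Xp ^ 2 ≤ p⁻¹ * (Real.log n * Xp ^ 2) := le_mul_of_one_le_left h0 hpinv
    calc Yq ≤ 4 * (Real.log n * Xp ^ 2) := hYqp
      _ ≤ 4 * (p⁻¹ * (Real.log n * Xp ^ 2)) := by linarith
      _ = _ := by ring
  have hCq : 0 ≤ 16 * C / q0 := by positivity
  have hY0 : 0 ≤ p⁻¹ * Real.log n * Xp ^ 2 := by
    have : 0 ≤ Real.log n := by linarith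
    positivity
  refine ⟨4 ^ (s.h + 1), Nat.one_le_pow _ _ (by norm_num), ?_, ?_⟩
  · push_cast
    calc (4 : ℝ) ^ (s.h + 1) * Real.log n ≤ C * Yq := hK
      _ ≤ C * (4 * (p⁻¹ * Real.log n * Xp ^ 2)) := mul_le_mul_of_nonneg_left hYle (by linarith)
      _ = (4 * C) * (p⁻¹ * Real.log n * Xp ^ 2) := by ring
      _ ≤ (20 * C + 16 * C / q0) * (p⁻¹ * Real.log n * Xp ^ 2) :=
          mul_le_mul_of_nonneg_right (by linarith) hY0
  intro D E x t hD ht hpre hdata
  -- pure statistics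
  have hb : s.cost n ≤ C * Yq := hcost
  have hKlog : (4 : ℝ) ^ (s.h + 1) * Real.log n ≤ C * Yq := hK
  have hKpos : (0 : ℝ) < (4 : ℝ) ^ (s.h + 1) := by positivity
  have hK2 : (4 : ℝ) ^ (s.h + 1) ≤ 2 * (C * Yq) := by
    have : (4 : ℝ) ^ (s.h + 1) * (1 / 2) ≤ (4 : ℝ) ^ (s.h + 1) * Real.log n :=
      mul_le_mul_of_nonneg_left (by linarith) hKpos.le
    linarith
  have hlogp : Real.log (1 / p) ≤ p⁻¹ := by
    rw [one_div]
    have := Real.add_one_le_exp (Real.log p⁻¹)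
    have h2 := Real.log_le_sub_one_of_pos (inv_pos.2 hp)
    linarith
  have hlogp0 : 0 ≤ Real.log (1 / p) := by
    apply Real.log_nonneg
    rw [le_div_iff₀ hp]; linarith
  have hn1 : Real.log (n + 1) ≤ 2 * Real.log n := by
    have : Real.log (n + 1) ≤ Real.log ((n : ℝ) ^ 2) := by
      apply Real.log_le_log (by linarith); nlinarith
    rw [Real.log_pow] at this; push_cast at this; exact this
  have hn3 : Real.log (2 * n + 2) ≤ 3 * Real.log n := by
    have : Real.log (2 * n + 2) ≤ Real.log ((n : ℝ) ^ 3) := by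
      apply Real.log_le_log (by linarith); nlinarith [mul_nonneg hn0.le hn0.le, mul_le_mul hn2 hn2 (by norm_num) hn0.le]
    rw [Real.log_pow] at this; push_cast at this; exact this
  have hCY : 0 ≤ C * Yq := by positivity
  have e1 : (4 : ℝ) ^ (s.h + 1) * Real.log (1 / p) ≤ 2 * (C * Yq) * p⁻¹ :=
    mul_le_mul hK2 hlogp hlogp0 (by positivity)
  have e2 : (4 : ℝ) ^ (s.h + 1) * Real.log (n + 1) ≤ 2 * (C * Yq) := by
    calc (4 : ℝ) ^ (s.h + 1) * Real.log (n + 1) ≤ (4 : ℝ) ^ (s.h + 1) * (2 * Real.log n) :=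
          mul_le_mul_of_nonneg_left hn1 hKpos.le
      _ = 2 * ((4 : ℝ) ^ (s.h + 1) * Real.log n) := by ring
      _ ≤ _ := by linarith
  have e3 : (4 : ℝ) ^ (s.h + 1) * Real.log (2 * n + 2) ≤ 3 * (C * Yq) := by
    calc (4 : ℝ) ^ (s.h + 1) * Real.log (2 * n + 2) ≤ (4 : ℝ) ^ (s.h + 1) * (3 * Real.log n) :=
          mul_le_mul_of_nonneg_left hn3 hKpos.le
      _ = 3 * ((4 : ℝ) ^ (s.h + 1) * Real.log n) := by ring
      _ ≤ _ := by linarith
  have e4 : C * Yq ≤ C * Yq * p⁻¹ := le_mul_of_one_le_right hCY hpinv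
  set B : ℝ := (20 * C + 16 * C / q0) * (p⁻¹ * Real.log n * Xp ^ 2) with hB
  have hBlow : (5 * C + 4 * C / q0) * Yq * p⁻¹ ≤ B := by
    have h4 : 0 ≤ (5 * C + 4 * C / q0) * p⁻¹ := by positivity
    calc (5 * C + 4 * C / q0) * Yq * p⁻¹ = (5 * C + 4 * C / q0) * p⁻¹ * Yq := by ring
      _ ≤ (5 * C + 4 * C / q0) * p⁻¹ * (4 * (Real.log n * Xp ^ 2)) :=
          mul_le_mul_of_nonneg_left hYqp h4
      _ = B := by rw [hB]; ring
  have hB5 : 5 * (C * Yq * p⁻¹) + 4 * C / q0 * Yq * p⁻¹ ≤ B := by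
    refine le_trans (le_of_eq ?_) hBlow
    ring
  have e1' : (4 : ℝ) ^ (s.h + 1) * Real.log (1 / p) ≤ 2 * (C * Yq * p⁻¹) :=
    e1.trans (le_of_eq (by ring))
  have hlogβ : -Real.log (Real.exp (-B)) = B := by rw [Real.log_exp, neg_neg]
  have hDK : 4 ^ (s.h + 1) ≤ D := by omega
  obtain ⟨pd1, pd2⟩ := hPD n D E x p (1 - q) (4 ^ (s.h + 1)) (Real.exp (-B)) (s.cost n)
    (by omega) hDK hp hp1 (by linarith) (by linarith) (Real.exp_pos _).le hdata
  have hpure : PureKnown E x (1 - q) (4 ^ (s.h + 1)) (Real.exp (-(s.cost n))) := by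
    rcases hcase with h | ⟨h, hqe⟩
    · apply pd1 h
      left
      rw [hlogβ]
      push_cast
      have : 0 ≤ 4 * C / q0 * Yq * p⁻¹ := by positivity
      clear_value B
      linarith only [this, hB5, e1', e2, e4, hb]
    · apply pd2 h
      left
      rw [hlogβ]
      push_cast
      have hq' : (1 - (1 - q)) * p = q0 * p := by rw [hqe]; ring
      rw [hq']
      have e5 : (s.cost n + (4 : ℝ) ^ (s.h + 1) * Real.log (2 * n + 2)) / (q0 * p) ≤
          4 * C / q0 * Yq * p⁻¹ := by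
        rw [div_le_iff₀ (by positivity)]
        have : 4 * C / q0 * Yq * p⁻¹ * (q0 * p) = 4 * (C * Yq) := by
          field_simp
        rw [this]; linarith
      clear_value B
      linarith only [e5, hB5, e1', e2, e4, hCY]
  have hacc : ∀ c, Adm s 1 c →
      ProdKnown E x t c (s.τ 0) (s.r 0) (Real.sqrt (s.τ 0)) (s.A 0) := fun c hc =>
    hAcc n D E x t q s c (s.cost n) hq (hqq0.trans hq024) ht.le hD
      (fun j hj => ⟨(hs j hj).1, (hs j hj).2.1, (hs j hj).2.2.1, (hs j hj).2.2.2.1.le,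
        (hs j hj).2.2.2.2.2⟩) hc hpure le_rfl
  have hD6 : 6 ≤ D := by
    have : 4 ^ 1 ≤ 4 ^ (s.h + 1) := Nat.pow_le_pow_right (by norm_num) (by omega)
    omega
  have hall := levels (E := E) (x := x) (t := t) (C0 := C0) (C1 := max C1 C1') (C2 := C2) (q := q)
    (s := s)
    (fun c τ r A σ₁ σ₂ h1 h2 h3 h4 h5 h6 h7 h8 =>
      um_DeepKnown_mono (hLS n D E x t c τ r A σ₁ σ₂ h1 h2 hpre h3 h4 h5 h6 h7 h8)
        (by have := le_max_left C1 C1'; linarith))
    (fun c τ' τ r A B h1 h2 h3 h4 h5 h6 h7 h8 =>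
      hSup n D E x t c τ' τ r A B h1 h2 hpre h3 h4 h5 h6 h7 h8)
    hC2 hD hs hs2 hacc s.h le_rfl [] (by simp [Adm])
  rw [hrh] at hall
  have hf := hFS n D E x t (s.τ s.h) (s.A s.h) hD6 ht hpre (hs s.h le_rfl).1 hall
  refine lt_of_le_of_lt (hf.trans ?_) hfin
  apply mul_le_mul_of_nonneg_left _ (um_Wt_nonneg _)
  apply Real.exp_le_exp.2
  have := le_max_right C1 C1'
  linarith

end Crest.Agent.R300U
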